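import Vale.Agent.Lib.P248G.Poly

/-!
# P248, JOB P8: from polytopes to convex bodies.
-/

open MeasureTheory Set Matrix
open scoped Classical Pointwise

noncomputable section

namespace Vale.Agent.Lib.P248G

/-- The corners of the box around `x`. -/
private def corners (x : E3) (δ : ℝ) : Set E3 := Set.pi univ (fun i => ({x i - δ, x i + δ} : Set ℝ))

private lemma corners_finite (x : E3) (δ : ℝ) : (corners x δ).Finite := by
  unfold corners
  exact Set.Finite.pi (fun i => Set.toFinite ({x i - δ, x i + δ} : Set ℝ))

private lemma convexHull_corners (x : E3) {δ : ℝ} (hδ : 0 ≤ δ) :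
    convexHull ℝ (corners x δ) = Metric.closedBall x δ := by
  unfold corners
  rw [convexHull_pi, closedBall_pi _ hδ]
  congr 1
  funext i
  rw [convexHull_pair, Real.closedBall_eq_Icc, segment_eq_Icc (by linarith)]

/-- Exhaustion: a finite set in `K` whose hull contains `K'`, when `K'` is compact in `interior K`
and contains `z`, with `z` interior to the hull. -/
private lemma exists_finset {K K' : Set E3} (hK' : IsCompact K') (hsub : K' ⊆ interior K)
    (hconv : Convex ℝ K) {z : E3} (hz : z ∈ K') :
    ∃ S : Finset E3, (S : Set E3) ⊆ K ∧ K' ⊆ convexHull ℝ (S : Set E3) ∧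
      z ∈ interior (convexHull ℝ (S : Set E3)) := by
  classical
  have hball : ∀ x ∈ K', ∃ δ > 0, Metric.closedBall x δ ⊆ K := by
    intro x hx
    have hmem : K ∈ nhds x := mem_interior_iff_mem_nhds.1 (hsub hx)
    exact Metric.nhds_basis_closedBall.mem_iff.1 hmem
  choose! δ hδ hδK using hball
  obtain ⟨t, ht, hcov⟩ := hK'.elim_nhds_subcover (fun x => Metric.ball x (δ x))
    (fun x hx => Metric.ball_mem_nhds x (hδ x hx))
  have hfin : (⋃ x ∈ t, corners x (δ x)).Finite := by
    refine Set.Finite.biUnion t.finite_toSet (fun x _ => corners_finite x _)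
  refine ⟨hfin.toFinset, ?_, ?_, ?_⟩
  · intro p hp
    simp only [Set.Finite.coe_toFinset, mem_iUnion] at hp
    obtain ⟨x, hxt, hp⟩ := hp
    have hx := ht x hxt
    have h1 : p ∈ convexHull ℝ (corners x (δ x)) := subset_convexHull ℝ _ hp
    rw [convexHull_corners x (hδ x hx).le] at h1
    exact hδK x hx h1
  · intro p hp
    have hp' := hcov hp
    simp only [mem_iUnion] at hp'
    obtain ⟨x, hxt, hpx⟩ := hp'
    have hx := ht x hxt
    have h1 : p ∈ Metric.closedBall x (δ x) := Metric.ball_subset_closedBall hpx
    rw [← convexHull_corners x (hδ x hx).le] at h1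
    refine convexHull_mono ?_ h1
    simp only [Set.Finite.coe_toFinset]
    exact subset_biUnion_of_mem (u := fun x => corners x (δ x)) hxt
  · have hp' := hcov hz
    simp only [mem_iUnion] at hp'
    obtain ⟨x, hxt, hpx⟩ := hp'
    have hx := ht x hxt
    have hsubb : Metric.ball x (δ x) ⊆ convexHull ℝ ((hfin.toFinset : Finset E3) : Set E3) := by
      intro q hq
      have h1 : q ∈ Metric.closedBall x (δ x) := Metric.ball_subset_closedBall hq
      rw [← convexHull_corners x (hδ x hx).le] at h1
      refine convexHull_mono ?_ h1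
      simp only [Set.Finite.coe_toFinset]
      exact subset_biUnion_of_mem (u := fun x => corners x (δ x)) hxt
    exact interior_mono hsubb (by rw [mem_interior]; exact ⟨_, subset_rfl, Metric.isOpen_ball, hpx⟩)

/-- Bounded polar: the polar body of a set with `z` in the interior has finite volume. -/
private lemma polarAt_volume_lt_top {K : Set E3} {z : E3} (hz : z ∈ interior K) :
    volume (polarAt K z) < ⊤ := by
  obtain ⟨ρ, hρ, hball⟩ := Metric.nhds_basis_closedBall.mem_iff.1 (mem_interior_iff_mem_nhds.1 hz)
  have hsub : polarAt K z ⊆ Metric.closedBall (0 : E3) (1 / ρ) := by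
    intro y hy
    rw [mem_closedBall_zero_iff, pi_norm_le_iff_of_nonneg (by positivity)]
    intro i
    -- test against the point z ± ρ e_i
    have key : ∀ s : ℝ, |s| = ρ → y i * s ≤ 1 := by
      intro s hs
      have hmem : (z + Pi.single i s) ∈ Metric.closedBall z ρ := by
        rw [Metric.mem_closedBall, dist_eq_norm]
        have e : z + Pi.single i s - z = (Pi.single i s : E3) := by abel
        rw [e, pi_norm_le_iff_of_nonneg hρ.le]
        intro j
        by_cases hj : j = i
        · subst hj
          simp [hs]
        · simp [Pi.single_eq_of_ne hj, hρ.le]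
      have := hy _ (hball hmem)
      have e2 : z + Pi.single i s - z = (Pi.single i s : E3) := by abel
      rw [e2] at this
      simpa [dotProduct_single] using this
    rw [Real.norm_eq_abs, abs_le]
    have h1 := key ρ (abs_of_pos hρ)
    have h2 := key (-ρ) (by rw [abs_neg, abs_of_pos hρ])
    constructor
    · have : -(y i) * ρ ≤ 1 := by nlinarith
      rw [neg_le, neg_eq_neg_one_mul]
      rw [le_div_iff₀ hρ]
      nlinarith
    · rw [le_div_iff₀ hρ]
      exact h1
  exact lt_of_le_of_lt (measure_mono hsub) Metric.isBounded_closedBall.measure_lt_top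

/-- A lower bound for polytopes in convex position gives the same lower bound for convex bodies. -/
theorem volProd_body {c : ℝ} (hc0 : 0 ≤ c)
    (H : ∀ X : Finset E3, ConvexPos X → Spans X → ∀ z ∈ interior (cx X), c ≤ volProd (cx X) z)
    {K : Set E3} (hK : IsCompact K) (hconv : Convex ℝ K) {z : E3} (hz : z ∈ interior K) :
    c ≤ volProd K z := by
  classical
  have hzK : z ∈ K := interior_subset hz
  have main : ∀ ε : ℝ, 0 < ε → ε < 1 → (1 - ε) ^ 3 * c ≤ volProd K z := by
    intro ε hε0 hε1
    have hpos : 0 < 1 - ε := by linarith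
    -- the shrunken body
    let φ : E3 → E3 := fun x => (1 - ε) • x + ε • z
    have hφc : Continuous φ := by fun_prop
    let K' : Set E3 := φ '' K
    have hK' : IsCompact K' := hK.image hφc
    have hsub : K' ⊆ interior K := by
      rintro _ ⟨x, hx, rfl⟩
      exact hconv.combo_self_interior_mem_interior hx hz hpos.le hε0 (by ring)
    have hzK' : z ∈ K' := by
      refine ⟨z, hzK, ?_⟩
      simp only [φ]
      rw [← add_smul]
      simp
    obtain ⟨S, hSK, hK'S, hzS⟩ := exists_finset hK' hsub hconv hzK'
    let X := vert S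
    have hX : cx X = convexHull ℝ (S : Set E3) := convexHull_vert S
    have hzX : z ∈ interior (cx X) := by rw [hX]; exact hzS
    have hbound := H X (convexPos_vert S) ⟨z, hzX⟩ z hzX
    have hXK : cx X ⊆ K := by
      rw [hX]
      exact convexHull_min hSK hconv
    have hvol1 : (volume (cx X)).toReal ≤ (volume K).toReal :=
      ENNReal.toReal_mono hK.measure_lt_top.ne (measure_mono hXK)
    -- polar comparison
    have hpolar : (1 - ε) • polarAt (cx X) z ⊆ polarAt K z := by
      rintro _ ⟨y, hy, rfl⟩
      intro x hx
      have hm : φ x ∈ cx X := by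
        rw [hX]
        exact hK'S ⟨x, hx, rfl⟩
      have h1 := hy _ hm
      have e : φ x - z = (1 - ε) • (x - z) := by
        simp only [φ]
        ext i
        simp only [Pi.add_apply, Pi.sub_apply, Pi.smul_apply, smul_eq_mul]
        ring
      rw [e, dotProduct_smul] at h1
      rw [smul_dotProduct]
      exact h1
    have hfin1 : volume (polarAt K z) < ⊤ := polarAt_volume_lt_top hz
    have hfin2 : volume (polarAt (cx X) z) < ⊤ := polarAt_volume_lt_top hzX
    have hvol2 : (1 - ε) ^ 3 * (volume (polarAt (cx X) z)).toReal ≤ (volume (polarAt K z)).toReal := by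
      have h := measure_mono (μ := volume) hpolar
      rw [Measure.addHaar_smul] at h
      have hd : Module.finrank ℝ E3 = 3 := by simp
      rw [hd] at h
      have h2 := ENNReal.toReal_mono hfin1.ne h
      rw [ENNReal.toReal_mul, ENNReal.toReal_ofReal (abs_nonneg _),
        abs_of_pos (by positivity)] at h2
      exact h2
    have hv0 : 0 ≤ (volume (cx X)).toReal := ENNReal.toReal_nonneg
    have hp0 : 0 ≤ (volume (polarAt (cx X) z)).toReal := ENNReal.toReal_nonneg
    have hc3 : 0 ≤ (1 - ε) ^ 3 := by positivity
    calc (1 - ε) ^ 3 * c ≤ (1 - ε) ^ 3 * volProd (cx X) z := mul_le_mul_of_nonneg_left hbound hc3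
      _ = (volume (cx X)).toReal * ((1 - ε) ^ 3 * (volume (polarAt (cx X) z)).toReal) := by
          unfold volProd; ring
      _ ≤ (volume K).toReal * (volume (polarAt K z)).toReal :=
          mul_le_mul hvol1 hvol2 (by positivity) ENNReal.toReal_nonneg
      _ = volProd K z := rfl
  -- let ε tend to zero
  have hlim : Filter.Tendsto (fun ε : ℝ => (1 - ε) ^ 3 * c) (nhdsWithin 0 (Ioo 0 1)) (nhds c) := by
    have : Filter.Tendsto (fun ε : ℝ => (1 - ε) ^ 3 * c) (nhds 0) (nhds ((1 - 0) ^ 3 * c)) := by
      apply Continuous.tendsto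
      fun_prop
    simp only [sub_zero, one_pow, one_mul] at this
    exact this.mono_left nhdsWithin_le_nhds
  have hne : (nhdsWithin (0 : ℝ) (Ioo 0 1)).NeBot :=
    mem_closure_iff_nhdsWithin_neBot.1 (by
      rw [closure_Ioo (by norm_num)]
      exact ⟨le_refl _, by norm_num⟩)
  refine le_of_tendsto hlim ?_
  filter_upwards [self_mem_nhdsWithin] with ε hε
  exact main ε hε.1 hε.2

end Vale.Agent.Lib.P248G
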