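import Vale.Agent.Lib.P248G.HP

/-!
# P248, JOB A3: chords of shadow polytopes and the splitting of the polar volume.

`shK b h` is the convex hull of the points `mk (h i) (b i)`.
-/

open MeasureTheory Set Matrix
open scoped ENNReal

noncomputable section

namespace Vale.Agent.Lib.P248G

variable {ι : Type} [Fintype ι]

/-- The shadow polytope with bases `b` and heights `h`. -/
def shK (b : ι → E2) (h : ι → ℝ) : Set E3 := convexHull ℝ (range fun i => mk (h i) (b i))

private lemma chord_exists_dot (f : E3 →L[ℝ] ℝ) : ∃ p : E3, ∀ a : E3, f a = p ⬝ᵥ a := by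
  refine ⟨fun i => f (Pi.single i 1), fun a => ?_⟩
  have h : a = ∑ i, a i • (Pi.single i (1 : ℝ) : E3) := by
    ext j
    simp [Finset.sum_apply, Pi.single_apply]
  conv_lhs => rw [h]
  rw [map_sum]
  simp only [map_smul, smul_eq_mul, dotProduct]
  exact Finset.sum_congr rfl (fun i _ => by ring)

private lemma continuous_mk : Continuous (fun q : ℝ × E2 => mk q.1 q.2) := by
  refine continuous_pi (fun i => ?_)
  refine Fin.cases ?_ (fun j => ?_) i
  · simpa [mk] using continuous_fst
  · have hj : Continuous (fun q : ℝ × E2 => q.2 j) :=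
      (continuous_apply (A := fun _ : Fin 2 => ℝ) j).comp continuous_snd
    simpa [mk] using hj

private lemma continuous_base' : Continuous (base : E3 → E2) :=
  continuous_pi (fun j => continuous_apply j.succ)

private lemma base_add' (x y : E3) : base (x + y) = base x + base y := by
  funext j
  simp [base, Fin.tail]

private lemma base_smul' (c : ℝ) (x : E3) : base (c • x) = c • base x := by
  funext j
  simp [base, Fin.tail]

/-- Weights for a point in the hull of a finite family. -/
private lemma exists_weights {E : Type*} [AddCommGroup E] [Module ℝ E] (f : ι → E) {p : E}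
    (hp : p ∈ convexHull ℝ (range f)) :
    ∃ l : ι → ℝ, (∀ i, 0 ≤ l i) ∧ ∑ i, l i = 1 ∧ ∑ i, l i • f i = p := by
  classical
  let A : Set E := {p | ∃ l : ι → ℝ, (∀ i, 0 ≤ l i) ∧ ∑ i, l i = 1 ∧ ∑ i, l i • f i = p}
  have hA : Convex ℝ A := by
    rintro x ⟨l, h0, h1, h2⟩ y ⟨l', h0', h1', h2'⟩ a b ha hb hab
    refine ⟨fun i => a * l i + b * l' i, fun i => ?_, ?_, ?_⟩
    · have := h0 i
      have := h0' i
      positivity
    · rw [Finset.sum_add_distrib, ← Finset.mul_sum, ← Finset.mul_sum, h1, h1']
      linarith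
    · simp only [add_smul, mul_smul]
      rw [Finset.sum_add_distrib, ← Finset.smul_sum, ← Finset.smul_sum, h2, h2']
  have hsub : range f ⊆ A := by
    rintro _ ⟨i, rfl⟩
    refine ⟨Pi.single i 1, fun j => ?_, by simp, ?_⟩
    · simp only [Pi.single_apply]
      split_ifs <;> norm_num
    · rw [Finset.sum_eq_single i]
      · simp
      · intro j _ hj
        simp [hj]
      · simp
  exact convexHull_min hsub hA hp

/-- Membership in `shK` by convex weights. -/
lemma mem_shK_iff [Nonempty ι] {b : ι → E2} {h : ι → ℝ} {p : E3} :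
    p ∈ shK b h ↔ ∃ l : ι → ℝ, (∀ i, 0 ≤ l i) ∧ ∑ i, l i = 1 ∧
      ∑ i, l i • b i = base p ∧ ∑ i, l i * h i = p 0 := by
  constructor
  · intro hp
    obtain ⟨l, h0, h1, h2⟩ := exists_weights _ hp
    refine ⟨l, h0, h1, ?_, ?_⟩
    · rw [← h2]
      funext j
      simp [base, Fin.tail, Finset.sum_apply, mk]
    · rw [← h2]
      simp [Finset.sum_apply, mk]
  · rintro ⟨l, h0, h1, h2, h3⟩
    have hp : p = ∑ i, l i • mk (h i) (b i) := by
      have h4 : ∀ j : Fin 3, p j = (∑ i, l i • mk (h i) (b i)) j := by
        intro j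
        refine Fin.cases ?_ (fun k => ?_) j
        · simp [Finset.sum_apply, mk, h3]
        · have := congrFun h2 k
          simp only [Finset.sum_apply, Pi.smul_apply, smul_eq_mul, base, Fin.tail] at this
          simp [Finset.sum_apply, mk, this]
      exact funext h4
    rw [hp]
    exact (convex_convexHull ℝ _).sum_mem (fun i _ => h0 i) h1
      (fun i _ => subset_convexHull ℝ _ ⟨i, rfl⟩)

/-- `polarAt` of a hull only depends on the generating points. -/
lemma polarAt_shK (b : ι → E2) (h : ι → ℝ) (x : ℝ) (z' : E2) :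
    polarAt (shK b h) (mk x z') =
      {y | ∀ i, y 0 * (h i - x) + base y ⬝ᵥ (b i - z') ≤ 1} := by
  have hform : ∀ (y : E3) (i : ι), y ⬝ᵥ (mk (h i) (b i) - mk x z') =
      y 0 * (h i - x) + base y ⬝ᵥ (b i - z') := by
    intro y i
    rw [mk_sub, dot_mk]
  ext y
  constructor
  · intro hy i
    have := hy (mk (h i) (b i)) (subset_convexHull ℝ _ ⟨i, rfl⟩)
    rwa [hform] at this
  · intro hy p hp
    have hconv : Convex ℝ {p : E3 | y ⬝ᵥ (p - mk x z') ≤ 1} := by
      intro p₁ h₁ p₂ h₂ a c ha hc hac
      have h₁' : y ⬝ᵥ (p₁ - mk x z') ≤ 1 := h₁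
      have h₂' : y ⬝ᵥ (p₂ - mk x z') ≤ 1 := h₂
      have h3 : a • p₁ + c • p₂ - mk x z' = a • (p₁ - mk x z') + c • (p₂ - mk x z') := by
        have : mk x z' = a • mk x z' + c • mk x z' := by rw [← add_smul, hac, one_smul]
        conv_lhs => rw [this]
        simp only [smul_sub]
        abel
      show y ⬝ᵥ (a • p₁ + c • p₂ - mk x z') ≤ 1
      rw [h3, dotProduct_add, dotProduct_smul, dotProduct_smul, smul_eq_mul, smul_eq_mul]
      nlinarith
    refine convexHull_min ?_ hconv hp
    rintro _ ⟨i, rfl⟩
    show y ⬝ᵥ (mk (h i) (b i) - mk x z') ≤ 1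
    rw [hform]
    exact hy i

/-- The polar splits into the part with `y 0 > 0`, the part with `y 0 < 0` (reflect `y 0`, a volume
preserving map, use `volume_preserving_piFinSuccAbove`) and the null set `y 0 = 0`
(`Measure.addHaar_affineSubspace` or the product formula). -/
theorem volume_polar_split (b : ι → E2) (h : ι → ℝ) (x : ℝ) (z' : E2) :
    volume (polarAt (shK b h) (mk x z')) =
      hp (fun i => b i - z') (fun i => h i - x) + hp (fun i => b i - z') (fun i => x - h i) := by
  rw [polarAt_shK]
  set P : Set E3 := {y | ∀ i, y 0 * (h i - x) + base y ⬝ᵥ (b i - z') ≤ 1} with hP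
  have hPm : MeasurableSet P := by
    have hcl : IsClosed P := by
      have : P = ⋂ i, {y : E3 | y 0 * (h i - x) + base y ⬝ᵥ (b i - z') ≤ 1} := by
        ext y
        simp [hP]
      rw [this]
      refine isClosed_iInter (fun i => isClosed_le ?_ continuous_const)
      have h1 : Continuous (fun y : E3 => y 0) := continuous_apply 0
      have h2 : Continuous (fun y : E3 => base y ⬝ᵥ (b i - z')) := by
        have := continuous_base'
        fun_prop
      exact (h1.mul continuous_const).add h2
    exact hcl.measurableSet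
  have h0cont : Continuous (fun y : E3 => y 0) := continuous_apply 0
  have hpos : MeasurableSet {y : E3 | 0 < y 0} := (isOpen_lt continuous_const h0cont).measurableSet
  have hneg : MeasurableSet {y : E3 | y 0 < 0} := (isOpen_lt h0cont continuous_const).measurableSet
  have h1 : halfPolar (fun i => b i - z') (fun i => h i - x) = P ∩ {y : E3 | 0 < y 0} := by
    ext y
    simp [halfPolar, hP, and_comm]
  -- the reflection
  let f : Fin 3 → ℝ → ℝ := fun i t => if i = 0 then -t else t
  have hf : ∀ i, MeasurePreserving (f i) volume volume := by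
    intro i
    by_cases hi : i = 0
    · simp only [f, hi, if_true]
      exact Measure.measurePreserving_neg volume
    · simp only [f, hi, if_false]
      exact MeasurePreserving.id volume
  have hρ := volume_preserving_pi hf
  have h2 : halfPolar (fun i => b i - z') (fun i => x - h i) =
      (fun (a : E3) i => f i (a i)) ⁻¹' (P ∩ {y : E3 | y 0 < 0}) := by
    ext y
    have hb : base (fun i => f i (y i)) = base y := by
      funext j
      simp [base, Fin.tail, f]
    simp only [halfPolar, hP, Set.mem_ofPred_eq, mem_preimage, mem_inter_iff, hb]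
    have h00 : f 0 (y 0) = - y 0 := by simp [f]
    rw [h00]
    constructor
    · rintro ⟨h3, h4⟩
      refine ⟨fun i => ?_, by linarith⟩
      have := h4 i
      have e : -y 0 * (h i - x) = y 0 * (x - h i) := by ring
      rwa [e]
    · rintro ⟨h3, h4⟩
      refine ⟨by linarith, fun i => ?_⟩
      have := h3 i
      have e : -y 0 * (h i - x) = y 0 * (x - h i) := by ring
      rwa [e] at this
  have h3 : hp (fun i => b i - z') (fun i => x - h i) = volume (P ∩ {y : E3 | y 0 < 0}) := by
    unfold hp
    rw [h2]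
    exact hρ.measure_preimage (hPm.inter hneg).nullMeasurableSet
  have h4 : hp (fun i => b i - z') (fun i => h i - x) = volume (P ∩ {y : E3 | 0 < y 0}) := by
    unfold hp
    rw [h1]
  rw [h3, h4]
  have hzero : volume {y : E3 | y 0 = 0} = 0 := by
    rw [volume_pi]
    exact Measure.pi_hyperplane _ 0 0
  have hsplit : P = (P ∩ {y : E3 | 0 < y 0}) ∪ (P ∩ {y : E3 | y 0 < 0}) ∪ (P ∩ {y : E3 | y 0 = 0}) := by
    ext y
    simp only [mem_union, mem_inter_iff, Set.mem_ofPred_eq]
    constructor
    · intro hy
      rcases lt_trichotomy (y 0) 0 with h5 | h5 | h5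
      · exact Or.inl (Or.inr ⟨hy, h5⟩)
      · exact Or.inr ⟨hy, h5⟩
      · exact Or.inl (Or.inl ⟨hy, h5⟩)
    · rintro ((h5 | h5) | h5) <;> exact h5.1
  apply le_antisymm
  · calc volume P = volume ((P ∩ {y : E3 | 0 < y 0}) ∪ (P ∩ {y : E3 | y 0 < 0}) ∪ (P ∩ {y : E3 | y 0 = 0})) := by
          rw [← hsplit]
      _ ≤ volume ((P ∩ {y : E3 | 0 < y 0}) ∪ (P ∩ {y : E3 | y 0 < 0})) + volume (P ∩ {y : E3 | y 0 = 0}) :=
          measure_union_le _ _
      _ ≤ volume ((P ∩ {y : E3 | 0 < y 0}) ∪ (P ∩ {y : E3 | y 0 < 0})) + volume {y : E3 | y 0 = 0} := by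
          gcongr
          exact inter_subset_right
      _ = volume ((P ∩ {y : E3 | 0 < y 0}) ∪ (P ∩ {y : E3 | y 0 < 0})) := by rw [hzero, add_zero]
      _ ≤ volume (P ∩ {y : E3 | 0 < y 0}) + volume (P ∩ {y : E3 | y 0 < 0}) := measure_union_le _ _
  · rw [← measure_union _ (hPm.inter hneg)]
    · exact measure_mono (union_subset inter_subset_left inter_subset_left)
    · rw [Set.disjoint_left]
      rintro y ⟨-, hy⟩ ⟨-, hy'⟩
      have hy1 : 0 < y 0 := hy
      have hy2 : y 0 < 0 := hy'
      linarith

/-- The projection to the base is open, so the base point is interior to the hull of the `b i`,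
that is the origin is interior to the hull of the `b i - z'`. -/
lemma originIn_of_interior [Nonempty ι] {b : ι → E2} {h : ι → ℝ} {x : ℝ} {z' : E2}
    (H : mk x z' ∈ interior (shK b h)) : OriginIn (fun i => b i - z') := by
  unfold OriginIn
  rw [mem_interior]
  refine ⟨{w | mk x (w + z') ∈ interior (shK b h)}, ?_, ?_, ?_⟩
  · intro w hw
    obtain ⟨l, h0, h1, h2, -⟩ := mem_shK_iff.mp (interior_subset hw)
    rw [base_mk] at h2
    have h3 : w = ∑ i, l i • (b i - z') := by
      simp only [smul_sub]
      rw [Finset.sum_sub_distrib, h2, ← Finset.sum_smul, h1, one_smul]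
      abel
    rw [h3]
    exact (convex_convexHull ℝ _).sum_mem (fun i _ => h0 i) h1
      (fun i _ => subset_convexHull ℝ _ ⟨i, rfl⟩)
  · have hc : Continuous (fun w : E2 => mk x (w + z')) :=
      continuous_mk.comp (continuous_const.prodMk (continuous_id.add continuous_const))
    exact isOpen_interior.preimage hc
  · simpa using H

/-- `mk (x + ε) z'` and `mk (x - ε) z'` are in the hull; take the weights. -/
lemma topPos_of_interior [Nonempty ι] {b : ι → E2} {h : ι → ℝ} {x : ℝ} {z' : E2}
    (H : mk x z' ∈ interior (shK b h)) :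
    TopPos (fun i => b i - z') (fun i => h i - x) ∧
      TopPos (fun i => b i - z') (fun i => x - h i) := by
  have hc : Continuous (fun s : ℝ => mk s z') :=
    continuous_mk.comp (continuous_id.prodMk continuous_const)
  have hopen : IsOpen {s : ℝ | mk s z' ∈ interior (shK b h)} := isOpen_interior.preimage hc
  obtain ⟨ε, hε, hball⟩ := Metric.isOpen_iff.mp hopen x H
  have hmem : ∀ s, |s - x| < ε → mk s z' ∈ shK b h := by
    intro s hs
    exact interior_subset (hball (by simpa [Real.dist_eq] using hs))
  have hsum : ∀ (l : ι → ℝ), ∑ i, l i = 1 → ∑ i, l i • b i = z' → ∑ i, l i • (b i - z') = 0 := by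
    intro l h1 h2
    simp only [smul_sub]
    rw [Finset.sum_sub_distrib, h2, ← Finset.sum_smul, h1, one_smul, sub_self]
  constructor
  · obtain ⟨l, h0, h1, h2, h3⟩ := mem_shK_iff.mp (hmem (x + ε / 2) (by
      rw [add_sub_cancel_left, abs_of_pos (by linarith)]
      linarith))
    rw [base_mk] at h2
    rw [mk_zero] at h3
    refine ⟨l, h0, h1, hsum l h1 h2, ?_⟩
    have : ∑ i, l i * (h i - x) = ε / 2 := by
      simp only [mul_sub]
      rw [Finset.sum_sub_distrib, h3, ← Finset.sum_mul, h1]
      ring
    rw [this]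
    linarith
  · obtain ⟨l, h0, h1, h2, h3⟩ := mem_shK_iff.mp (hmem (x - ε / 2) (by
      rw [show x - ε / 2 - x = - (ε / 2) by ring, abs_neg, abs_of_pos (by linarith)]
      linarith))
    rw [base_mk] at h2
    rw [mk_zero] at h3
    refine ⟨l, h0, h1, hsum l h1 h2, ?_⟩
    have : ∑ i, l i * (x - h i) = ε / 2 := by
      simp only [mul_sub]
      rw [Finset.sum_sub_distrib, h3, ← Finset.sum_mul, h1]
      ring
    rw [this]
    linarith

/-- The height combination inside a hull: a combination of two chord points. -/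
private lemma mk_combo (a c s t : ℝ) (hac : a + c = 1) (z' : E2) :
    a • mk s z' + c • mk t z' = mk (a * s + c * t) z' := by
  rw [mk_smul, mk_smul, mk_add, ← add_smul, hac, one_smul]

/-- Supporting functional at a point of the chord line which is not interior. -/
private lemma chord_support [Nonempty ι] {b : ι → E2} {h : ι → ℝ} {z' : E2} {x₀ t : ℝ}
    (h₀ : mk x₀ z' ∈ interior (shK b h)) (ht : mk t z' ∉ interior (shK b h)) :
    ∃ (n₀ : ℝ) (n' : E2), 0 < n₀ * (t - x₀) ∧ ∀ i, n₀ * (h i - t) + n' ⬝ᵥ (b i - z') ≤ 0 := by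
  have hKc : Convex ℝ (shK b h) := convex_convexHull ℝ _
  obtain ⟨f, hf⟩ := geometric_hahn_banach_open_point hKc.interior isOpen_interior ht
  obtain ⟨n, hn⟩ := chord_exists_dot f
  have h1 := hf _ h₀
  rw [hn, hn, dot_mk, dot_mk] at h1
  refine ⟨n 0, base n, by nlinarith, fun i => ?_⟩
  have hclosed : IsClosed {a : E3 | f a ≤ f (mk t z')} :=
    isClosed_le f.continuous continuous_const
  have hsub : closure (interior (shK b h)) ⊆ {a : E3 | f a ≤ f (mk t z')} :=
    closure_minimal (fun a ha => (hf a ha).le) hclosed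
  have hcl : closure (interior (shK b h)) = closure (shK b h) :=
    hKc.closure_interior_eq_closure_of_nonempty_interior ⟨_, h₀⟩
  have hi : mk (h i) (b i) ∈ closure (interior (shK b h)) := by
    rw [hcl]
    exact subset_closure (subset_convexHull ℝ _ ⟨i, rfl⟩)
  have h2 : f (mk (h i) (b i)) ≤ f (mk t z') := hsub hi
  rw [hn, hn, dot_mk, dot_mk] at h2
  rw [dotProduct_sub]
  nlinarith

/-- Structure of the chord over an interior base point `z'` of a polytope with nonempty interior. -/
theorem chord_structure [Nonempty ι] {b : ι → E2} {h : ι → ℝ} {z' : E2}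
    (hi : (interior (shK b h)).Nonempty) (hz : OriginIn (fun i => b i - z')) :
    ∃ B T : ℝ, B < T ∧ {x | mk x z' ∈ interior (shK b h)} = Ioo B T ∧
      (∀ p, mk p z' ∈ shK b h → B ≤ p ∧ p ≤ T) ∧
      (∃ w₀ : E2, ∀ i, h i + w₀ ⬝ᵥ (b i - z') ≤ T) ∧
      (∃ w₁ : E2, ∀ i, B ≤ h i + w₁ ⬝ᵥ (b i - z')) := by
  have hKc : Convex ℝ (shK b h) := convex_convexHull ℝ _
  have hcont : Continuous (fun s : ℝ => mk s z') :=
    continuous_mk.comp (continuous_id.prodMk continuous_const)
  set S : Set ℝ := {x | mk x z' ∈ interior (shK b h)} with hS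
  have hSopen : IsOpen S := isOpen_interior.preimage hcont
  have hSconv : Convex ℝ S := by
    intro x₁ h₁ x₂ h₂ a c ha hc hac
    have := hKc.interior h₁ h₂ ha hc hac
    rw [mk_combo a c x₁ x₂ hac] at this
    exact this
  have hSord : S.OrdConnected := hSconv.ordConnected
  -- nonempty
  have hSne : S.Nonempty := by
    obtain ⟨p, hp⟩ := hi
    have hg : Continuous (fun ε : ℝ => ε • (z' - base p)) := by fun_prop
    have hev : ∀ᶠ ε : ℝ in nhds 0,
        ε • (z' - base p) ∈ interior (convexHull ℝ (range fun i => b i - z')) := by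
      have hmem : interior (convexHull ℝ (range fun i => b i - z')) ∈
          nhds ((fun ε : ℝ => ε • (z' - base p)) 0) := by
        simp only [zero_smul]
        exact isOpen_interior.mem_nhds hz
      exact hg.continuousAt hmem
    obtain ⟨ε, hε, hε0⟩ := ((hev.filter_mono nhdsWithin_le_nhds).and
      (self_mem_nhdsWithin (s := Ioi (0 : ℝ)))).exists
    have hε0' : (0 : ℝ) < ε := hε0
    obtain ⟨l, h0, h1, h2⟩ := exists_weights (fun i => b i - z') (interior_subset hε)
    let q : E3 := ∑ i, l i • mk (h i) (b i)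
    have hq : q ∈ shK b h := (convex_convexHull ℝ _).sum_mem (fun i _ => h0 i) h1
      (fun i _ => subset_convexHull ℝ _ ⟨i, rfl⟩)
    have hbq : base q = ε • (z' - base p) + z' := by
      have h3 : ∑ i, l i • b i = ε • (z' - base p) + z' := by
        have h4 : ∑ i, l i • (b i - z') = ∑ i, l i • b i - z' := by
          simp only [smul_sub]
          rw [Finset.sum_sub_distrib, ← Finset.sum_smul, h1, one_smul]
        rw [h4] at h2
        rw [← h2]
        abel
      rw [← h3]
      funext j
      simp [q, base, Fin.tail, Finset.sum_apply, mk]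
    let lam : ℝ := ε / (1 + ε)
    have hlam : 0 < lam := by positivity
    have hlam' : lam + 1 / (1 + ε) = 1 := by
      simp only [lam]
      field_simp
      ring
    have hm := hKc.combo_interior_self_mem_interior hp hq hlam (by positivity) hlam'
    refine ⟨(lam • p + (1 / (1 + ε)) • q) 0, ?_⟩
    have hbase : base (lam • p + (1 / (1 + ε)) • q) = z' := by
      rw [base_add', base_smul', base_smul', hbq]
      simp only [lam, smul_add, smul_sub, smul_smul]
      have e1 : ε / (1 + ε) = 1 / (1 + ε) * ε := by ring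
      rw [e1]
      have e2 : z' = (1 / (1 + ε) * ε) • z' + (1 / (1 + ε)) • z' := by
        rw [← add_smul]
        have : 1 / (1 + ε) * ε + 1 / (1 + ε) = 1 := by
          field_simp
          ring
        rw [this, one_smul]
      conv_rhs => rw [e2]
      abel
    show mk ((lam • p + (1 / (1 + ε)) • q) 0) z' ∈ interior (shK b h)
    have : mk ((lam • p + (1 / (1 + ε)) • q) 0) z' = lam • p + (1 / (1 + ε)) • q := by
      conv_rhs => rw [← mk_eta (lam • p + (1 / (1 + ε)) • q), hbase]
    rw [this]
    exact hm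
  -- boundedness
  have hKcomp : IsCompact (shK b h) := (Set.finite_range _).isCompact_convexHull ℝ
  have hev0 : Continuous (fun y : E3 => y 0) := continuous_apply 0
  obtain ⟨Mu, hMu⟩ := (hKcomp.image hev0).bddAbove
  obtain ⟨Ml, hMl⟩ := (hKcomp.image hev0).bddBelow
  have hSbdd : BddAbove S := ⟨Mu, fun s hs => hMu ⟨mk s z', interior_subset hs, by simp⟩⟩
  have hSbdb : BddBelow S := ⟨Ml, fun s hs => hMl ⟨mk s z', interior_subset hs, by simp⟩⟩
  have hsub1 : ∀ s ∈ S, sInf S < s ∧ s < sSup S := by
    intro s hs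
    obtain ⟨ε, hε, hball⟩ := Metric.isOpen_iff.mp hSopen s hs
    have h1 : s + ε / 2 ∈ S := hball (by
      rw [Metric.mem_ball, Real.dist_eq, add_sub_cancel_left, abs_of_pos (by linarith)]
      linarith)
    have h2 : s - ε / 2 ∈ S := hball (by
      rw [Metric.mem_ball, Real.dist_eq, show s - ε / 2 - s = - (ε / 2) by ring, abs_neg,
        abs_of_pos (by linarith)]
      linarith)
    exact ⟨lt_of_le_of_lt (csInf_le hSbdb h2) (by linarith),
      lt_of_lt_of_le (by linarith) (le_csSup hSbdd h1)⟩
  have hSIoo : S = Ioo (sInf S) (sSup S) := by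
    ext t
    constructor
    · exact fun ht => hsub1 t ht
    · rintro ⟨h1, h2⟩
      obtain ⟨s₁, hs₁, hs₁'⟩ := exists_lt_of_csInf_lt hSne h1
      obtain ⟨s₂, hs₂, hs₂'⟩ := exists_lt_of_lt_csSup hSne h2
      exact hSord.out hs₁ hs₂ ⟨hs₁'.le, hs₂'.le⟩
  obtain ⟨x₀, hx₀⟩ := hSne
  have hx₀' := hsub1 x₀ hx₀
  set B := sInf S with hB
  set T := sSup S with hT
  have hTnot : mk T z' ∉ interior (shK b h) := by
    intro hh
    have : T ∈ S := hh
    rw [hSIoo] at this
    exact lt_irrefl _ this.2
  have hBnot : mk B z' ∉ interior (shK b h) := by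
    intro hh
    have : B ∈ S := hh
    rw [hSIoo] at this
    exact lt_irrefl _ this.1
  refine ⟨B, T, hx₀'.1.trans hx₀'.2, hSIoo, ?_, ?_, ?_⟩
  · intro p hp
    constructor
    · by_contra hlt
      have hlt' : p < B := not_le.mp hlt
      have hd : 0 < x₀ - p := by linarith [hx₀'.1]
      let a : ℝ := (B - p) / (2 * (x₀ - p))
      have ha : 0 < a := by
        apply div_pos <;> linarith
      have ha1 : a < 1 := by
        rw [div_lt_one (by linarith)]
        linarith [hx₀'.1]
      have h1 := hKc.combo_interior_self_mem_interior hx₀ hp ha (by linarith) (by ring : a + (1 - a) = 1)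
      rw [mk_combo a (1 - a) x₀ p (by ring)] at h1
      have h2 : a * x₀ + (1 - a) * p ∈ S := h1
      have h3 : a * x₀ + (1 - a) * p = (B + p) / 2 := by
        simp only [a]
        field_simp
        ring
      rw [h3] at h2
      have := (hsub1 _ h2).1
      linarith
    · by_contra hlt
      have hlt' : T < p := not_le.mp hlt
      have hd : 0 < p - x₀ := by linarith [hx₀'.2]
      let a : ℝ := (p - T) / (2 * (p - x₀))
      have ha : 0 < a := by
        apply div_pos <;> linarith
      have ha1 : a < 1 := by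
        rw [div_lt_one (by linarith)]
        linarith [hx₀'.2]
      have h1 := hKc.combo_interior_self_mem_interior hx₀ hp ha (by linarith) (by ring : a + (1 - a) = 1)
      rw [mk_combo a (1 - a) x₀ p (by ring)] at h1
      have h2 : a * x₀ + (1 - a) * p ∈ S := h1
      have h3 : a * x₀ + (1 - a) * p = (T + p) / 2 := by
        simp only [a]
        field_simp
        ring
      rw [h3] at h2
      have := (hsub1 _ h2).2
      linarith
  · obtain ⟨n₀, n', h1, h2⟩ := chord_support hx₀ hTnot
    have hn₀ : 0 < n₀ := by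
      have : 0 < T - x₀ := by linarith [hx₀'.2]
      exact pos_of_mul_pos_left h1 this.le
    refine ⟨(1 / n₀) • n', fun i => ?_⟩
    have h3 := h2 i
    rw [smul_dotProduct, smul_eq_mul]
    have h4 : 1 / n₀ * (n' ⬝ᵥ (b i - z')) = (n' ⬝ᵥ (b i - z')) / n₀ := by ring
    rw [h4]
    have h5 : (n' ⬝ᵥ (b i - z')) / n₀ ≤ T - h i := by
      rw [div_le_iff₀ hn₀]
      nlinarith
    linarith
  · obtain ⟨n₀, n', h1, h2⟩ := chord_support hx₀ hBnot
    have hn₀ : n₀ < 0 := by
      have hB0 : B - x₀ < 0 := by linarith [hx₀'.1]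
      by_contra hge
      have hge' : 0 ≤ n₀ := not_lt.mp hge
      have : n₀ * (B - x₀) ≤ 0 := mul_nonpos_of_nonneg_of_nonpos hge' hB0.le
      linarith
    refine ⟨(1 / n₀) • n', fun i => ?_⟩
    have h3 := h2 i
    rw [smul_dotProduct, smul_eq_mul]
    have h4 : 1 / n₀ * (n' ⬝ᵥ (b i - z')) = (n' ⬝ᵥ (b i - z')) / n₀ := by ring
    rw [h4]
    have h5 : B - h i ≤ (n' ⬝ᵥ (b i - z')) / n₀ := by
      rw [le_div_iff_of_neg hn₀]
      nlinarith
    linarith

end Vale.Agent.Lib.P248G
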