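import Vale.Agent.Lib.P248G.HPBusemann
import Vale.Agent.Lib.P248G.Chord

/-!
# P248, JOB A4: balancing, the polar inequality for a midpoint of shadow polytopes.

First an abstract intermediate value lemma, then the harmonic mean inequality.
-/

open MeasureTheory Set Matrix
open scoped ENNReal

noncomputable section

namespace Vale.Agent.Lib.P248G

variable {ι : Type} [Fintype ι]

/-- Abstract balancing. `P k` increases from somewhere to `+∞` on `Ioo (B k) (T k)` and `Q k` decreases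
from `+∞`. Then there are `x, y` with `x + y = c` and equal ratios `P₁ x / Q₁ x = P₂ y / Q₂ y`.

Proof: on the open interval `I` of those `x ∈ Ioo B₁ T₁` with `c - x ∈ Ioo B₂ T₂` (nonempty as
`B₁ + B₂ < c < T₁ + T₂`) consider `D x = P₁ x * Q₂ (c - x) - P₂ (c - x) * Q₁ x`, continuous and
nondecreasing. Fix `x* ∈ I`. Near the left end of `I`: either `x` is close to `B₁`, and
then `Q₁ x` is huge while `P₁ x ≤ P₁ x*`, `Q₂ (c - x) ≤ Q₂ (c - x*)`, `P₂ (c - x) ≥ P₂ (c - x*) > 0`;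
or `c - x` is close to `T₂`, then `P₂ (c - x)` is huge and `Q₁ x ≥ Q₁ x* > 0`. So `D x < 0`.
Symmetrically `D x > 0` near the right end. Intermediate value theorem. -/
lemma balance {B₁ T₁ B₂ T₂ c : ℝ} {P₁ Q₁ P₂ Q₂ : ℝ → ℝ} (h₁ : B₁ < T₁) (h₂ : B₂ < T₂)
    (hc₁ : B₁ + B₂ < c) (hc₂ : c < T₁ + T₂)
    (pP₁ : ∀ x ∈ Ioo B₁ T₁, 0 < P₁ x) (pQ₁ : ∀ x ∈ Ioo B₁ T₁, 0 < Q₁ x)
    (pP₂ : ∀ x ∈ Ioo B₂ T₂, 0 < P₂ x) (pQ₂ : ∀ x ∈ Ioo B₂ T₂, 0 < Q₂ x)
    (mP₁ : MonotoneOn P₁ (Ioo B₁ T₁)) (mQ₁ : AntitoneOn Q₁ (Ioo B₁ T₁))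
    (mP₂ : MonotoneOn P₂ (Ioo B₂ T₂)) (mQ₂ : AntitoneOn Q₂ (Ioo B₂ T₂))
    (cP₁ : ContinuousOn P₁ (Ioo B₁ T₁)) (cQ₁ : ContinuousOn Q₁ (Ioo B₁ T₁))
    (cP₂ : ContinuousOn P₂ (Ioo B₂ T₂)) (cQ₂ : ContinuousOn Q₂ (Ioo B₂ T₂))
    (bP₁ : ∀ C, ∃ x ∈ Ioo B₁ T₁, C ≤ P₁ x) (bQ₁ : ∀ C, ∃ x ∈ Ioo B₁ T₁, C ≤ Q₁ x)
    (bP₂ : ∀ C, ∃ x ∈ Ioo B₂ T₂, C ≤ P₂ x) (bQ₂ : ∀ C, ∃ x ∈ Ioo B₂ T₂, C ≤ Q₂ x) :
    ∃ x ∈ Ioo B₁ T₁, ∃ y ∈ Ioo B₂ T₂, x + y = c ∧ P₁ x * Q₂ y = P₂ y * Q₁ x := by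
  classical
  -- the interval of admissible x
  set L := max B₁ (c - T₂) with hL
  set R := min T₁ (c - B₂) with hR
  have hLR : L < R := by
    rw [hL, hR]
    refine max_lt (lt_min h₁ (by linarith)) (lt_min (by linarith) (by linarith))
  have mem1 : ∀ x ∈ Ioo L R, x ∈ Ioo B₁ T₁ := fun x hx =>
    ⟨lt_of_le_of_lt (le_max_left _ _) hx.1, lt_of_lt_of_le hx.2 (min_le_left _ _)⟩
  have mem2 : ∀ x ∈ Ioo L R, c - x ∈ Ioo B₂ T₂ := fun x hx => by
    have h1 : c - T₂ < x := lt_of_le_of_lt (le_max_right _ _) hx.1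
    have h2 : x < c - B₂ := lt_of_lt_of_le hx.2 (min_le_right _ _)
    exact ⟨by linarith, by linarith⟩
  set D : ℝ → ℝ := fun x => P₁ x * Q₂ (c - x) - P₂ (c - x) * Q₁ x with hD
  have contc : ContinuousOn (fun x => c - x) (Ioo L R) := (continuous_const.sub continuous_id).continuousOn
  have cD : ContinuousOn D (Ioo L R) := by
    refine ContinuousOn.sub (ContinuousOn.mul ?_ ?_) (ContinuousOn.mul ?_ ?_)
    · exact cP₁.mono (fun x hx => mem1 x hx)
    · exact cQ₂.comp contc (fun x hx => mem2 x hx)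
    · exact cP₂.comp contc (fun x hx => mem2 x hx)
    · exact cQ₁.mono (fun x hx => mem1 x hx)
  -- a base point
  set s := (L + R) / 2 with hs
  have hsI : s ∈ Ioo L R := ⟨by rw [hs]; linarith, by rw [hs]; linarith⟩
  have s1 := mem1 s hsI
  have s2 := mem2 s hsI
  have pp1 := pP₁ s s1
  have pq1 := pQ₁ s s1
  have pp2 := pP₂ _ s2
  have pq2 := pQ₂ _ s2
  -- left point
  have left : ∃ x ∈ Ioo L R, D x < 0 := by
    by_cases hcase : c - T₂ ≤ B₁
    · -- x close to B₁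
      set C := max (Q₁ s + 1) ((P₁ s * Q₂ (c - s)) / P₂ (c - s) + 1) with hC
      obtain ⟨x, hx, hxC⟩ := bQ₁ C
      have h1 : Q₁ s < Q₁ x := by
        have : Q₁ s + 1 ≤ C := le_max_left _ _
        linarith
      have hxs : x < s := by
        by_contra hh
        have := mQ₁ s1 hx (not_lt.mp hh)
        linarith
      have hxI : x ∈ Ioo L R := by
        refine ⟨?_, hxs.trans hsI.2⟩
        rw [hL]
        exact max_lt hx.1 (lt_of_le_of_lt hcase hx.1)
      refine ⟨x, hxI, ?_⟩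
      have x2 := mem2 x hxI
      have e1 : P₁ x ≤ P₁ s := mP₁ hx s1 hxs.le
      have e2 : Q₂ (c - x) ≤ Q₂ (c - s) := mQ₂ s2 x2 (by linarith)
      have e3 : P₂ (c - s) ≤ P₂ (c - x) := mP₂ s2 x2 (by linarith)
      have e4 : (P₁ s * Q₂ (c - s)) / P₂ (c - s) + 1 ≤ Q₁ x := by
        have : (P₁ s * Q₂ (c - s)) / P₂ (c - s) + 1 ≤ C := le_max_right _ _
        linarith
      have e5 : P₁ s * Q₂ (c - s) < P₂ (c - s) * Q₁ x := by
        have h3 : (P₁ s * Q₂ (c - s)) / P₂ (c - s) < Q₁ x := by linarith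
        rw [div_lt_iff₀ pp2] at h3
        linarith
      have px := pP₁ x hx
      have qx := pQ₂ _ x2
      have qxx := pQ₁ x hx
      show P₁ x * Q₂ (c - x) - P₂ (c - x) * Q₁ x < 0
      have e6 : P₁ x * Q₂ (c - x) ≤ P₁ s * Q₂ (c - s) :=
        mul_le_mul e1 e2 qx.le pp1.le
      have e7 : P₂ (c - s) * Q₁ x ≤ P₂ (c - x) * Q₁ x :=
        mul_le_mul_of_nonneg_right e3 qxx.le
      linarith
    · -- c - x close to T₂
      push Not at hcase
      set C := max (P₂ (c - s) + 1) ((P₁ s * Q₂ (c - s)) / Q₁ s + 1) with hC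
      obtain ⟨y, hy, hyC⟩ := bP₂ C
      have h1 : P₂ (c - s) < P₂ y := by
        have : P₂ (c - s) + 1 ≤ C := le_max_left _ _
        linarith
      have hys : c - s < y := by
        by_contra hh
        have := mP₂ hy s2 (not_lt.mp hh)
        linarith
      have hxI : c - y ∈ Ioo L R := by
        refine ⟨?_, by linarith [hsI.2]⟩
        rw [hL]
        exact max_lt (by linarith [hy.2]) (by linarith [hy.2])
      refine ⟨c - y, hxI, ?_⟩
      have x1 := mem1 _ hxI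
      have hcy : c - (c - y) = y := by ring
      show P₁ (c - y) * Q₂ (c - (c - y)) - P₂ (c - (c - y)) * Q₁ (c - y) < 0
      rw [hcy]
      have e1 : P₁ (c - y) ≤ P₁ s := mP₁ x1 s1 (by linarith)
      have e2 : Q₂ y ≤ Q₂ (c - s) := mQ₂ s2 hy hys.le
      have e3 : Q₁ s ≤ Q₁ (c - y) := mQ₁ x1 s1 (by linarith)
      have e4 : (P₁ s * Q₂ (c - s)) / Q₁ s + 1 ≤ P₂ y := by
        have : (P₁ s * Q₂ (c - s)) / Q₁ s + 1 ≤ C := le_max_right _ _
        linarith
      have e5 : P₁ s * Q₂ (c - s) < P₂ y * Q₁ s := by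
        have h3 : (P₁ s * Q₂ (c - s)) / Q₁ s < P₂ y := by linarith
        rw [div_lt_iff₀ pq1] at h3
        linarith
      have px := pP₁ _ x1
      have qx := pQ₂ y hy
      have qxx := pQ₁ _ x1
      have py := pP₂ y hy
      have e6 : P₁ (c - y) * Q₂ y ≤ P₁ s * Q₂ (c - s) :=
        mul_le_mul e1 e2 qx.le pp1.le
      have e7 : P₂ y * Q₁ s ≤ P₂ y * Q₁ (c - y) :=
        mul_le_mul_of_nonneg_left e3 py.le
      linarith
  -- right point
  have right : ∃ x ∈ Ioo L R, 0 < D x := by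
    by_cases hcase : T₁ ≤ c - B₂
    · -- x close to T₁
      set C := max (P₁ s + 1) ((P₂ (c - s) * Q₁ s) / Q₂ (c - s) + 1) with hC
      obtain ⟨x, hx, hxC⟩ := bP₁ C
      have h1 : P₁ s < P₁ x := by
        have : P₁ s + 1 ≤ C := le_max_left _ _
        linarith
      have hxs : s < x := by
        by_contra hh
        have := mP₁ hx s1 (not_lt.mp hh)
        linarith
      have hxI : x ∈ Ioo L R := by
        refine ⟨hsI.1.trans hxs, ?_⟩
        rw [hR]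
        exact lt_min hx.2 (lt_of_lt_of_le hx.2 hcase)
      refine ⟨x, hxI, ?_⟩
      have x2 := mem2 x hxI
      have e1 : Q₁ x ≤ Q₁ s := mQ₁ s1 hx hxs.le
      have e2 : Q₂ (c - s) ≤ Q₂ (c - x) := mQ₂ x2 s2 (by linarith)
      have e3 : P₂ (c - x) ≤ P₂ (c - s) := mP₂ x2 s2 (by linarith)
      have e4 : (P₂ (c - s) * Q₁ s) / Q₂ (c - s) + 1 ≤ P₁ x := by
        have : (P₂ (c - s) * Q₁ s) / Q₂ (c - s) + 1 ≤ C := le_max_right _ _
        linarith
      have e5 : P₂ (c - s) * Q₁ s < P₁ x * Q₂ (c - s) := by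
        have h3 : (P₂ (c - s) * Q₁ s) / Q₂ (c - s) < P₁ x := by linarith
        rw [div_lt_iff₀ pq2] at h3
        linarith
      have px := pP₁ x hx
      have qx := pQ₂ _ x2
      have qxx := pQ₁ x hx
      have py := pP₂ _ x2
      show 0 < P₁ x * Q₂ (c - x) - P₂ (c - x) * Q₁ x
      have e6 : P₁ x * Q₂ (c - s) ≤ P₁ x * Q₂ (c - x) :=
        mul_le_mul_of_nonneg_left e2 px.le
      have e7 : P₂ (c - x) * Q₁ x ≤ P₂ (c - s) * Q₁ s :=
        mul_le_mul e3 e1 qxx.le pp2.le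
      linarith
    · -- c - x close to B₂
      push Not at hcase
      set C := max (Q₂ (c - s) + 1) ((P₂ (c - s) * Q₁ s) / P₁ s + 1) with hC
      obtain ⟨y, hy, hyC⟩ := bQ₂ C
      have h1 : Q₂ (c - s) < Q₂ y := by
        have : Q₂ (c - s) + 1 ≤ C := le_max_left _ _
        linarith
      have hys : y < c - s := by
        by_contra hh
        have := mQ₂ s2 hy (not_lt.mp hh)
        linarith
      have hxI : c - y ∈ Ioo L R := by
        refine ⟨by linarith [hsI.1], ?_⟩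
        rw [hR]
        exact lt_min (by linarith [hy.1]) (by linarith [hy.1])
      refine ⟨c - y, hxI, ?_⟩
      have x1 := mem1 _ hxI
      have hcy : c - (c - y) = y := by ring
      show 0 < P₁ (c - y) * Q₂ (c - (c - y)) - P₂ (c - (c - y)) * Q₁ (c - y)
      rw [hcy]
      have e1 : P₁ s ≤ P₁ (c - y) := mP₁ s1 x1 (by linarith)
      have e2 : P₂ y ≤ P₂ (c - s) := mP₂ hy s2 hys.le
      have e3 : Q₁ (c - y) ≤ Q₁ s := mQ₁ s1 x1 (by linarith)
      have e4 : (P₂ (c - s) * Q₁ s) / P₁ s + 1 ≤ Q₂ y := by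
        have : (P₂ (c - s) * Q₁ s) / P₁ s + 1 ≤ C := le_max_right _ _
        linarith
      have e5 : P₂ (c - s) * Q₁ s < P₁ s * Q₂ y := by
        have h3 : (P₂ (c - s) * Q₁ s) / P₁ s < Q₂ y := by linarith
        rw [div_lt_iff₀ pp1] at h3
        linarith
      have qx := pQ₂ y hy
      have qxx := pQ₁ _ x1
      have py := pP₂ y hy
      have e6 : P₁ s * Q₂ y ≤ P₁ (c - y) * Q₂ y :=
        mul_le_mul_of_nonneg_right e1 qx.le
      have e7 : P₂ y * Q₁ (c - y) ≤ P₂ (c - s) * Q₁ s :=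
        mul_le_mul e2 e3 qxx.le pp2.le
      linarith
  obtain ⟨xl, hxl, hDl⟩ := left
  obtain ⟨xr, hxr, hDr⟩ := right
  have ivt := (isPreconnected_Ioo (a := L) (b := R)).intermediate_value hxl hxr cD
  obtain ⟨x, hx, hx0⟩ := ivt ⟨hDl.le, hDr.le⟩
  refine ⟨x, mem1 x hx, c - x, mem2 x hx, by ring, ?_⟩
  have : P₁ x * Q₂ (c - x) - P₂ (c - x) * Q₁ x = 0 := hx0
  linarith

/-- The midpoint of two height functions. -/
def mid (r1 r2 : ι → ℝ) : ι → ℝ := fun i => (r1 i + r2 i) / 2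

/-- Real form of `hp_busemann`, with finiteness of the mixture as a hypothesis. -/
lemma busemann_real {c : ι → E2} (hc : OriginIn c) {a1 a2 a3 : ι → ℝ} (h1 : TopPos c a1)
    (h2 : TopPos c a2) (h3 : TopPos c a3) {t : ℝ} (t0 : 0 < t) (t1 : t < 1)
    (hmix : ∀ i, (1 - t) * a1 i + t * a2 i = a3 i) :
    (hp c a1).toReal * (hp c a2).toReal ≤
      (hp c a3).toReal * (t * (hp c a1).toReal + (1 - t) * (hp c a2).toReal) := by
  have f1 := hp_lt_top hc h1
  have f2 := hp_lt_top hc h2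
  have f3 := hp_lt_top hc h3
  have key := hp_busemann hc h1 h2 t0 t1
  have e : (fun i => (1 - t) * a1 i + t * a2 i) = a3 := funext hmix
  rw [e] at key
  have hne : hp c a3 * (ENNReal.ofReal t * hp c a1 + ENNReal.ofReal (1 - t) * hp c a2) ≠ ⊤ := by
    refine ENNReal.mul_ne_top f3.ne (ENNReal.add_ne_top.mpr ⟨?_, ?_⟩)
    · exact ENNReal.mul_ne_top ENNReal.ofReal_ne_top f1.ne
    · exact ENNReal.mul_ne_top ENNReal.ofReal_ne_top f2.ne
  have key2 := ENNReal.toReal_mono hne key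
  rw [ENNReal.toReal_mul, ENNReal.toReal_mul, ENNReal.toReal_add, ENNReal.toReal_mul,
    ENNReal.toReal_mul, ENNReal.toReal_ofReal t0.le, ENNReal.toReal_ofReal (by linarith)] at key2
  · exact key2
  · exact ENNReal.mul_ne_top ENNReal.ofReal_ne_top f1.ne
  · exact ENNReal.mul_ne_top ENNReal.ofReal_ne_top f2.ne

/-- Positivity of the real half polar volume. -/
lemma hp_toReal_pos {c : ι → E2} (hc : OriginIn c) {a : ι → ℝ} (h : TopPos c a) :
    0 < (hp c a).toReal :=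
  ENNReal.toReal_pos (hp_pos c a).ne' (hp_lt_top hc h).ne

/-- `1 / hp` is convex along an affine family of heights. -/
lemma hp_inv_convexOn {c : ι → E2} (hc : OriginIn c) {A : ℝ → ι → ℝ} {S : Set ℝ}
    (hS : Convex ℝ S) (hT : ∀ x ∈ S, TopPos c (A x))
    (hA : ∀ x y t i, (1 - t) * A x i + t * A y i = A ((1 - t) * x + t * y) i) :
    ConvexOn ℝ S (fun x => ((hp c (A x)).toReal)⁻¹) := by
  refine ⟨hS, ?_⟩
  intro x hx y hy u v hu hv huv
  have hv' : u = 1 - v := by linarith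
  subst hv'
  rcases hv.eq_or_lt with h0 | h0
  · -- v = 0
    subst h0
    simp
  rcases (show v ≤ 1 by linarith).eq_or_lt with h1 | h1
  · subst h1
    simp
  set z := (1 - v) * x + v * y with hz
  have hzS : z ∈ S := hS hx hy (by linarith) hv (by linarith)
  have key := busemann_real hc (hT x hx) (hT y hy) (hT z hzS) h0 h1 (fun i => by
    rw [hA x y v i])
  have px := hp_toReal_pos hc (hT x hx)
  have py := hp_toReal_pos hc (hT y hy)
  have pz := hp_toReal_pos hc (hT z hzS)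
  simp only [smul_eq_mul]
  set V1 := (hp c (A x)).toReal
  set V2 := (hp c (A y)).toReal
  set V3 := (hp c (A z)).toReal
  show V3⁻¹ ≤ _
  have e : (1 - v) * V1⁻¹ + v * V2⁻¹ = (v * V1 + (1 - v) * V2) / (V1 * V2) := by
    field_simp
    ring
  rw [e, inv_eq_one_div, div_le_div_iff₀ pz (mul_pos px py)]
  nlinarith [key]

/-- Continuity of `hp` along an affine family. -/
lemma hp_continuousOn {c : ι → E2} (hc : OriginIn c) {A : ℝ → ι → ℝ} {S : Set ℝ}
    (hS : Convex ℝ S) (hO : IsOpen S) (hT : ∀ x ∈ S, TopPos c (A x))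
    (hA : ∀ x y t i, (1 - t) * A x i + t * A y i = A ((1 - t) * x + t * y) i) :
    ContinuousOn (fun x => (hp c (A x)).toReal) S := by
  have h1 := (hp_inv_convexOn hc hS hT hA).continuousOn hO
  have h2 : ContinuousOn (fun x => (((hp c (A x)).toReal)⁻¹)⁻¹) S := by
    refine ContinuousOn.inv₀ h1 ?_
    intro x hx
    exact inv_ne_zero (hp_toReal_pos hc (hT x hx)).ne'
  refine h2.congr ?_
  intro x _
  simp

/-- Real form of the blow-up estimate. -/
lemma hp_blowup_real {c : ι → E2} {a : ι → ℝ} {δ : ℝ} (hδ : 0 < δ) (w₀ : E2)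
    (h : ∀ i, a i + w₀ ⬝ᵥ c i ≤ δ) (hf : hp c a < ⊤) :
    0 < (volume {w : E2 | ∀ i, w ⬝ᵥ c i ≤ 1 / 2}).toReal ∧
    (1 / (2 * δ)) * (volume {w : E2 | ∀ i, w ⬝ᵥ c i ≤ 1 / 2}).toReal ≤ (hp c a).toReal := by
  have key := hp_blowup c a hδ w₀ h
  have pos : (0 : ℝ) < 1 / (2 * δ) := by positivity
  have kfin : volume {w : E2 | ∀ i, w ⬝ᵥ c i ≤ 1 / 2} ≠ ⊤ := by
    intro ht
    rw [ht, ENNReal.mul_top (by simpa using pos)] at key
    exact absurd (lt_of_le_of_lt key hf) (lt_irrefl _)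
  refine ⟨ENNReal.toReal_pos (kappa_pos c).ne' kfin, ?_⟩
  have k2 := ENNReal.toReal_mono hf.ne key
  rwa [ENNReal.toReal_mul, ENNReal.toReal_ofReal pos.le] at k2

/-- Choosing a point near an end of an interval where a reciprocal bound blows up. -/
lemma exists_close {k C l : ℝ} (hk : 0 < k) (hl : 0 < l) :
    ∃ ε, 0 < ε ∧ ε < l ∧ C ≤ 1 / (2 * ε) * k := by
  set ε := min (l / 2) (k / (2 * (|C| + 1))) with hε
  have hC : 0 < |C| + 1 := by positivity
  have e0 : 0 < ε := lt_min (by linarith) (by positivity)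
  have e1 : ε < l := lt_of_le_of_lt (min_le_left _ _) (by linarith)
  have e2 : ε ≤ k / (2 * (|C| + 1)) := min_le_right _ _
  refine ⟨ε, e0, e1, ?_⟩
  have h3 : |C| + 1 ≤ 1 / (2 * ε) * k := by
    rw [div_mul_eq_mul_div, one_mul, le_div_iff₀ (by positivity)]
    rw [le_div_iff₀ (by positivity)] at e2
    nlinarith
  linarith [le_abs_self C]

/-- All the properties of the two half polar volume functions on a chord. -/
lemma chord_facts {c : ι → E2} (hc : OriginIn c) {r : ι → ℝ} {B T : ℝ} (hBT : B < T)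
    (hP : ∀ x ∈ Ioo B T, TopPos c (fun i => r i - x) ∧ TopPos c (fun i => x - r i))
    (hw₀ : ∃ w₀ : E2, ∀ i, r i + w₀ ⬝ᵥ c i ≤ T)
    (hw₁ : ∃ w₁ : E2, ∀ i, B ≤ r i + w₁ ⬝ᵥ c i) :
    (∀ x ∈ Ioo B T, 0 < (hp c (fun i => r i - x)).toReal) ∧
    (∀ x ∈ Ioo B T, 0 < (hp c (fun i => x - r i)).toReal) ∧
    MonotoneOn (fun x => (hp c (fun i => r i - x)).toReal) (Ioo B T) ∧
    AntitoneOn (fun x => (hp c (fun i => x - r i)).toReal) (Ioo B T) ∧
    ContinuousOn (fun x => (hp c (fun i => r i - x)).toReal) (Ioo B T) ∧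
    ContinuousOn (fun x => (hp c (fun i => x - r i)).toReal) (Ioo B T) ∧
    (∀ C, ∃ x ∈ Ioo B T, C ≤ (hp c (fun i => r i - x)).toReal) ∧
    (∀ C, ∃ x ∈ Ioo B T, C ≤ (hp c (fun i => x - r i)).toReal) := by
  obtain ⟨w₀, hw₀⟩ := hw₀
  obtain ⟨w₁, hw₁⟩ := hw₁
  have tA : ∀ x ∈ Ioo B T, (hp c (fun i => r i - x)) < ⊤ := fun x hx => hp_lt_top hc (hP x hx).1
  have tB : ∀ x ∈ Ioo B T, (hp c (fun i => x - r i)) < ⊤ := fun x hx => hp_lt_top hc (hP x hx).2
  refine ⟨fun x hx => hp_toReal_pos hc (hP x hx).1, fun x hx => hp_toReal_pos hc (hP x hx).2,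
    ?_, ?_, ?_, ?_, ?_, ?_⟩
  · intro x hx y hy hxy
    refine ENNReal.toReal_mono (tA y hy).ne (hp_anti c (fun i => ?_))
    show r i - y ≤ r i - x
    linarith
  · intro x hx y hy hxy
    refine ENNReal.toReal_mono (tB x hx).ne (hp_anti c (fun i => ?_))
    show x - r i ≤ y - r i
    linarith
  · refine hp_continuousOn hc (convex_Ioo B T) isOpen_Ioo (fun x hx => (hP x hx).1) ?_
    intro x y t i
    ring
  · refine hp_continuousOn hc (convex_Ioo B T) isOpen_Ioo (fun x hx => (hP x hx).2) ?_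
    intro x y t i
    ring
  · -- `r - x` blows up at the top
    intro C
    have hm : (B + T) / 2 ∈ Ioo B T := ⟨by linarith, by linarith⟩
    have hk := (hp_blowup_real (c := c) (a := fun i => r i - (B + T) / 2)
      (δ := T - (B + T) / 2) (by linarith) w₀ (fun i => by linarith [hw₀ i]) (tA _ hm)).1
    obtain ⟨ε, e0, e1, e2⟩ := exists_close (C := C) hk (sub_pos.mpr hBT)
    have hx : T - ε ∈ Ioo B T := ⟨by linarith, by linarith⟩
    refine ⟨T - ε, hx, le_trans e2 ?_⟩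
    have := (hp_blowup_real (c := c) (a := fun i => r i - (T - ε)) (δ := ε) e0 w₀
      (fun i => by linarith [hw₀ i]) (tA _ hx)).2
    exact this
  · -- `x - r` blows up at the bottom
    intro C
    have hm : (B + T) / 2 ∈ Ioo B T := ⟨by linarith, by linarith⟩
    have hneg : ∀ i, (-w₁) ⬝ᵥ c i = - (w₁ ⬝ᵥ c i) := fun i => neg_dotProduct _ _
    have hk := (hp_blowup_real (c := c) (a := fun i => (B + T) / 2 - r i)
      (δ := (B + T) / 2 - B) (by linarith) (-w₁)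
      (fun i => by rw [hneg]; linarith [hw₁ i]) (tB _ hm)).1
    obtain ⟨ε, e0, e1, e2⟩ := exists_close (C := C) hk (sub_pos.mpr hBT)
    have hx : B + ε ∈ Ioo B T := ⟨by linarith, by linarith⟩
    refine ⟨B + ε, hx, le_trans e2 ?_⟩
    have := (hp_blowup_real (c := c) (a := fun i => (B + ε) - r i) (δ := ε) e0 (-w₁)
      (fun i => by rw [hneg]; linarith [hw₁ i]) (tB _ hx)).2
    exact this

/-- The final algebra of the harmonic mean. -/
lemma harmonic_algebra {P₁ Q₁ P₂ Q₂ V W : ℝ} (p1 : 0 < P₁) (q1 : 0 < Q₁) (p2 : 0 < P₂) (q2 : 0 < Q₂)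
    (h : P₁ * Q₂ = P₂ * Q₁)
    (hV : P₁ * P₂ ≤ V * (1 / 2 * P₁ + (1 - 1 / 2) * P₂))
    (hW : Q₁ * Q₂ ≤ W * (1 / 2 * Q₁ + (1 - 1 / 2) * Q₂)) :
    2 * ((P₁ + Q₁) * (P₂ + Q₂)) ≤ (V + W) * ((P₁ + Q₁) + (P₂ + Q₂)) := by
  obtain ⟨ρ, ρ0, e1, e2⟩ : ∃ ρ : ℝ, 0 < ρ ∧ P₁ = ρ * Q₁ ∧ P₂ = ρ * Q₂ := by
    refine ⟨P₁ / Q₁, div_pos p1 q1, by field_simp, ?_⟩
    field_simp
    linarith
  subst e1 e2
  have hV2 : Q₁ * Q₂ * ρ ≤ V * (1 / 2 * Q₁ + (1 - 1 / 2) * Q₂) := by
    have : ρ * (Q₁ * Q₂ * ρ) ≤ ρ * (V * (1 / 2 * Q₁ + (1 - 1 / 2) * Q₂)) := by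
      nlinarith
    exact le_of_mul_le_mul_left this ρ0
  have h3 : (1 + ρ) * (Q₁ * Q₂) ≤ (V + W) * (1 / 2 * Q₁ + (1 - 1 / 2) * Q₂) := by
    nlinarith
  have h4 : 0 < 1 + ρ := by linarith
  have h5 := mul_le_mul_of_nonneg_left h3 (by positivity : 0 ≤ 2 * (1 + ρ))
  nlinarith

/-- Polar inequality for the midpoint of two shadow polytopes.

Paper proof. Put `c i = b i - z'`, `OriginIn c` by `originIn_of_interior`. By `chord_structure`
the chords of `shK b r1`, `shK b r2` over `z'` are `Ioo B₁ T₁`, `Ioo B₂ T₂`. Moreover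
`B₁ + B₂ < 2 z₃ < T₁ + T₂`: take `z₃' > z₃` with `mk z₃' z' ∈ shK b (mid r1 r2)`, weights `l` by
`mem_shK_iff`; then `p₁ = ∑ l i r1 i`, `p₂ = ∑ l i r2 i` are heights over `z'` in the two polytopes,
so `2 z₃' = p₁ + p₂ ≤ T₁ + T₂`. Same below.
Let `P k x = (hp c (fun i => r k i - x)).toReal`, `Q k x = (hp c (fun i => x - r k i)).toReal` on
the chords, positive and finite (`hp_pos`, `hp_lt_top`, `topPos_of_interior`), `P` monotone and
`Q` antitone by `hp_anti`. Continuity: `hp_busemann` with `a1 = r k - x`, `a2 = r k - x'` says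
`x ↦ 1 / P k x` is convex on the open chord, hence continuous (`ConvexOn.continuousOn`).
Unboundedness: `hp_blowup`, `kappa_pos` with the `w₀`, `w₁` of `chord_structure`: for `x` in the chord,
`(r k i - x) + w₀ ⬝ᵥ c i ≤ T - x` and `(x - r k i) + (-w₁) ⬝ᵥ c i ≤ x - B`.
`balance` gives `x`, `y` with `x + y = 2 z₃`, `P₁ x * Q₂ y = P₂ y * Q₁ x`.
`hp_busemann` at `t = 1 / 2` with `a1 = r1 - x`, `a2 = r2 - y` gives, with `V = P` at
`(mid r1 r2, z₃)`: `P₁ P₂ ≤ V (P₁ + P₂) / 2`; same for `Q`: `Q₁ Q₂ ≤ W (Q₁ + Q₂) / 2`.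
With `a = P₁ + Q₁`, `a' = P₂ + Q₂`, `v = V + W` (`volume_polar_split`) and the equal ratio
`P₁ / Q₁ = P₂ / Q₂ = ρ`: `V ≥ 2 P₁ P₂ / (P₁ + P₂) = ρ · 2 Q₁ Q₂ / (Q₁ + Q₂)`,
`W ≥ 2 Q₁ Q₂ / (Q₁ + Q₂)`, `a = (1 + ρ) Q₁`, `a' = (1 + ρ) Q₂`, so
`v ≥ (1 + ρ) 2 Q₁ Q₂ / (Q₁ + Q₂) = 2 a a' / (a + a')`. -/
theorem polar_harmonic [Nonempty ι] {b : ι → E2} {r1 r2 : ι → ℝ}
    (h1 : (interior (shK b r1)).Nonempty) (h2 : (interior (shK b r2)).Nonempty)
    {z₃ : ℝ} {z' : E2} (hz : mk z₃ z' ∈ interior (shK b (mid r1 r2))) :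
    ∃ x y : ℝ, x + y = 2 * z₃ ∧ mk x z' ∈ interior (shK b r1) ∧ mk y z' ∈ interior (shK b r2) ∧
      0 < (volume (polarAt (shK b r1) (mk x z'))).toReal ∧
      0 < (volume (polarAt (shK b r2) (mk y z'))).toReal ∧
      2 * ((volume (polarAt (shK b r1) (mk x z'))).toReal *
          (volume (polarAt (shK b r2) (mk y z'))).toReal) ≤
        (volume (polarAt (shK b (mid r1 r2)) (mk z₃ z'))).toReal *
          ((volume (polarAt (shK b r1) (mk x z'))).toReal +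
            (volume (polarAt (shK b r2) (mk y z'))).toReal) := by
  classical
  set c : ι → E2 := fun i => b i - z' with hcdef
  have hc : OriginIn c := originIn_of_interior hz
  obtain ⟨B₁, T₁, hBT₁, hset₁, hrange₁, hw₁, hw₁'⟩ := chord_structure h1 hc
  obtain ⟨B₂, T₂, hBT₂, hset₂, hrange₂, hw₂, hw₂'⟩ := chord_structure h2 hc
  -- the interval condition
  have open_line : IsOpen {t : ℝ | mk t z' ∈ interior (shK b (mid r1 r2))} := by
    have : Continuous fun t : ℝ => mk t z' := by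
      refine continuous_pi (fun i => ?_)
      refine Fin.cases ?_ (fun j => ?_) i
      · exact continuous_id
      · exact continuous_const
    exact isOpen_interior.preimage this
  have hz_mem : z₃ ∈ {t : ℝ | mk t z' ∈ interior (shK b (mid r1 r2))} := hz
  obtain ⟨ε, hε, hball⟩ := Metric.isOpen_iff.mp open_line z₃ hz_mem
  have hup : mk (z₃ + ε / 2) z' ∈ shK b (mid r1 r2) := by
    have : z₃ + ε / 2 ∈ Metric.ball z₃ ε := by
      rw [Metric.mem_ball, Real.dist_eq]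
      rw [show z₃ + ε / 2 - z₃ = ε / 2 by ring, abs_of_pos (by linarith)]
      linarith
    exact interior_subset (hball this)
  have hdn : mk (z₃ - ε / 2) z' ∈ shK b (mid r1 r2) := by
    have : z₃ - ε / 2 ∈ Metric.ball z₃ ε := by
      rw [Metric.mem_ball, Real.dist_eq]
      rw [show z₃ - ε / 2 - z₃ = -(ε / 2) by ring, abs_neg, abs_of_pos (by linarith)]
      linarith
    exact interior_subset (hball this)
  have split : ∀ t, mk t z' ∈ shK b (mid r1 r2) →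
      ∃ p₁ p₂, p₁ + p₂ = 2 * t ∧ mk p₁ z' ∈ shK b r1 ∧ mk p₂ z' ∈ shK b r2 := by
    intro t ht
    obtain ⟨l, l0, l1, lb, lh⟩ := mem_shK_iff.mp ht
    refine ⟨∑ i, l i * r1 i, ∑ i, l i * r2 i, ?_, ?_, ?_⟩
    · simp only [base_mk, mk_zero] at lb lh
      rw [← lh, ← Finset.sum_add_distrib, Finset.mul_sum]
      refine Finset.sum_congr rfl (fun i _ => ?_)
      simp only [mid]
      ring
    · refine mem_shK_iff.mpr ⟨l, l0, l1, ?_, ?_⟩
      · simpa using lb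
      · simp
    · refine mem_shK_iff.mpr ⟨l, l0, l1, ?_, ?_⟩
      · simpa using lb
      · simp
  have hcu : 2 * z₃ < T₁ + T₂ := by
    obtain ⟨p₁, p₂, hp, m1, m2⟩ := split _ hup
    have := (hrange₁ _ m1).2
    have := (hrange₂ _ m2).2
    nlinarith
  have hcl : B₁ + B₂ < 2 * z₃ := by
    obtain ⟨p₁, p₂, hp, m1, m2⟩ := split _ hdn
    have := (hrange₁ _ m1).1
    have := (hrange₂ _ m2).1
    nlinarith
  -- top positivity on the chords
  have tp₁ : ∀ x ∈ Ioo B₁ T₁, TopPos c (fun i => r1 i - x) ∧ TopPos c (fun i => x - r1 i) := by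
    intro x hx
    have : mk x z' ∈ interior (shK b r1) := by
      have : x ∈ {x | mk x z' ∈ interior (shK b r1)} := by rw [hset₁]; exact hx
      exact this
    exact topPos_of_interior this
  have tp₂ : ∀ x ∈ Ioo B₂ T₂, TopPos c (fun i => r2 i - x) ∧ TopPos c (fun i => x - r2 i) := by
    intro x hx
    have : mk x z' ∈ interior (shK b r2) := by
      have : x ∈ {x | mk x z' ∈ interior (shK b r2)} := by rw [hset₂]; exact hx
      exact this
    exact topPos_of_interior this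
  obtain ⟨pP₁, pQ₁, mP₁, mQ₁, cP₁, cQ₁, bP₁, bQ₁⟩ := chord_facts hc hBT₁ tp₁ hw₁ hw₁'
  obtain ⟨pP₂, pQ₂, mP₂, mQ₂, cP₂, cQ₂, bP₂, bQ₂⟩ := chord_facts hc hBT₂ tp₂ hw₂ hw₂'
  obtain ⟨x, hx, y, hy, hxy, hbal⟩ := balance hBT₁ hBT₂ hcl hcu pP₁ pQ₁ pP₂ pQ₂ mP₁ mQ₁ mP₂ mQ₂
    cP₁ cQ₁ cP₂ cQ₂ bP₁ bQ₁ bP₂ bQ₂
  have hxmem : mk x z' ∈ interior (shK b r1) := by
    have : x ∈ {x | mk x z' ∈ interior (shK b r1)} := by rw [hset₁]; exact hx
    exact this
  have hymem : mk y z' ∈ interior (shK b r2) := by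
    have : y ∈ {x | mk x z' ∈ interior (shK b r2)} := by rw [hset₂]; exact hy
    exact this
  have t3 := topPos_of_interior hz
  -- the two Busemann inequalities at the midpoint
  have hV := busemann_real (t := 1 / 2) hc (tp₁ x hx).1 (tp₂ y hy).1 t3.1 (by norm_num) (by norm_num)
    (fun i => by
      simp only [mid]
      have : z₃ = (x + y) / 2 := by linarith
      rw [this]
      ring)
  have hW := busemann_real (t := 1 / 2) hc (tp₁ x hx).2 (tp₂ y hy).2 t3.2 (by norm_num) (by norm_num)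
    (fun i => by
      simp only [mid]
      have : z₃ = (x + y) / 2 := by linarith
      rw [this]
      ring)
  -- polar volumes
  have vsum : ∀ {r : ι → ℝ} {t : ℝ}, TopPos c (fun i => r i - t) → TopPos c (fun i => t - r i) →
      (volume (polarAt (shK b r) (mk t z'))).toReal =
        (hp c (fun i => r i - t)).toReal + (hp c (fun i => t - r i)).toReal := by
    intro r t ha hb'
    rw [volume_polar_split]
    exact ENNReal.toReal_add (hp_lt_top hc ha).ne (hp_lt_top hc hb').ne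
  have v1 := vsum (tp₁ x hx).1 (tp₁ x hx).2
  have v2 := vsum (tp₂ y hy).1 (tp₂ y hy).2
  have v3 := vsum t3.1 t3.2
  refine ⟨x, y, hxy, hxmem, hymem, ?_, ?_, ?_⟩
  · rw [v1]
    exact add_pos (pP₁ x hx) (pQ₁ x hx)
  · rw [v2]
    exact add_pos (pP₂ y hy) (pQ₂ y hy)
  · rw [v1, v2, v3]
    exact harmonic_algebra (pP₁ x hx) (pQ₁ x hx) (pP₂ y hy) (pQ₂ y hy) hbal hV hW

end Vale.Agent.Lib.P248G
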