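import Mathlib

/-!
# P248 blueprint: the general Mahler inequality in dimension 3, `|K| |(K - z)°| ≥ 64 / 9`.

Everything is in `Fin 3 → ℝ`, heights are coordinate `0`. Files and their jobs:

Analytic part (no polytope structure). `shK b h` is the hull of `mk (h i) (b i)`.
* `HP` half polar volumes `hp c a`; slicing; positivity, finiteness, monotonicity, blow-up.
* `HPBusemann` Busemann inequality `hp_busemann` from `Vale.Agent.Lib.P227.busemann_radial`.
* `Chord` polar volume splits `hp + hp`; structure of a chord.
* `Balance` intermediate value lemma; `polar_harmonic`:
  the polar volume at the midpoint of two height functions is at least a harmonic mean of polar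
  volumes at suitable points `mk x z'`, `mk y z'` with `x + y = 2 z₃` (Campi-Gronchi, Meyer-Reisner).
* `Shadow` `volume_mid_ge`, `shadow_ineq`: if the fibers add then
  `min (volProd K₁ z₁) (volProd K₂ z₂) ≤ volProd (midpoint) z`.

Polytope part. `X` finite in convex position, full dimensional; `facets X` are the tight sets of
supporting planes with at least 3 points.
* `Poly` extreme points, normals unique up to scale, H-description `mem_cx_of_facets`, `exit_facet`.
* `Dual` polar duality exchanges `|X|` and `|facets X|`, preserving `volProd`.
* `Euler` `∑ |R| + 4 ≤ 2 |X| + 2 |facets X|`.
* `Moves` `W X` height functions affine on each nonvertical facet; `exists_alpha`: if `|X| ≥ 5`, `|facets| ≥ |X|`,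
  and either all facets are triangles or some facet with `≥ 4` points is vertical, then `W X` contains a
  non affine function.
* `Chamber` `exists_ends`: then the height function of `X` is the midpoint of two height
  functions `r1`, `r2` in the closed chamber `InC` on its boundary (`Touch`); `fiber_mid`: fibers add.
* `Cplx` `cplx_decrease`: `|vertices| + |facets|` drops on the boundary.
* `Transport` invariance under invertible linear maps; making a facet vertical.
* `Tetra` base case, tetrahedron.
* `Approx` from polytopes to convex bodies.
* `Main` assembly (already done): strong induction on `cplx X`; if `|facets X| < |X|` pass to the polar.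
-/
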