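import Vale.Agent.Lib.P248G.Moves

/-!
# P248, JOB P4: the chamber: a nontrivial move gives a midpoint decomposition.
-/

open MeasureTheory Set Matrix
open scoped Classical

noncomputable section

namespace Vale.Agent.Lib.P248G

variable {X : Finset E3}

/-- `r` is an affine function of the base. -/
def BaseAff (X : Finset E3) (r : X → ℝ) : Prop :=
  ∃ (w : E2) (e : ℝ), ∀ x : X, r x = w ⬝ᵥ base (x : E3) + e

/-- The closed chamber: for each nonvertical facet `R` with normal `n`, `r` is affine in the base on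
`R`, and the lifted polytope lies on the same side of that plane as the original one. -/
def InC (X : Finset E3) (r : X → ℝ) : Prop :=
  ∀ R ∈ facets X, ∀ n d, FacetNormal X R n d → n 0 ≠ 0 →
    ∃ (w : E2) (e : ℝ), (∀ x : X, (x : E3) ∈ R → r x = w ⬝ᵥ base (x : E3) + e) ∧
      ∀ x : X, 0 ≤ n 0 * (w ⬝ᵥ base (x : E3) + e - r x)

/-- `r` is on the boundary of the chamber: a new point `x₀` lies on the plane of a facet `R`. -/
def Touch (X : Finset E3) (r : X → ℝ) : Prop :=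
  ∃ R ∈ facets X, Nonvert X R ∧ ∃ x₀ : X, (x₀ : E3) ∉ R ∧ ∃ (w : E2) (e : ℝ),
    (∀ x : X, (x : E3) ∈ R → r x = w ⬝ᵥ base (x : E3) + e) ∧ r x₀ = w ⬝ᵥ base (x₀ : E3) + e

/-- Splitting a dot product into height and base. -/
lemma dot_split (n x : E3) : n ⬝ᵥ x = n 0 * x 0 + base n ⬝ᵥ base x := by
  conv_lhs => rw [← mk_eta x]
  rw [dot_mk]

lemma dot_lift (m : E3) (r : X → ℝ) (x : X) :
    m ⬝ᵥ liftPt X r x = m 0 * r x + base m ⬝ᵥ base (x : E3) := by
  simp [liftPt, dot_mk]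

@[simp] lemma liftPt_zero' (r : X → ℝ) (x : X) : liftPt X r x 0 = r x := rfl

@[simp] lemma base_liftPt' (r : X → ℝ) (x : X) : base (liftPt X r x) = base (x : E3) := by
  simp [liftPt]

lemma base_comb (a c : ℝ) (p q : E3) : base (a • p + c • q) = a • base p + c • base q := by
  ext j
  simp [base, Fin.tail]

/-- The heights of `X` are in `W X`: on a facet with normal `n`, `n 0 ≠ 0`, the height is
`(d - base n ⬝ᵥ base x) / n 0`. -/
lemma height_mem_W : (fun x : X => (x : E3) 0) ∈ W X := by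
  rintro R - ⟨n, d, hN, hn0⟩
  refine ⟨-((n 0)⁻¹ • base n), d / n 0, fun x hx => ?_⟩
  have h1 : n ⬝ᵥ (x : E3) = d := (hN.2.2 x x.2).mpr hx
  rw [dot_split] at h1
  rw [neg_dotProduct, smul_dotProduct, smul_eq_mul]
  field_simp
  linarith

/-- A sufficient condition for `InC`, for one chosen normal on each nonvertical facet. -/
lemma inC_of_chosen (hc : ConvexPos X) (hs : Spans X) {r : X → ℝ} {n : Finset E3 → E3}
    {d : Finset E3 → ℝ}
    (hN : ∀ R ∈ facets X, Nonvert X R → FacetNormal X R (n R) (d R) ∧ n R 0 ≠ 0)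
    (H : ∀ R ∈ facets X, Nonvert X R →
      ∃ (w : E2) (e : ℝ), (∀ x : X, (x : E3) ∈ R → r x = w ⬝ᵥ base (x : E3) + e) ∧
        ∀ x : X, 0 ≤ n R 0 * (w ⬝ᵥ base (x : E3) + e - r x)) : InC X r := by
  intro R hR n' d' hn' hn0'
  have hNv : Nonvert X R := ⟨n', d', hn', hn0'⟩
  obtain ⟨w, e, h1, h2⟩ := H R hR hNv
  refine ⟨w, e, h1, fun x => ?_⟩
  obtain ⟨hRX, h3, -⟩ := mem_facets.mp hR
  obtain ⟨κ, hκ, hnn, -⟩ := facetNormal_unique hc hs h3 hRX (hN R hR hNv).1 hn'
  have : n' 0 = κ * n R 0 := by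
    rw [hnn]
    simp
  rw [this, mul_assoc]
  exact mul_nonneg hκ.le (h2 x)

/-- **The two ends of the chamber.**

Paper proof. Put `h x = x 0`. Choose for each nonvertical facet `R` a normal `(n, d)`, and
`(w, e)` interpolating `α` on `R`. For `x ∉ R` let `σ R x = n 0 * (w ⬝ᵥ base x + e - α x)` and
`τ R x = d - n ⬝ᵥ x > 0`, note `τ R x = n 0 * (w_h ⬝ᵥ base x + e_h - h x)` with `w_h = - base n / n 0`,
`e_h = d / n 0`; put `ρ R x = σ R x / τ R x`. The index set (nonvertical `R`, `x ∉ R`) is finite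
and nonempty: `exit_facet` gives a nonvertical facet; `R ≠ X` as `X` spans. Let `a`, `b` be the minimum
and maximum of `ρ`. Then `a < b`: otherwise `β = α - a h` has zero slack `σ - a τ` for all `x ∉ R`
and is also affine on `R`, so `β` is an affine function of the base on all of `X`, and `α = a h + β`
is `Aff3`, contradiction. Let `c = b - a > 0`, and
`r1 = (2 / c) (α - a h)`, `r2 = (2 / c) (b h - α)`; so `(r1 + r2) / 2 = h`. For `r1` on `R` the interpolation is
`(2 / c) (w - a w_h, e - a e_h)` and the slack is `(2 / c) (σ - a τ) = (2 / c) τ (ρ - a) ≥ 0`, with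
equality at the minimizing pair: `Touch`. Likewise `r2`. For another normal `(n', d')` of `R`,
`n' = κ n` by `facetNormal_unique`. Neither `r1` nor `r2` is `BaseAff`, else `α` is `Aff3`. -/
theorem exists_ends (hc : ConvexPos X) (hs : Spans X) {α : X → ℝ} (hα : α ∈ W X)
    (hα' : ¬ Aff3 X α) :
    ∃ r1 r2 : X → ℝ, (∀ x : X, (r1 x + r2 x) / 2 = (x : E3) 0) ∧ InC X r1 ∧ InC X r2 ∧
      ¬ BaseAff X r1 ∧ ¬ BaseAff X r2 ∧ Touch X r1 ∧ Touch X r2 := by
  -- choices on nonvertical facets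
  have H : ∀ R, R ∈ facets X → Nonvert X R → ∃ (n : E3) (d : ℝ) (w : E2) (e : ℝ),
      FacetNormal X R n d ∧ n 0 ≠ 0 ∧ ∀ x : X, (x : E3) ∈ R → α x = w ⬝ᵥ base (x : E3) + e := by
    intro R hR hNv
    obtain ⟨n, d, hN, hn0⟩ := hNv
    obtain ⟨w, e, hw⟩ := hα R hR ⟨n, d, hN, hn0⟩
    exact ⟨n, d, w, e, hN, hn0, hw⟩
  choose! n d w e hspec using H
  have hN : ∀ R ∈ facets X, Nonvert X R → FacetNormal X R (n R) (d R) ∧ n R 0 ≠ 0 :=
    fun R hR hNv => ⟨(hspec R hR hNv).1, (hspec R hR hNv).2.1⟩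
  have hw : ∀ R ∈ facets X, Nonvert X R →
      ∀ x : X, (x : E3) ∈ R → α x = w R ⬝ᵥ base (x : E3) + e R :=
    fun R hR hNv => (hspec R hR hNv).2.2
  -- slacks
  set σ : Finset E3 → X → ℝ := fun R x => n R 0 * (w R ⬝ᵥ base (x : E3) + e R - α x) with hσ
  set τ : Finset E3 → X → ℝ := fun R x => d R - n R ⬝ᵥ (x : E3) with hτ
  set wh : Finset E3 → E2 := fun R => -((n R 0)⁻¹ • base (n R)) with hwh
  set eh : Finset E3 → ℝ := fun R => d R / n R 0 with heh
  have hτ0 : ∀ R ∈ facets X, Nonvert X R → ∀ x : X, 0 ≤ τ R x := by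
    intro R hR hNv x
    have := (hN R hR hNv).1.2.1 x x.2
    simp only [hτ]
    linarith
  have hτiff : ∀ R ∈ facets X, Nonvert X R → ∀ x : X, (τ R x = 0 ↔ (x : E3) ∈ R) := by
    intro R hR hNv x
    have := (hN R hR hNv).1.2.2 x x.2
    rw [← this]
    simp only [hτ]
    constructor <;> intro h <;> linarith
  have hτh : ∀ R ∈ facets X, Nonvert X R → ∀ x : X,
      n R 0 * (wh R ⬝ᵥ base (x : E3) + eh R - (x : E3) 0) = τ R x := by
    intro R hR hNv x
    have hn0 := (hN R hR hNv).2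
    simp only [hwh, heh, hτ]
    rw [dot_split, neg_dotProduct, smul_dotProduct, smul_eq_mul]
    field_simp
    ring
  have hhR : ∀ R ∈ facets X, Nonvert X R → ∀ x : X, (x : E3) ∈ R →
      (x : E3) 0 = wh R ⬝ᵥ base (x : E3) + eh R := by
    intro R hR hNv x hx
    have h1 := hτh R hR hNv x
    rw [(hτiff R hR hNv x).mpr hx] at h1
    rcases mul_eq_zero.mp h1 with h | h
    · exact absurd h (hN R hR hNv).2
    · linarith
  have hσR : ∀ R ∈ facets X, Nonvert X R → ∀ x : X, (x : E3) ∈ R → σ R x = 0 := by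
    intro R hR hNv x hx
    simp only [hσ]
    rw [hw R hR hNv x hx]
    ring
  -- the index set
  obtain ⟨q₀, hq₀⟩ : X.Nonempty := by
    rcases X.eq_empty_or_nonempty with h | h
    · exfalso
      obtain ⟨p, hp⟩ := hs
      have : p ∈ cx X := interior_subset hp
      simp [cx, h] at this
    · exact h
  have hq₀' : q₀ ∈ cx X := subset_convexHull ℝ _ hq₀
  obtain ⟨s₀, -, R₁, hR₁, n₁, d₁, hn₁, hpos₁, -, -⟩ := exit_facet hc hs hq₀' (ε := 1) one_ne_zero
  have hNv₁ : Nonvert X R₁ := ⟨n₁, d₁, hn₁, by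
    intro h
    rw [h] at hpos₁
    simp at hpos₁⟩
  obtain ⟨x₁, hx₁⟩ : ∃ x : X, (x : E3) ∉ R₁ := by
    by_contra hcon
    push Not at hcon
    apply spans_iff_no_plane.mp hs
    refine ⟨n₁, d₁, hn₁.1, fun x hx => ?_⟩
    exact (hn₁.2.2 x hx).mpr (hcon ⟨x, hx⟩)
  set P : Finset (Finset E3 × X) :=
    (((facets X).filter (Nonvert X)) ×ˢ (Finset.univ : Finset X)).filter
      (fun q => (q.2 : E3) ∉ q.1) with hP
  have hmemP : ∀ q, q ∈ P ↔ (q.1 ∈ facets X ∧ Nonvert X q.1) ∧ (q.2 : E3) ∉ q.1 := by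
    intro q
    simp [hP]
  have hPne : P.Nonempty := ⟨(R₁, x₁), (hmemP _).mpr ⟨⟨hR₁, hNv₁⟩, hx₁⟩⟩
  set ρ : Finset E3 × X → ℝ := fun q => σ q.1 q.2 / τ q.1 q.2 with hρ
  have hτpos : ∀ q ∈ P, 0 < τ q.1 q.2 := by
    intro q hq
    obtain ⟨⟨h1, h2⟩, h3⟩ := (hmemP q).mp hq
    refine lt_of_le_of_ne (hτ0 _ h1 h2 _) (fun h => h3 ?_)
    exact (hτiff _ h1 h2 _).mp h.symm
  set a : ℝ := P.inf' hPne ρ with ha
  set b : ℝ := P.sup' hPne ρ with hb
  obtain ⟨qa, hqa, hqa'⟩ := Finset.exists_mem_eq_inf' hPne ρ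
  obtain ⟨qb, hqb, hqb'⟩ := Finset.exists_mem_eq_sup' hPne ρ
  have haq : ∀ q ∈ P, a ≤ ρ q := fun q hq => Finset.inf'_le ρ hq
  have hbq : ∀ q ∈ P, ρ q ≤ b := fun q hq => Finset.le_sup' ρ hq
  have hslack : ∀ R ∈ facets X, Nonvert X R → ∀ x : X,
      a * τ R x ≤ σ R x ∧ σ R x ≤ b * τ R x := by
    intro R hR hNv x
    by_cases hx : (x : E3) ∈ R
    · rw [(hτiff R hR hNv x).mpr hx, hσR R hR hNv x hx]
      simp
    · have hq : (R, x) ∈ P := (hmemP _).mpr ⟨⟨hR, hNv⟩, hx⟩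
      have ht := hτpos _ hq
      have h1 := haq _ hq
      have h2 := hbq _ hq
      simp only [hρ] at h1 h2
      exact ⟨(le_div_iff₀ ht).mp h1, (div_le_iff₀ ht).mp h2⟩
  have hcpos : a < b := by
    by_contra hcon
    push Not at hcon
    -- all ratios equal `a`
    have hall : ∀ x : X, σ R₁ x = a * τ R₁ x := by
      intro x
      obtain ⟨h1, h2⟩ := hslack R₁ hR₁ hNv₁ x
      have h3 := hτ0 R₁ hR₁ hNv₁ x
      have h4 : b * τ R₁ x ≤ a * τ R₁ x := mul_le_mul_of_nonneg_right hcon h3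
      linarith
    apply hα'
    refine ⟨mk a (w R₁ - a • wh R₁), e R₁ - a * eh R₁, fun x => ?_⟩
    have hn0 := (hN R₁ hR₁ hNv₁).2
    have h1 := hall x
    have h2 := hτh R₁ hR₁ hNv₁ x
    simp only [hσ] at h1
    rw [← h2] at h1
    have h3 : n R₁ 0 * ((w R₁ ⬝ᵥ base (x : E3) + e R₁ - α x)
        - a * (wh R₁ ⬝ᵥ base (x : E3) + eh R₁ - (x : E3) 0)) = 0 := by
      linarith
    have h4 : (w R₁ ⬝ᵥ base (x : E3) + e R₁ - α x)
        - a * (wh R₁ ⬝ᵥ base (x : E3) + eh R₁ - (x : E3) 0) = 0 := by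
      rcases mul_eq_zero.mp h3 with h | h
      · exact absurd h hn0
      · exact h
    rw [dot_split (mk a (w R₁ - a • wh R₁)) (x : E3)]
    simp only [mk_zero, base_mk, sub_dotProduct, smul_dotProduct, smul_eq_mul]
    linarith
  have hc0 : 0 < b - a := by linarith
  set c : ℝ := b - a with hc'
  have h2c : 0 < 2 / c := by positivity
  set r1 : X → ℝ := fun x => (2 / c) * (α x - a * (x : E3) 0) with hr1
  set r2 : X → ℝ := fun x => (2 / c) * (b * (x : E3) 0 - α x) with hr2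
  -- interpolations and slacks
  have hint1 : ∀ R ∈ facets X, Nonvert X R → ∀ x : X, (x : E3) ∈ R →
      r1 x = ((2 / c) • (w R - a • wh R)) ⬝ᵥ base (x : E3) + (2 / c) * (e R - a * eh R) := by
    intro R hR hNv x hx
    simp only [hr1]
    rw [hw R hR hNv x hx, hhR R hR hNv x hx, smul_dotProduct, sub_dotProduct, smul_dotProduct,
      smul_eq_mul, smul_eq_mul]
    ring
  have hint2 : ∀ R ∈ facets X, Nonvert X R → ∀ x : X, (x : E3) ∈ R →
      r2 x = ((2 / c) • (b • wh R - w R)) ⬝ᵥ base (x : E3) + (2 / c) * (b * eh R - e R) := by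
    intro R hR hNv x hx
    simp only [hr2]
    rw [hw R hR hNv x hx, hhR R hR hNv x hx, smul_dotProduct, sub_dotProduct, smul_dotProduct,
      smul_eq_mul, smul_eq_mul]
    ring
  have hsl1 : ∀ R ∈ facets X, Nonvert X R → ∀ x : X,
      n R 0 * (((2 / c) • (w R - a • wh R)) ⬝ᵥ base (x : E3) + (2 / c) * (e R - a * eh R) - r1 x)
        = (2 / c) * (σ R x - a * τ R x) := by
    intro R hR hNv x
    rw [← hτh R hR hNv x]
    simp only [hr1, hσ, smul_dotProduct, sub_dotProduct, smul_eq_mul]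
    ring
  have hsl2 : ∀ R ∈ facets X, Nonvert X R → ∀ x : X,
      n R 0 * (((2 / c) • (b • wh R - w R)) ⬝ᵥ base (x : E3) + (2 / c) * (b * eh R - e R) - r2 x)
        = (2 / c) * (b * τ R x - σ R x) := by
    intro R hR hNv x
    rw [← hτh R hR hNv x]
    simp only [hr2, hσ, smul_dotProduct, sub_dotProduct, smul_eq_mul]
    ring
  refine ⟨r1, r2, ?_, ?_, ?_, ?_, ?_, ?_, ?_⟩
  · intro x
    simp only [hr1, hr2]
    field_simp
    simp only [hc']
    ring
  · refine inC_of_chosen hc hs hN (fun R hR hNv => ⟨_, _, hint1 R hR hNv, fun x => ?_⟩)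
    rw [hsl1 R hR hNv x]
    exact mul_nonneg h2c.le (by linarith [(hslack R hR hNv x).1])
  · refine inC_of_chosen hc hs hN (fun R hR hNv => ⟨_, _, hint2 R hR hNv, fun x => ?_⟩)
    rw [hsl2 R hR hNv x]
    exact mul_nonneg h2c.le (by linarith [(hslack R hR hNv x).2])
  · rintro ⟨w', e', h⟩
    apply hα'
    refine ⟨mk a ((c / 2) • w'), (c / 2) * e', fun x => ?_⟩
    have h1 := h x
    simp only [hr1] at h1
    rw [dot_split (mk a ((c / 2) • w')) (x : E3)]
    simp only [mk_zero, base_mk, smul_dotProduct, smul_eq_mul]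
    field_simp at h1 ⊢
    linarith
  · rintro ⟨w', e', h⟩
    apply hα'
    refine ⟨mk b (-((c / 2) • w')), -((c / 2) * e'), fun x => ?_⟩
    have h1 := h x
    simp only [hr2] at h1
    rw [dot_split (mk b (-((c / 2) • w'))) (x : E3)]
    simp only [mk_zero, base_mk, neg_dotProduct, smul_dotProduct, smul_eq_mul]
    field_simp at h1 ⊢
    linarith
  · -- touch for r1
    obtain ⟨⟨h1, h2⟩, h3⟩ := (hmemP qa).mp hqa
    refine ⟨qa.1, h1, h2, qa.2, h3, _, _, hint1 qa.1 h1 h2, ?_⟩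
    have h4 := hsl1 qa.1 h1 h2 qa.2
    have ht := hτpos qa hqa
    have h5 : σ qa.1 qa.2 = a * τ qa.1 qa.2 := by
      have : ρ qa = a := hqa'.symm
      simp only [hρ] at this
      rw [div_eq_iff ht.ne'] at this
      exact this
    rw [h5, sub_self, mul_zero] at h4
    rcases mul_eq_zero.mp h4 with h | h
    · exact absurd h (hN _ h1 h2).2
    · linarith
  · -- touch for r2
    obtain ⟨⟨h1, h2⟩, h3⟩ := (hmemP qb).mp hqb
    refine ⟨qb.1, h1, h2, qb.2, h3, _, _, hint2 qb.1 h1 h2, ?_⟩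
    have h4 := hsl2 qb.1 h1 h2 qb.2
    have ht := hτpos qb hqb
    have h5 : σ qb.1 qb.2 = b * τ qb.1 qb.2 := by
      have : ρ qb = b := hqb'.symm
      simp only [hρ] at this
      rw [div_eq_iff ht.ne'] at this
      exact this
    rw [h5, sub_self, mul_zero] at h4
    rcases mul_eq_zero.mp h4 with h | h
    · exact absurd h (hN _ h1 h2).2
    · linarith

/-- If the heights are not affine in the base, then the lifted polytope is full dimensional:
otherwise all lifted points are on a plane `n ⬝ᵥ p = d`, `n ≠ 0`. If `n 0 ≠ 0` then `r` is `BaseAff`;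
if `n 0 = 0` all bases are on a line and so `X` is on a plane, contradiction (`spans_iff_no_plane`). -/
lemma spans_of_not_baseAff (hs : Spans X) {r : X → ℝ} (hn : ¬ BaseAff X r) :
    (interior (liftK X r)).Nonempty := by
  have hS : Spans (liftS X r) := by
    rw [spans_iff_no_plane]
    rintro ⟨n, d, hn0, h⟩
    have hl : ∀ x : X, n ⬝ᵥ liftPt X r x = d := by
      intro x
      apply h
      simp only [liftS, Finset.mem_image, Finset.mem_attach, true_and]
      exact ⟨x, rfl⟩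
    by_cases h0 : n 0 = 0
    · apply spans_iff_no_plane.mp hs
      refine ⟨n, d, hn0, fun x hx => ?_⟩
      have := hl ⟨x, hx⟩
      rw [dot_lift, h0] at this
      rw [dot_split, h0]
      linarith
    · apply hn
      refine ⟨-((n 0)⁻¹ • base n), d / n 0, fun x => ?_⟩
      have := hl x
      rw [dot_lift] at this
      rw [neg_dotProduct, smul_dotProduct, smul_eq_mul]
      field_simp
      linarith
  unfold Spans cx at hS
  rw [coe_liftS] at hS
  exact hS

/-- Points of the lifted polytope satisfy the lifted facet inequality. -/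
lemma InC.le {r : X → ℝ} (hC : InC X r) {R : Finset E3} (hR : R ∈ facets X) {n : E3} {d : ℝ}
    (hn : FacetNormal X R n d) (hn0 : n 0 ≠ 0) {p : ℝ} {y : E2} (hp : mk p y ∈ liftK X r) :
    ∃ (w : E2) (e : ℝ), (∀ x : X, (x : E3) ∈ R → r x = w ⬝ᵥ base (x : E3) + e) ∧
      0 ≤ n 0 * (w ⬝ᵥ y + e - p) := by
  obtain ⟨w, e, h1, h2⟩ := hC R hR n d hn hn0
  refine ⟨w, e, h1, ?_⟩
  set C : Set E3 := {q | 0 ≤ n 0 * (w ⬝ᵥ base q + e - q 0)} with hCdef
  have hconv : Convex ℝ C := by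
    intro q₁ h₁ q₂ h₂ a c ha hc' hac
    simp only [hCdef, mem_setOf_eq] at h₁ h₂ ⊢
    rw [base_comb, dotProduct_add, dotProduct_smul, dotProduct_smul]
    simp only [Pi.add_apply, Pi.smul_apply, smul_eq_mul]
    have : n 0 * (a * w ⬝ᵥ base q₁ + c * w ⬝ᵥ base q₂ + e - (a * q₁ 0 + c * q₂ 0)) =
        a * (n 0 * (w ⬝ᵥ base q₁ + e - q₁ 0)) + c * (n 0 * (w ⬝ᵥ base q₂ + e - q₂ 0)) +
          n 0 * e * (1 - (a + c)) := by ring
    rw [this, hac]
    have h3 := mul_nonneg ha h₁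
    have h4 := mul_nonneg hc' h₂
    linarith
  have hsub : range (liftPt X r) ⊆ C := by
    rintro _ ⟨x, rfl⟩
    simp only [hCdef, mem_setOf_eq, base_liftPt', liftPt_zero']
    exact h2 x
  have := convexHull_min hsub hconv hp
  simpa [hCdef] using this

/-- **Fibers add in the chamber.** By `mem_cx_of_facets` check a facet `R` with normal `(n, d)`.
If `n 0 = 0`: `n ⬝ᵥ mk q y = base n ⬝ᵥ y`, and `y` is a convex combination of the bases of `X` (from
`mk p₁ y ∈ liftK X r1`), on which `base n ⬝ᵥ base x = n ⬝ᵥ x ≤ d`. If `n 0 ≠ 0`: `InC.le` for `r1`, `r2` gives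
`(w₁, e₁)`, `(w₂, e₂)`; by `base_independent` and `(r1 + r2) / 2 = h` on `R`, the average
of these interpolations is `(w_h, e_h) = (- base n / n 0, d / n 0)`. Averaging the two inequalities:
`0 ≤ n 0 * (w_h ⬝ᵥ y + e_h - (p₁ + p₂) / 2) = d - n ⬝ᵥ mk ((p₁ + p₂) / 2) y`. -/
theorem fiber_mid (hc : ConvexPos X) (hs : Spans X) {r1 r2 : X → ℝ}
    (havg : ∀ x : X, (r1 x + r2 x) / 2 = (x : E3) 0) (h1 : InC X r1) (h2 : InC X r2)
    {y : E2} {p₁ p₂ : ℝ} (hp₁ : mk p₁ y ∈ liftK X r1) (hp₂ : mk p₂ y ∈ liftK X r2) :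
    mk ((p₁ + p₂) / 2) y ∈ cx X := by
  refine mem_cx_of_facets hs (fun R hR n d hN => ?_)
  rw [dot_mk]
  have hRX : R ⊆ X := (mem_facets.mp hR).1
  by_cases hn0 : n 0 = 0
  · rw [hn0, zero_mul, zero_add]
    set C : Set E3 := {q | base n ⬝ᵥ base q ≤ d} with hCdef
    have hconv : Convex ℝ C := by
      intro q₁ h₁ q₂ h₂ a c ha hc' hac
      simp only [hCdef, mem_setOf_eq] at h₁ h₂ ⊢
      rw [base_comb, dotProduct_add, dotProduct_smul, dotProduct_smul]
      simp only [smul_eq_mul]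
      have h3 := mul_le_mul_of_nonneg_left h₁ ha
      have h4 := mul_le_mul_of_nonneg_left h₂ hc'
      have : (a + c) * d = d := by rw [hac, one_mul]
      nlinarith
    have hsub : range (liftPt X r1) ⊆ C := by
      rintro _ ⟨x, rfl⟩
      simp only [hCdef, mem_setOf_eq, base_liftPt']
      have := hN.2.1 x x.2
      rw [dot_split, hn0, zero_mul, zero_add] at this
      exact this
    have := convexHull_min hsub hconv hp₁
    simpa [hCdef] using this
  · obtain ⟨w₁, e₁, hw₁, hi₁⟩ := h1.le hR hN hn0 hp₁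
    obtain ⟨w₂, e₂, hw₂, hi₂⟩ := h2.le hR hN hn0 hp₂
    have hind := base_independent hc hR ⟨n, d, hN, hn0⟩
      (w := (n 0 / 2) • (w₁ + w₂) + base n) (e := n 0 * ((e₁ + e₂) / 2) - d) (by
        intro x hx
        have e1 := hw₁ ⟨x, hRX hx⟩ hx
        have e2 := hw₂ ⟨x, hRX hx⟩ hx
        have e3 := havg ⟨x, hRX hx⟩
        have e4 : n ⬝ᵥ x = d := (hN.2.2 x (hRX hx)).mpr hx
        simp only at e1 e2 e3
        rw [dot_split] at e4
        rw [add_dotProduct, smul_dotProduct, add_dotProduct, smul_eq_mul]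
        rw [← e3, e1, e2] at e4
        linarith)
    obtain ⟨h3, h4⟩ := hind
    have h5 : base n = -((n 0 / 2) • (w₁ + w₂)) := by
      rw [eq_neg_iff_add_eq_zero, add_comm]
      exact h3
    rw [h5, neg_dotProduct, smul_dotProduct, add_dotProduct, smul_eq_mul]
    have h6 : d = n 0 * ((e₁ + e₂) / 2) := by linarith
    rw [h6]
    nlinarith

end Vale.Agent.Lib.P248G
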