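import Vale.Agent.Lib.P248G.Chamber

/-!
# P248, JOB P5: on the boundary of the chamber the complexity drops.
-/

open MeasureTheory Set Matrix
open scoped Classical

noncomputable section

namespace Vale.Agent.Lib.P248G

variable {X : Finset E3}

/-- The base map as a linear map. -/
def baseL : E3 →ₗ[ℝ] E2 := LinearMap.funLeft ℝ ℝ Fin.succ

lemma baseL_apply (x : E3) : baseL x = base x := rfl

lemma base_sum {ι : Type*} (s : Finset ι) (c : ι → ℝ) (f : ι → E3) :
    base (∑ i ∈ s, c i • f i) = ∑ i ∈ s, c i • base (f i) := by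
  change baseL (∑ i ∈ s, c i • f i) = ∑ i ∈ s, c i • baseL (f i)
  rw [map_sum]
  simp only [map_smul]

lemma height_sum {ι : Type*} (s : Finset ι) (c : ι → ℝ) (f : ι → E3) :
    (∑ i ∈ s, c i • f i) 0 = ∑ i ∈ s, c i * f i 0 := by
  simp [Finset.sum_apply]

lemma dot_eq (n x : E3) : n ⬝ᵥ x = n 0 * x 0 + base n ⬝ᵥ base x := by
  conv_lhs => rw [← mk_eta x]
  rw [dot_mk]

lemma dot_liftPt (m : E3) (r : X → ℝ) (x : X) :
    m ⬝ᵥ liftPt X r x = m 0 * r x + base m ⬝ᵥ base (x : E3) := by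
  simp [liftPt, dot_mk]

lemma sum_coe_weights {R : Finset E3} (hRX : R ⊆ X) {p : E3}
    (hp : p ∈ convexHull ℝ (R : Set E3)) :
    ∃ L : X → ℝ, (∀ x, 0 ≤ L x) ∧ ∑ x, L x = 1 ∧ ∑ x, L x • (x : E3) = p ∧
      ∀ x, L x ≠ 0 → (x : E3) ∈ R := by
  obtain ⟨l, l0, l1, lp⟩ := Finset.mem_convexHull'.mp hp
  refine ⟨fun x => if (x : E3) ∈ R then l x else 0, ?_, ?_, ?_, ?_⟩
  · intro x
    by_cases h : (x : E3) ∈ R
    · simp [h, l0 _ h]
    · simp [h]
  · have : ∑ x : X, (if (x : E3) ∈ R then l x else 0) = ∑ y ∈ X, (if y ∈ R then l y else 0) :=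
      Finset.sum_coe_sort X (fun y => if y ∈ R then l y else 0)
    rw [this, Finset.sum_ite_mem, Finset.inter_eq_right.mpr hRX, l1]
  · have : ∑ x : X, (if (x : E3) ∈ R then l x else 0) • (x : E3)
        = ∑ y ∈ X, (if y ∈ R then l y else 0) • y :=
      Finset.sum_coe_sort X (fun y => (if y ∈ R then l y else 0) • y)
    rw [this]
    have h2 : ∀ y, (if y ∈ R then l y else 0) • y = if y ∈ R then l y • y else 0 := by
      intro y
      split_ifs <;> simp
    simp only [h2]
    rw [Finset.sum_ite_mem, Finset.inter_eq_right.mpr hRX, lp]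
  · intro x hx
    by_contra h
    simp [h] at hx

/-- **Key lemma.** Let `(m, δ)` support the lifted polytope with `m 0 ≠ 0`, and `ν` be convex weights on
`X` carried by points whose lift is on that plane. Then there is a nonvertical facet `R` of `X` whose
interpolation `(w, e)` of `r` passes through all lifted points carrying weight, and the
base point `∑ ν x • base x` lies in the hull of the bases of `R`.

Paper proof. `q = ∑ ν x • x ∈ cx X`. `exit_facet` with `ε = m 0` gives `s ≥ 0`, `R`, `(n, d)`, with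
`m 0 * n 0 > 0`, `p = mk (q 0 + s ε) (base q) ∈ cx X`, `n ⬝ᵥ p = d`. By `FacetNormal.mem_convexHull`,
`p = ∑_{x ∈ R} λ x • x`; so `base q` is in the hull of the bases of `R`. Let `(w, e)` from
`hC` for `(R, n, d)`. `P = ∑ λ x r x = w ⬝ᵥ base q + e`, `Q = ∑ ν x r x`. As `Q` is on the plane `m` and
`∑ λ x liftPt x` is below: `m 0 * (P - Q) ≤ 0`. By `InC`, `0 ≤ n 0 * ∑ ν x (w ⬝ᵥ base x + e - r x) =
n 0 * (P - Q)`. Since `m 0 * n 0 > 0`, `P = Q` and all terms `ν x * (w ⬝ᵥ base x + e - r x)` vanish. -/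
lemma key_facet (hc : ConvexPos X) (hs : Spans X) {r : X → ℝ} (hC : InC X r) {m : E3} {δ : ℝ}
    (hm : m 0 ≠ 0)
    (hsup : ∀ x : X, m ⬝ᵥ liftPt X r x ≤ δ) {ν : X → ℝ} (hν : ∀ x, 0 ≤ ν x) (hν1 : ∑ x, ν x = 1)
    (hνt : ∀ x, 0 < ν x → m ⬝ᵥ liftPt X r x = δ) :
    ∃ R ∈ facets X, Nonvert X R ∧ ∃ (w : E2) (e : ℝ),
      (∀ x : X, (x : E3) ∈ R → r x = w ⬝ᵥ base (x : E3) + e) ∧
      (∀ x, 0 < ν x → r x = w ⬝ᵥ base (x : E3) + e) ∧
      (∑ x, ν x • base (x : E3)) ∈ convexHull ℝ (base '' (R : Set E3)) := by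
  set q : E3 := ∑ x, ν x • (x : E3) with hq
  have hqm : q ∈ cx X := by
    refine (convex_convexHull ℝ _).sum_mem (fun x _ => hν x) hν1 (fun x _ => ?_)
    exact subset_convexHull ℝ _ x.2
  obtain ⟨s, hs0, R, hR, n, d, hN, hpos, hmem, heq⟩ := exit_facet hc hs hqm hm
  have hn0 : n 0 ≠ 0 := by
    intro h
    rw [h] at hpos
    simp at hpos
  have hRX : R ⊆ X := (mem_facets.mp hR).1
  set p : E3 := mk (q 0 + s * m 0) (base q) with hp
  have hpR : p ∈ convexHull ℝ (R : Set E3) := hN.mem_convexHull hmem heq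
  obtain ⟨L, L0, L1, Lp, Lsup⟩ := sum_coe_weights hRX hpR
  obtain ⟨w, e, hw, hsl⟩ := hC R hR n d hN hn0
  set y : E2 := base q with hy
  have hyν : ∑ x : X, ν x • base (x : E3) = y := by
    rw [hy, hq, base_sum]
  have hyL : ∑ x : X, L x • base (x : E3) = y := by
    have : base p = y := by simp [hp, hy]
    rw [← this, ← Lp, base_sum]
  -- `P` and `Q`
  set P : ℝ := ∑ x : X, L x * r x with hP
  set Q : ℝ := ∑ x : X, ν x * r x with hQ
  have hPw : P = w ⬝ᵥ y + e := by
    have h1 : ∀ x : X, L x * r x = L x * (w ⬝ᵥ base (x : E3) + e) := by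
      intro x
      by_cases hx : L x = 0
      · simp [hx]
      · rw [← hw x (Lsup x hx)]
    rw [hP, Finset.sum_congr rfl (fun x _ => h1 x), ← hyL]
    simp only [mul_add, Finset.sum_add_distrib, ← Finset.sum_mul, L1, one_mul]
    congr 1
    rw [dotProduct_sum]
    refine Finset.sum_congr rfl (fun x _ => ?_)
    rw [dotProduct_smul, smul_eq_mul]
  have hsumν : ∑ x : X, ν x * (m ⬝ᵥ liftPt X r x) = δ := by
    have h1 : ∀ x : X, ν x * (m ⬝ᵥ liftPt X r x) = ν x * δ := by
      intro x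
      rcases (hν x).eq_or_lt with h | h
      · simp [← h]
      · rw [hνt x h]
    rw [Finset.sum_congr rfl (fun x _ => h1 x), ← Finset.sum_mul, hν1, one_mul]
  have hlift : ∀ (c : X → ℝ), ∑ x : X, c x * (m ⬝ᵥ liftPt X r x) =
      m 0 * ∑ x : X, c x * r x + base m ⬝ᵥ ∑ x : X, c x • base (x : E3) := by
    intro c
    rw [dotProduct_sum, Finset.mul_sum, ← Finset.sum_add_distrib]
    refine Finset.sum_congr rfl (fun x _ => ?_)
    rw [dot_liftPt, dotProduct_smul, smul_eq_mul]
    ring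
  have e1 : m 0 * Q + base m ⬝ᵥ y = δ := by
    rw [← hsumν, hlift, hyν]
  have e2 : m 0 * P + base m ⬝ᵥ y ≤ δ := by
    have : ∑ x : X, L x * (m ⬝ᵥ liftPt X r x) ≤ ∑ x : X, L x * δ :=
      Finset.sum_le_sum (fun x _ => mul_le_mul_of_nonneg_left (hsup x) (L0 x))
    rw [hlift, hyL, ← Finset.sum_mul, L1, one_mul] at this
    exact this
  have e3 : ∑ x : X, ν x * (n 0 * (w ⬝ᵥ base (x : E3) + e - r x)) = n 0 * (P - Q) := by
    have h1 : P = ∑ x : X, ν x * (w ⬝ᵥ base (x : E3) + e) := by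
      rw [hPw, ← hyν]
      simp only [mul_add, Finset.sum_add_distrib, ← Finset.sum_mul, hν1, one_mul]
      congr 1
      rw [dotProduct_sum]
      refine Finset.sum_congr rfl (fun x _ => ?_)
      rw [dotProduct_smul, smul_eq_mul]
    rw [h1, hQ, ← Finset.sum_sub_distrib, Finset.mul_sum]
    refine Finset.sum_congr rfl (fun x _ => ?_)
    ring
  have e4 : 0 ≤ n 0 * (P - Q) := by
    rw [← e3]
    exact Finset.sum_nonneg (fun x _ => mul_nonneg (hν x) (hsl x))
  have hPQ : P = Q := by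
    have h5 : m 0 * (P - Q) ≤ 0 := by linarith
    have h6 : m 0 * n 0 * (P - Q) ^ 2 ≤ 0 := by
      have : m 0 * n 0 * (P - Q) ^ 2 = (m 0 * (P - Q)) * (n 0 * (P - Q)) := by ring
      rw [this]
      exact mul_nonpos_of_nonpos_of_nonneg h5 e4
    have h7 : (P - Q) ^ 2 ≤ 0 := by
      by_contra hcon
      push Not at hcon
      have := mul_pos hpos hcon
      linarith
    have h8 : P - Q = 0 := by
      have := sq_nonneg (P - Q)
      nlinarith
    linarith
  have hzero : ∑ x : X, ν x * (n 0 * (w ⬝ᵥ base (x : E3) + e - r x)) = 0 := by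
    rw [e3, hPQ]
    ring
  have hterms := (Finset.sum_eq_zero_iff_of_nonneg
    (fun x _ => mul_nonneg (hν x) (hsl x))).mp hzero
  refine ⟨R, hR, ⟨n, d, hN, hn0⟩, w, e, hw, ?_, ?_⟩
  · intro x hx
    have h1 := hterms x (Finset.mem_univ x)
    have h2 : n 0 * (w ⬝ᵥ base (x : E3) + e - r x) = 0 := by
      rcases mul_eq_zero.mp h1 with h | h
      · exact absurd h hx.ne'
      · exact h
    have h3 : w ⬝ᵥ base (x : E3) + e - r x = 0 := by
      rcases mul_eq_zero.mp h2 with h | h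
      · exact absurd h hn0
      · exact h
    linarith
  · rw [hyν]
    have h1 : y = baseL p := by
      simp [baseL_apply, hp, hy]
    have h2 : baseL p ∈ baseL '' convexHull ℝ (R : Set E3) := mem_image_of_mem _ hpR
    rw [LinearMap.image_convexHull] at h2
    rw [h1]
    exact h2

lemma cx_vert_liftS (X : Finset E3) (r : X → ℝ) : cx (vert (liftS X r)) = liftK X r := by
  unfold cx
  rw [convexHull_vert, coe_liftS]
  rfl

lemma liftPt_mem_liftK (r : X → ℝ) (x : X) : liftPt X r x ∈ liftK X r :=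
  subset_convexHull ℝ _ (mem_range_self x)

lemma exists_of_mem_vert {r : X → ℝ} {p : E3} (hp : p ∈ vert (liftS X r)) :
    ∃ x : X, liftPt X r x = p := by
  have h := vert_subset _ hp
  simp only [liftS, Finset.mem_image, Finset.mem_attach, true_and] at h
  exact h

@[simp] lemma liftPt_zero (r : X → ℝ) (x : X) : liftPt X r x 0 = r x := rfl

@[simp] lemma base_liftPt (r : X → ℝ) (x : X) : base (liftPt X r x) = base (x : E3) := by
  simp [liftPt]

/-- The relation between a facet `G` of the new polytope and a facet `R` of `X`. -/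
def PhiRel (X : Finset E3) (r : X → ℝ) (X₁ G R : Finset E3) : Prop :=
  R ∈ facets X ∧
    ((¬ Nonvert X R ∧ ∀ p ∈ X₁, (p ∈ G ↔ ∃ x : X, (x : E3) ∈ R ∧ liftPt X r x = p)) ∨
     (Nonvert X R ∧ Nonvert X₁ G ∧ ∃ (w : E2) (e : ℝ),
        (∀ x : X, (x : E3) ∈ R → r x = w ⬝ᵥ base (x : E3) + e) ∧
        ∀ p ∈ X₁, (p ∈ G ↔ p 0 = w ⬝ᵥ base p + e)))

/-- A facet of a polytope with a nonvertical normal: a graph over the points of the facet
is the plane of the facet. -/
lemma plane_iff {X₁ G : Finset E3} (hc₁ : ConvexPos X₁) (hG : G ∈ facets X₁) {m : E3} {δ : ℝ}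
    (hm : FacetNormal X₁ G m δ) (hm0 : m 0 ≠ 0) {w : E2} {e : ℝ}
    (hall : ∀ p ∈ G, p 0 = w ⬝ᵥ base p + e) (p : E3) : m ⬝ᵥ p = δ ↔ p 0 = w ⬝ᵥ base p + e := by
  have hGX : G ⊆ X₁ := (mem_facets.mp hG).1
  have h := base_independent hc₁ hG ⟨m, δ, hm, hm0⟩ (w := m 0 • w + base m) (e := m 0 * e - δ) (by
    intro x hx
    have h1 : m ⬝ᵥ x = δ := (hm.2.2 x (hGX hx)).mpr hx
    rw [dot_eq, hall x hx] at h1
    rw [add_dotProduct, smul_dotProduct, smul_eq_mul]
    linarith)
  obtain ⟨h1, h2⟩ := h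
  have h3 : base m = - (m 0 • w) := by
    rw [eq_neg_iff_add_eq_zero, add_comm]
    exact h1
  have h4 : δ = m 0 * e := by linarith
  rw [dot_eq, h3, neg_dotProduct, smul_dotProduct, smul_eq_mul, h4]
  constructor
  · intro h5
    have h6 : m 0 * (p 0 - (w ⬝ᵥ base p + e)) = 0 := by linarith
    rcases mul_eq_zero.mp h6 with h7 | h7
    · exact absurd h7 hm0
    · linarith
  · intro h5
    rw [h5]
    ring

/-- Uniform weights on the preimage of a nonempty subset of the lifted points. -/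
lemma exists_uniform {ι : Type*} [Fintype ι] (A : Finset ι) (hA : A.Nonempty) :
    ∃ ν : ι → ℝ, (∀ x, 0 ≤ ν x) ∧ ∑ x, ν x = 1 ∧ (∀ x, 0 < ν x ↔ x ∈ A) := by
  have hc : (0 : ℝ) < A.card := by exact_mod_cast hA.card_pos
  refine ⟨fun x => if x ∈ A then (A.card : ℝ)⁻¹ else 0, ?_, ?_, ?_⟩
  · intro x
    dsimp only
    split_ifs
    · positivity
    · exact le_rfl
  · rw [Finset.sum_ite_mem, Finset.univ_inter, Finset.sum_const, nsmul_eq_mul]
    field_simp
  · intro x
    by_cases hx : x ∈ A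
    · simp [hx, hc]
    · simp [hx]

lemma phi_exists (hc : ConvexPos X) (hs : Spans X) {r : X → ℝ} (hC : InC X r) {G : Finset E3} (hG : G ∈ facets (vert (liftS X r))) :
    ∃ R, PhiRel X r (vert (liftS X r)) G R := by
  set X₁ := vert (liftS X r) with hX₁
  have hc₁ : ConvexPos X₁ := convexPos_vert _
  obtain ⟨hGX, hG3, m, δ, hm⟩ := mem_facets.mp hG
  have hsup : ∀ x : X, m ⬝ᵥ liftPt X r x ≤ δ := by
    intro x
    apply hm.le
    rw [cx_vert_liftS]
    exact liftPt_mem_liftK r x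
  have hpre : ∀ p ∈ G, ∃ x : X, liftPt X r x = p := fun p hp => exists_of_mem_vert (hGX hp)
  by_cases hm0 : m 0 = 0
  · -- vertical case
    set R : Finset E3 := X.filter (fun x => m ⬝ᵥ x = δ) with hR
    have hdot : ∀ x : X, m ⬝ᵥ liftPt X r x = m ⬝ᵥ (x : E3) := by
      intro x
      rw [dot_liftPt, dot_eq (n := m) (x := (x : E3)), hm0]
      ring
    have hmemR : ∀ x : X, (x : E3) ∈ R ↔ m ⬝ᵥ (x : E3) = δ := by
      intro x
      simp [hR, x.2]
    have hN : FacetNormal X R m δ := by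
      refine ⟨hm.1, fun x hx => ?_, fun x hx => ?_⟩
      · have := hsup ⟨x, hx⟩
        rwa [hdot] at this
      · simp [hR, hx]
    have hcard : 3 ≤ R.card := by
      refine le_trans hG3 ?_
      refine Finset.card_le_card_of_surjOn
        (fun y => if h : y ∈ X then liftPt X r ⟨y, h⟩ else 0) ?_
      intro p hp
      obtain ⟨x, hx⟩ := hpre p hp
      have hxR : (x : E3) ∈ R := by
        rw [hmemR, ← hdot, hx]
        exact (hm.2.2 p (hGX hp)).mpr hp
      refine ⟨x, hxR, ?_⟩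
      simp [x.2, hx]
    have hRf : R ∈ facets X := mem_facets.mpr ⟨Finset.filter_subset _ _, hcard, m, δ, hN⟩
    refine ⟨R, hRf, Or.inl ⟨?_, ?_⟩⟩
    · rintro ⟨n, d, hn', hn0⟩
      obtain ⟨κ, _, h1, _⟩ := facetNormal_unique hc hs hcard (Finset.filter_subset _ _) hN hn'
      apply hn0
      rw [h1]
      simp [hm0]
    · intro p hp
      constructor
      · intro hpG
        obtain ⟨x, hx⟩ := hpre p hpG
        refine ⟨x, ?_, hx⟩
        rw [hmemR, ← hdot, hx]
        exact (hm.2.2 p hp).mpr hpG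
      · rintro ⟨x, hxR, rfl⟩
        apply (hm.2.2 _ hp).mp
        rw [hdot]
        exact (hmemR x).mp hxR
  · -- nonvertical case
    set A : Finset X := Finset.univ.filter (fun x => liftPt X r x ∈ G) with hA
    have hAne : A.Nonempty := by
      obtain ⟨p, hp⟩ : G.Nonempty := Finset.card_pos.mp (by omega)
      obtain ⟨x, hx⟩ := hpre p hp
      exact ⟨x, by simp [hA, hx, hp]⟩
    obtain ⟨ν, ν0, ν1, νA⟩ := exists_uniform A hAne
    have hνt : ∀ x, 0 < ν x → m ⬝ᵥ liftPt X r x = δ := by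
      intro x hx
      have h1 : liftPt X r x ∈ G := by
        have := (νA x).mp hx
        simpa [hA] using this
      exact (hm.2.2 _ (hGX h1)).mpr h1
    obtain ⟨R, hR, hNv, w, e, hint, hon, _⟩ := key_facet hc hs hC hm0 hsup ν0 ν1 hνt
    have hall : ∀ p ∈ G, p 0 = w ⬝ᵥ base p + e := by
      intro p hp
      obtain ⟨x, hx⟩ := hpre p hp
      have h1 : x ∈ A := by simp [hA, hx, hp]
      have h2 := hon x ((νA x).mpr h1)
      rw [← hx, liftPt_zero, base_liftPt]
      exact h2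
    refine ⟨R, hR, Or.inr ⟨hNv, ⟨m, δ, hm, hm0⟩, w, e, hint, ?_⟩⟩
    intro p hp
    rw [← plane_iff hc₁ hG hm hm0 hall p]
    exact (hm.2.2 p hp).symm

/-- The relation determines `G` from `R`. -/
lemma phi_inj (hc : ConvexPos X) {r : X → ℝ} {X₁ G G' R : Finset E3}
    (hGX : G ⊆ X₁) (hGX' : G' ⊆ X₁)
    (h : PhiRel X r X₁ G R) (h' : PhiRel X r X₁ G' R) : G = G' := by
  obtain ⟨hR, h⟩ := h
  obtain ⟨_, h'⟩ := h'
  have hRX : R ⊆ X := (mem_facets.mp hR).1
  ext p
  constructor
  · intro hp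
    have hpX := hGX hp
    rcases h with ⟨_, h1⟩ | ⟨hNv, _, w, e, hw, h1⟩ <;> rcases h' with ⟨hN', h2⟩ | ⟨hNv', _, w', e', hw', h2⟩
    · exact (h2 p hpX).mpr ((h1 p hpX).mp hp)
    · exact absurd hNv' ‹_›
    · exact absurd hNv hN'
    · have := base_independent hc hR hNv (w := w - w') (e := e - e') (by
        intro x hx
        have e1 := hw ⟨x, hRX hx⟩ hx
        have e2 := hw' ⟨x, hRX hx⟩ hx
        simp only at e1 e2
        rw [sub_dotProduct]
        linarith)
      have hww : w = w' := sub_eq_zero.mp this.1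
      have hee : e = e' := sub_eq_zero.mp this.2
      rw [h2 p hpX, ← hww, ← hee]
      exact (h1 p hpX).mp hp
  · intro hp
    have hpX := hGX' hp
    rcases h with ⟨_, h1⟩ | ⟨hNv, _, w, e, hw, h1⟩ <;> rcases h' with ⟨hN', h2⟩ | ⟨hNv', _, w', e', hw', h2⟩
    · exact (h1 p hpX).mpr ((h2 p hpX).mp hp)
    · exact absurd hNv' ‹_›
    · exact absurd hNv hN'
    · have := base_independent hc hR hNv (w := w - w') (e := e - e') (by
        intro x hx
        have e1 := hw ⟨x, hRX hx⟩ hx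
        have e2 := hw' ⟨x, hRX hx⟩ hx
        simp only at e1 e2
        rw [sub_dotProduct]
        linarith)
      have hww : w = w' := sub_eq_zero.mp this.1
      have hee : e = e' := sub_eq_zero.mp this.2
      rw [h1 p hpX, hww, hee]
      exact (h2 p hpX).mp hp

/-- **The complexity drops on the boundary of the chamber.** Let `X₁ = vert (liftS X r)`.

Paper proof. `|X₁| ≤ |X|` is clear. We construct an injection `Φ : facets X₁ → facets X`.
Let `G ∈ facets X₁` with normal `(m, δ)`; it supports all lifted points since `cx X₁ = liftK X r`.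
(V) If `m 0 = 0`: `R = {x ∈ X | m ⬝ᵥ liftPt x = δ}`; as `m ⬝ᵥ liftPt x = m ⬝ᵥ x`, `(m, δ)` is a facet
normal of `R` for `X`, and `|R| ≥ |G| ≥ 3`. Note `G = X₁ ∩ lift(R)` and `R` is not `Nonvert`.
(N) If `m 0 ≠ 0`: `key_facet` with uniform weights on the preimage of `G`. This gives `R`
nonvertical and `(w, e)` whose plane is the plane of `G`: for `p ∈ X₁`, `p ∈ G ↔ p 0 = w ⬝ᵥ base p + e`,
and `(w, e)` is determined by `R` (`base_independent`).
So `Φ` is injective. If `|X₁| = |X|` and `|facets X₁| = |facets X|` then the lift is injective,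
`X₁ = liftS X r`, and `Φ` is bijective. Take `(R₀, x₀, w₀, e₀)` from `Touch`. `R₀ = Φ G₀`, `G₀` nonvertical
with plane `(w₀, e₀)`, and `lift x₀ ∈ G₀`. For `t ∈ (0, 1]` apply `key_facet` with
`ν = (1 - t) δ_{x₀} + t ν₀` (`ν₀` uniform on the preimage of `G₀`): we get a facet `R_t` with
plane through `G₀`, so plane `(w₀, e₀)`; `R_t = Φ G'` and `G'` has the same plane as `G₀`
so `G' = G₀`, `R_t = R₀`. So the base point of `ν` is in the hull of the bases of `R₀`. Let `t → 0`: this hull is closed so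
`base x₀` is in the hull of the bases of `R₀`, hence `lift x₀` is in the hull of the lifts of `R₀`, and `x₀ ∉ R₀`,
contradicting `lift x₀ ∈ vert (liftS X r)`. -/
theorem cplx_decrease (hc : ConvexPos X) (hs : Spans X) {r : X → ℝ} (hC : InC X r)
    (hn : ¬ BaseAff X r) (ht : Touch X r) : cplx (vert (liftS X r)) < cplx X := by
  set S := liftS X r with hS
  set X₁ := vert S with hX₁
  have hc₁ : ConvexPos X₁ := convexPos_vert _
  have hphi : ∀ G ∈ facets X₁, ∃ R, PhiRel X r X₁ G R := fun G hG => phi_exists hc hs hC hG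
  choose! Φ hΦ using hphi
  have hmaps : ∀ G ∈ facets X₁, Φ G ∈ facets X := fun G hG => (hΦ G hG).1
  have hinj : Set.InjOn Φ (facets X₁ : Set (Finset E3)) := by
    intro G hG G' hG' hEq
    have hG1 : G ∈ facets X₁ := hG
    have hG2 : G' ∈ facets X₁ := hG'
    have h1 := hΦ G hG1
    have h2 := hΦ G' hG2
    rw [← hEq] at h2
    exact phi_inj hc (mem_facets.mp hG1).1 (mem_facets.mp hG2).1 h1 h2
  have hle : (facets X₁).card ≤ (facets X).card :=
    Finset.card_le_card_of_injOn Φ (fun G hG => hmaps G hG) hinj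
  have hSX : S.card ≤ X.card := by
    have : S.card ≤ X.attach.card := Finset.card_image_le
    simpa using this
  have hX₁S : X₁.card ≤ S.card := Finset.card_le_card (vert_subset S)
  by_contra hnot
  unfold cplx at hnot
  have hcardV : X₁.card = X.card := by omega
  have hcardF : (facets X₁).card = (facets X).card := by omega
  have hSeq : X₁ = S := Finset.eq_of_subset_of_card_le (vert_subset S) (by omega)
  have hLinj : Function.Injective (liftPt X r) := by
    have h1 : (X.attach.image (liftPt X r)).card = X.attach.card := by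
      rw [Finset.card_attach]
      change S.card = X.card
      omega
    have h2 := Finset.card_image_iff.mp h1
    intro a b hab
    exact h2 (Finset.mem_coe.mpr (Finset.mem_attach _ a)) (Finset.mem_coe.mpr (Finset.mem_attach _ b)) hab
  have hsurj : ∀ R ∈ facets X, ∃ G ∈ facets X₁, Φ G = R := by
    have himg : (facets X₁).image Φ = facets X := by
      apply Finset.eq_of_subset_of_card_le
      · intro R hR
        obtain ⟨G, hG, rfl⟩ := Finset.mem_image.mp hR
        exact hmaps G hG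
      · rw [Finset.card_image_of_injOn hinj]
        omega
    intro R hR
    rw [← himg] at hR
    obtain ⟨G, hG, h⟩ := Finset.mem_image.mp hR
    exact ⟨G, hG, h⟩
  obtain ⟨R₀, hR₀, hNv₀, x₀, hx₀, w₀, e₀, hw₀, hx₀eq⟩ := ht
  have hR₀X : R₀ ⊆ X := (mem_facets.mp hR₀).1
  obtain ⟨G₀, hG₀, hΦ₀⟩ := hsurj R₀ hR₀
  have hG₀X : G₀ ⊆ X₁ := (mem_facets.mp hG₀).1
  -- uniqueness of interpolation on a nonvertical facet
  have huniq : ∀ {R : Finset E3}, R ∈ facets X → Nonvert X R → ∀ {w w' : E2} {e e' : ℝ},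
      (∀ x : X, (x : E3) ∈ R → r x = w ⬝ᵥ base (x : E3) + e) →
      (∀ x : X, (x : E3) ∈ R → r x = w' ⬝ᵥ base (x : E3) + e') → w = w' ∧ e = e' := by
    intro R hR hNv w w' e e' h1 h2
    have hRX : R ⊆ X := (mem_facets.mp hR).1
    have := base_independent hc hR hNv (w := w - w') (e := e - e') (by
      intro x hx
      have e1 := h1 ⟨x, hRX hx⟩ hx
      have e2 := h2 ⟨x, hRX hx⟩ hx
      simp only at e1 e2
      rw [sub_dotProduct]
      linarith)
    exact ⟨sub_eq_zero.mp this.1, sub_eq_zero.mp this.2⟩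
  have hΦG₀ := hΦ G₀ hG₀
  rw [hΦ₀] at hΦG₀
  obtain ⟨hNvG, hGplane⟩ : Nonvert X₁ G₀ ∧ ∀ p ∈ X₁, (p ∈ G₀ ↔ p 0 = w₀ ⬝ᵥ base p + e₀) := by
    rcases hΦG₀.2 with ⟨h, _⟩ | ⟨_, hNvG, w', e', hw', hpl⟩
    · exact absurd hNv₀ h
    · obtain ⟨h1, h2⟩ := huniq hR₀ hNv₀ hw' hw₀
      subst h1
      subst h2
      exact ⟨hNvG, hpl⟩
  have hLx₀ : liftPt X r x₀ ∈ X₁ := by
    rw [hSeq]
    simp only [hS, liftS, Finset.mem_image, Finset.mem_attach, true_and]
    exact ⟨x₀, rfl⟩
  have hLx₀G : liftPt X r x₀ ∈ G₀ := by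
    rw [hGplane _ hLx₀, liftPt_zero, base_liftPt]
    exact hx₀eq
  obtain ⟨m, δ, hm, hm0⟩ := hNvG
  have hsup : ∀ x : X, m ⬝ᵥ liftPt X r x ≤ δ := by
    intro x
    apply hm.le
    rw [cx_vert_liftS]
    exact liftPt_mem_liftK r x
  set A : Finset X := Finset.univ.filter (fun x => liftPt X r x ∈ G₀) with hA
  have hpre : ∀ p ∈ G₀, ∃ x : X, liftPt X r x = p := fun p hp => exists_of_mem_vert (hG₀X hp)
  have hAne : A.Nonempty := ⟨x₀, by simp [hA, hLx₀G]⟩
  obtain ⟨ν₀, ν0, ν1, νA⟩ := exists_uniform A hAne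
  set b : E2 := base (x₀ : E3) with hb
  set cc : E2 := ∑ x, ν₀ x • base (x : E3) with hcc
  set H : Set E2 := convexHull ℝ (base '' (R₀ : Set E3)) with hH
  -- the main step: for `t ∈ (0, 1]` the base point is in `H`
  have hstep : ∀ t ∈ Ioc (0 : ℝ) 1, (1 - t) • b + t • cc ∈ H := by
    intro t ht
    obtain ⟨ht0, ht1⟩ := ht
    set ν : X → ℝ := fun x => (1 - t) * (if x = x₀ then 1 else 0) + t * ν₀ x with hν
    have hνnn : ∀ x, 0 ≤ ν x := by
      intro x
      have h1 : 0 ≤ 1 - t := by linarith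
      have h2 : (0 : ℝ) ≤ if x = x₀ then 1 else 0 := by split_ifs <;> norm_num
      exact add_nonneg (mul_nonneg h1 h2) (mul_nonneg ht0.le (ν0 x))
    have hν1 : ∑ x, ν x = 1 := by
      simp only [hν, Finset.sum_add_distrib, ← Finset.mul_sum, ν1]
      simp
    have hνt : ∀ x, 0 < ν x → m ⬝ᵥ liftPt X r x = δ := by
      intro x hx
      by_cases hxx : x = x₀
      · subst hxx
        exact (hm.2.2 _ hLx₀).mpr hLx₀G
      · have h1 : 0 < ν₀ x := by
          by_contra hcon
          have h2 : ν₀ x = 0 := le_antisymm (not_lt.mp hcon) (ν0 x)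
          simp [hν, hxx, h2] at hx
        have h2 : liftPt X r x ∈ G₀ := by
          have := (νA x).mp h1
          simpa [hA] using this
        exact (hm.2.2 _ (hG₀X h2)).mpr h2
    obtain ⟨R, hR, hNv, w, e, hint, hon, hmem⟩ := key_facet hc hs hC hm0 hsup hνnn hν1 hνt
    have hνpos : ∀ x ∈ A, 0 < ν x := by
      intro x hx
      have h1 := (νA x).mpr hx
      have h2 : 0 ≤ (1 - t) * (if x = x₀ then (1 : ℝ) else 0) := by
        have h3 : 0 ≤ 1 - t := by linarith
        have h4 : (0 : ℝ) ≤ if x = x₀ then 1 else 0 := by split_ifs <;> norm_num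
        exact mul_nonneg h3 h4
      have h5 := mul_pos ht0 h1
      simp only [hν]
      linarith
    -- `(w, e) = (w₀, e₀)`
    have hpl : w = w₀ ∧ e = e₀ := by
      have := base_independent hc₁ hG₀ ⟨m, δ, hm, hm0⟩ (w := w - w₀) (e := e - e₀) (by
        intro p hp
        obtain ⟨x, hx⟩ := hpre p hp
        have h1 : x ∈ A := by simp [hA, hx, hp]
        have h2 := hon x (hνpos x h1)
        have h3 := (hGplane p (hG₀X hp)).mp hp
        rw [← hx, liftPt_zero, base_liftPt] at h3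
        rw [← hx, base_liftPt, sub_dotProduct]
        linarith)
      exact ⟨sub_eq_zero.mp this.1, sub_eq_zero.mp this.2⟩
    obtain ⟨rfl, rfl⟩ := hpl
    -- `R = R₀`
    have hRR : R = R₀ := by
      obtain ⟨G', hG', hΦ'⟩ := hsurj R hR
      have hrel := hΦ G' hG'
      rw [hΦ'] at hrel
      rcases hrel.2 with ⟨h, _⟩ | ⟨_, _, w', e', hw', hpl'⟩
      · exact absurd hNv h
      · obtain ⟨h1, h2⟩ := huniq hR hNv hw' hint
        subst h1
        subst h2
        have hGG : G' = G₀ := by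
          ext p
          constructor
          · intro hp
            have hpX := (mem_facets.mp hG').1 hp
            exact (hGplane p hpX).mpr ((hpl' p hpX).mp hp)
          · intro hp
            have hpX := hG₀X hp
            exact (hpl' p hpX).mpr ((hGplane p hpX).mp hp)
        rw [← hΦ', hGG, hΦ₀]
    subst hRR
    have hsum : ∑ x, ν x • base (x : E3) = (1 - t) • b + t • cc := by
      simp only [hν, add_smul, Finset.sum_add_distrib, mul_smul]
      rw [← Finset.smul_sum, ← Finset.smul_sum]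
      simp [hb, hcc, ite_smul]
    rw [← hsum]
    exact hmem
  -- closure
  have hclosed : IsClosed H := by
    have hfin : (base '' (R₀ : Set E3)).Finite := (R₀.finite_toSet).image _
    exact (hfin.isCompact_convexHull (𝕜 := ℝ)).isClosed
  have hb0 : b ∈ H := by
    have hcont : Continuous (fun t : ℝ => (1 - t) • b + t • cc) := by fun_prop
    have hcl : IsClosed ((fun t : ℝ => (1 - t) • b + t • cc) ⁻¹' H) := hclosed.preimage hcont
    have hsub : Ioc (0 : ℝ) 1 ⊆ (fun t : ℝ => (1 - t) • b + t • cc) ⁻¹' H := fun t ht => hstep t ht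
    have h0 : (0 : ℝ) ∈ closure (Ioc (0 : ℝ) 1) := by
      rw [closure_Ioc (zero_ne_one)]
      simp
    have h1 := closure_minimal hsub hcl h0
    simpa using h1
  -- lift back
  set Hull : Set E3 := convexHull ℝ ((S : Set E3) \ {liftPt X r x₀}) with hHull
  set T : Set E2 := {y | mk (w₀ ⬝ᵥ y + e₀) y ∈ Hull} with hT
  have hTconv : Convex ℝ T := by
    intro y₁ hy₁ y₂ hy₂ a c ha hc' hac
    have h := (convex_convexHull ℝ _) hy₁ hy₂ ha hc' hac
    have h2 : a • mk (w₀ ⬝ᵥ y₁ + e₀) y₁ + c • mk (w₀ ⬝ᵥ y₂ + e₀) y₂ =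
        mk (w₀ ⬝ᵥ (a • y₁ + c • y₂) + e₀) (a • y₁ + c • y₂) := by
      rw [mk_smul, mk_smul, mk_add]
      congr 1
      rw [dotProduct_add, dotProduct_smul, dotProduct_smul, smul_eq_mul, smul_eq_mul]
      have : e₀ = (a + c) * e₀ := by rw [hac, one_mul]
      nlinarith
    rw [h2] at h
    exact h
  have hTsub : base '' (R₀ : Set E3) ⊆ T := by
    rintro _ ⟨x, hx, rfl⟩
    have hxR : x ∈ R₀ := hx
    have hxX := hR₀X hxR
    have e1 := hw₀ ⟨x, hxX⟩ hxR
    simp only at e1
    change mk (w₀ ⬝ᵥ base x + e₀) (base x) ∈ Hull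
    rw [← e1]
    apply subset_convexHull
    refine ⟨?_, ?_⟩
    · simp only [hS, liftS, Finset.coe_image, Finset.coe_attach, image_univ]
      exact ⟨⟨x, hxX⟩, rfl⟩
    · intro hcon
      have h2 : liftPt X r ⟨x, hxX⟩ = liftPt X r x₀ := hcon
      have h3 := hLinj h2
      apply hx₀
      rw [← h3]
      exact hxR
  have hfinal : b ∈ T := convexHull_min hTsub hTconv hb0
  have hfinal2 : liftPt X r x₀ ∈ Hull := by
    have : mk (w₀ ⬝ᵥ b + e₀) b = liftPt X r x₀ := by
      simp only [liftPt, hx₀eq, hb]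
    rw [← this]
    exact hfinal
  have hv := (Finset.mem_filter.mp hLx₀).2
  exact hv hfinal2

end Vale.Agent.Lib.P248G
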