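import Mathlib

/-!
# P248: general Mahler inequality in dimension 3: basic definitions

Blueprint of the whole proof: see the file `Blueprint.lean` in this folder (comment only).
Heights are coordinate `0` of `Fin 3 → ℝ`, the base of a point is `Fin.tail`.
-/

open MeasureTheory Set Matrix
open scoped Classical

noncomputable section

namespace Vale.Agent.Lib.P248G

/-- The plane. -/
abbrev E2 := Fin 2 → ℝ
/-- Space. -/
abbrev E3 := Fin 3 → ℝ

/-- The point of `E3` with height `s` (coordinate `0`) and base `y` (coordinates `1,2`). -/
def mk (s : ℝ) (y : E2) : E3 := Fin.cons s y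

/-- The base of a point: forget coordinate `0`. -/
def base (x : E3) : E2 := Fin.tail x

@[simp] lemma mk_zero (s : ℝ) (y : E2) : mk s y 0 = s := rfl

@[simp] lemma base_mk (s : ℝ) (y : E2) : base (mk s y) = y := by
  simp [base, mk]

@[simp] lemma mk_eta (x : E3) : mk (x 0) (base x) = x := by
  simp [base, mk]

lemma mk_add (s t : ℝ) (y w : E2) : mk s y + mk t w = mk (s + t) (y + w) := by
  ext i
  refine Fin.cases ?_ (fun j => ?_) i <;> simp [mk]

lemma mk_sub (s t : ℝ) (y w : E2) : mk s y - mk t w = mk (s - t) (y - w) := by
  ext i
  refine Fin.cases ?_ (fun j => ?_) i <;> simp [mk]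

lemma mk_smul (c s : ℝ) (y : E2) : c • mk s y = mk (c * s) (c • y) := by
  ext i
  refine Fin.cases ?_ (fun j => ?_) i <;> simp [mk]

/-- Splitting the dot product into height part and base part. -/
lemma dot_mk (y : E3) (s : ℝ) (w : E2) : y ⬝ᵥ mk s w = y 0 * s + base y ⬝ᵥ w := by
  simp [dotProduct, Fin.sum_univ_succ, mk, base, Fin.tail]

/-- The polar of `K` with respect to `z`. -/
def polarAt (K : Set E3) (z : E3) : Set E3 := {y | ∀ x ∈ K, y ⬝ᵥ (x - z) ≤ 1}

/-- The volume product at `z`. -/
def volProd (K : Set E3) (z : E3) : ℝ := (volume K).toReal * (volume (polarAt K z)).toReal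

/-- The convex hull of a finite set. -/
def cx (X : Finset E3) : Set E3 := convexHull ℝ (X : Set E3)

/-- Convex position: no point of `X` lies in the convex hull of the other points. -/
def ConvexPos (X : Finset E3) : Prop := ∀ x ∈ X, x ∉ convexHull ℝ ((X : Set E3) \ {x})

/-- The convex hull of `X` has nonempty interior. -/
def Spans (X : Finset E3) : Prop := (interior (cx X)).Nonempty

/-- `(n, d)` is an outer normal with offset for the tight set `R` of `X`. -/
def FacetNormal (X R : Finset E3) (n : E3) (d : ℝ) : Prop :=
  n ≠ 0 ∧ (∀ x ∈ X, n ⬝ᵥ x ≤ d) ∧ ∀ x ∈ X, (n ⬝ᵥ x = d ↔ x ∈ R)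

/-- `R` is (the vertex set of) a facet of `conv X`: the tight set of a supporting plane with at
least three points. For `X` in convex position three points are never collinear. -/
def IsFacet (X R : Finset E3) : Prop :=
  R ⊆ X ∧ 3 ≤ R.card ∧ ∃ n d, FacetNormal X R n d

/-- The facets of `conv X`, as a finite set of vertex sets. -/
def facets (X : Finset E3) : Finset (Finset E3) := X.powerset.filter (IsFacet X)

lemma mem_facets {X R : Finset E3} : R ∈ facets X ↔ IsFacet X R := by
  simp only [facets, Finset.mem_filter, Finset.mem_powerset]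
  exact ⟨fun h => h.2, fun h => ⟨h.1, h⟩⟩

/-- The complexity measure of the induction: number of vertices plus number of facets. -/
def cplx (X : Finset E3) : ℕ := X.card + (facets X).card

/-- The points of `S` that are not in the hull of the others. -/
def vert (S : Finset E3) : Finset E3 := S.filter (fun x => x ∉ convexHull ℝ ((S : Set E3) \ {x}))

/-- The shadow family: same bases as `X`, heights `r`. -/
def liftPt (X : Finset E3) (r : X → ℝ) (x : X) : E3 := mk (r x) (base (x : E3))

/-- The convex hull of the lifted points. -/
def liftK (X : Finset E3) (r : X → ℝ) : Set E3 := convexHull ℝ (range (liftPt X r))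

/-- The lifted points as a finite set. -/
def liftS (X : Finset E3) (r : X → ℝ) : Finset E3 := X.attach.image (liftPt X r)

lemma liftK_height (X : Finset E3) : liftK X (fun x => (x : E3) 0) = cx X := by
  have : range (liftPt X (fun x => (x : E3) 0)) = (X : Set E3) := by
    ext p
    simp [liftPt]
  simp [liftK, cx, this]

lemma coe_liftS (X : Finset E3) (r : X → ℝ) : (liftS X r : Set E3) = range (liftPt X r) := by
  ext p
  simp [liftS]

end Vale.Agent.Lib.P248G
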