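import Vale.Agent.Lib.P248G.Poly

/-!
# P248, JOB P1b: polar duality for polytopes.

For a facet `R` with normal `(n, d)` and an interior point `z` put `n_R = (1 / (d - n ⬝ᵥ z)) • n`.
The set `N` of these points is the dual polytope: `cx N = polarAt (cx X) z`, and
`polarAt (cx N) 0` is the translate of `cx X` by `- z`.
-/

open MeasureTheory Set Matrix
open scoped Classical

noncomputable section

namespace Vale.Agent.Lib.P248G

variable {X : Finset E3}

/-- A facet normal is strict at an interior point. -/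
lemma FacetNormal.lt_of_interior {R : Finset E3} {n : E3} {d : ℝ} (h : FacetNormal X R n d) {z : E3}
    (hz : z ∈ interior (cx X)) : n ⬝ᵥ z < d := by
  have hn : 0 < n ⬝ᵥ n := by
    have hne : n ≠ 0 := h.1
    have h0 : n ⬝ᵥ n ≠ 0 := by
      intro h0
      exact hne (dotProduct_self_eq_zero.mp h0)
    have h1 : 0 ≤ n ⬝ᵥ n := by
      simp only [dotProduct]
      exact Finset.sum_nonneg (fun i _ => mul_self_nonneg _)
    exact lt_of_le_of_ne h1 (Ne.symm h0)
  have hcont : Filter.Tendsto (fun ε : ℝ => z + ε • n) (nhds 0) (nhds z) := by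
    have : Continuous (fun ε : ℝ => z + ε • n) := by fun_prop
    simpa using this.tendsto 0
  have hev := hcont.eventually (mem_interior_iff_mem_nhds.mp hz)
  have hev' : ∀ᶠ ε : ℝ in nhdsWithin 0 (Ioi 0), z + ε • n ∈ cx X :=
    hev.filter_mono nhdsWithin_le_nhds
  obtain ⟨ε, hε, hε0⟩ := (hev'.and self_mem_nhdsWithin).exists
  have h1 := h.le hε
  have h2 : n ⬝ᵥ (z + ε • n) = n ⬝ᵥ z + ε * (n ⬝ᵥ n) := by
    rw [dotProduct_add, dotProduct_smul, smul_eq_mul]
  rw [h2] at h1
  have h3 : 0 < ε * (n ⬝ᵥ n) := mul_pos hε0 hn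
  linarith

/-- **Lemma A.** The vectors `x - z`, `x ∈ R`, for a facet `R` and an interior point `z`, have trivial
annihilator. -/
lemma eq_zero_of_orth (hc : ConvexPos X) (hs : Spans X) {R : Finset E3} (hR : R ∈ facets X) {z : E3}
    (hz : z ∈ interior (cx X)) {u : E3} (hu : ∀ x ∈ R, u ⬝ᵥ (x - z) = 0) : u = 0 := by
  obtain ⟨hRX, h3, n, d, hn⟩ := mem_facets.mp hR
  classical
  have hnz := hn.lt_of_interior hz
  -- small perturbation of the normal
  have hev1 : ∀ᶠ ε : ℝ in nhds 0, n + ε • u ≠ 0 := by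
    have hcont : Continuous (fun ε : ℝ => n + ε • u) := by fun_prop
    have : (fun ε : ℝ => n + ε • u) 0 ≠ 0 := by simpa using hn.1
    exact hcont.continuousAt.eventually_ne this
  have hev2 : ∀ᶠ ε : ℝ in nhds 0, ∀ x ∈ X \ R, ε * (u ⬝ᵥ (x - z)) < d - n ⬝ᵥ x := by
    rw [Filter.eventually_all_finset]
    intro x hx
    have hxX : x ∈ X := (Finset.mem_sdiff.mp hx).1
    have hxR : x ∉ R := (Finset.mem_sdiff.mp hx).2
    have hle := hn.2.1 x hxX
    have hne : n ⬝ᵥ x ≠ d := fun h => hxR ((hn.2.2 x hxX).mp h)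
    have hgap : 0 < d - n ⬝ᵥ x := by
      have := lt_of_le_of_ne hle hne
      linarith
    have hcont : Continuous (fun ε : ℝ => ε * (u ⬝ᵥ (x - z))) := by fun_prop
    have : (fun ε : ℝ => ε * (u ⬝ᵥ (x - z))) 0 < d - n ⬝ᵥ x := by simpa using hgap
    exact hcont.continuousAt.eventually_lt continuousAt_const this
  have hev : ∀ᶠ ε : ℝ in nhdsWithin 0 (Ioi 0),
      (n + ε • u ≠ 0 ∧ ∀ x ∈ X \ R, ε * (u ⬝ᵥ (x - z)) < d - n ⬝ᵥ x) :=
    (hev1.and hev2).filter_mono nhdsWithin_le_nhds
  obtain ⟨ε, ⟨hε1, hε2⟩, hε0⟩ := (hev.and self_mem_nhdsWithin).exists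
  have hε0' : (0 : ℝ) < ε := hε0
  have hdot : ∀ x : E3, (n + ε • u) ⬝ᵥ x = n ⬝ᵥ x + ε * (u ⬝ᵥ x) := by
    intro x
    rw [add_dotProduct, smul_dotProduct, smul_eq_mul]
  have hsub : ∀ x : E3, u ⬝ᵥ (x - z) = u ⬝ᵥ x - u ⬝ᵥ z := by
    intro x
    rw [dotProduct_sub]
  have hn' : FacetNormal X R (n + ε • u) (d + ε * (u ⬝ᵥ z)) := by
    refine ⟨hε1, fun x hx => ?_, fun x hx => ?_⟩
    · rw [hdot]
      by_cases hxR : x ∈ R
      · have h1 := hu x hxR
        rw [hsub] at h1
        have h2 := (hn.2.2 x hx).mpr hxR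
        have h3' : u ⬝ᵥ x = u ⬝ᵥ z := by linarith
        rw [h2, h3']
      · have h1 := hε2 x (Finset.mem_sdiff.mpr ⟨hx, hxR⟩)
        rw [hsub] at h1
        nlinarith
    · rw [hdot]
      constructor
      · intro h1
        by_contra hxR
        have h2 := hε2 x (Finset.mem_sdiff.mpr ⟨hx, hxR⟩)
        rw [hsub] at h2
        nlinarith
      · intro hxR
        have h1 := hu x hxR
        rw [hsub] at h1
        have h2 := (hn.2.2 x hx).mpr hxR
        have h3' : u ⬝ᵥ x = u ⬝ᵥ z := by linarith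
        rw [h2, h3']
  obtain ⟨κ, hκ, h1, h2⟩ := facetNormal_unique hc hs h3 hRX hn hn'
  -- `ε u = (κ - 1) n`
  have hεu : ε • u = (κ - 1) • n := by
    have : n + ε • u - n = κ • n - n := by rw [h1]
    rw [add_sub_cancel_left] at this
    rw [this, sub_smul, one_smul]
  obtain ⟨x₀, hx₀⟩ : R.Nonempty := Finset.card_pos.mp (by omega)
  have hx₀X := hRX hx₀
  have h4 := hu x₀ hx₀
  have h5 : ε * (u ⬝ᵥ (x₀ - z)) = (κ - 1) * (n ⬝ᵥ (x₀ - z)) := by
    rw [← smul_eq_mul, ← smul_dotProduct, hεu, smul_dotProduct, smul_eq_mul]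
  rw [h4, mul_zero, dotProduct_sub, (hn.2.2 x₀ hx₀X).mpr hx₀] at h5
  have h6 : κ - 1 = 0 := by
    have h7 : d - n ⬝ᵥ z ≠ 0 := by linarith
    rcases mul_eq_zero.mp h5.symm with h | h
    · exact h
    · exact absurd h h7
  rw [h6, zero_smul] at hεu
  rcases smul_eq_zero.mp hεu with h | h
  · exact absurd h hε0'.ne'
  · exact h

/-- The dual point of a normal. -/
def dualPt (n : E3) (d : ℝ) (z : E3) : E3 := (1 / (d - n ⬝ᵥ z)) • n

lemma dualPt_dot (n : E3) (d : ℝ) (z p : E3) :
    dualPt n d z ⬝ᵥ p = (n ⬝ᵥ p) / (d - n ⬝ᵥ z) := by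
  rw [dualPt, smul_dotProduct, smul_eq_mul]
  ring

lemma dualPt_le_iff {n : E3} {d : ℝ} {z : E3} (h : n ⬝ᵥ z < d) (p : E3) :
    dualPt n d z ⬝ᵥ (p - z) ≤ 1 ↔ n ⬝ᵥ p ≤ d := by
  have h0 : 0 < d - n ⬝ᵥ z := by linarith
  rw [dualPt_dot, div_le_one h0, dotProduct_sub]
  constructor <;> intro h1 <;> linarith

lemma dualPt_eq_iff {n : E3} {d : ℝ} {z : E3} (h : n ⬝ᵥ z < d) (p : E3) :
    dualPt n d z ⬝ᵥ (p - z) = 1 ↔ n ⬝ᵥ p = d := by
  have h0 : 0 < d - n ⬝ᵥ z := by linarith
  rw [dualPt_dot, div_eq_one_iff_eq h0.ne', dotProduct_sub]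
  constructor <;> intro h1 <;> linarith

/-- A linear functional on `E3` is a dot product. -/
lemma exists_dot_eq (f : E3 →L[ℝ] ℝ) : ∃ p : E3, ∀ a : E3, f a = p ⬝ᵥ a := by
  refine ⟨fun i => f (Pi.single i 1), fun a => ?_⟩
  have h : a = ∑ i, a i • (Pi.single i (1 : ℝ) : E3) := by
    ext j
    simp [Finset.sum_apply, Pi.single_apply]
  conv_lhs => rw [h]
  rw [map_sum]
  simp only [map_smul, smul_eq_mul, dotProduct]
  exact Finset.sum_congr rfl (fun i _ => by ring)

lemma convex_polarAt (S : Set E3) (z : E3) : Convex ℝ (polarAt S z) := by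
  intro y₁ h₁ y₂ h₂ a b ha hb hab x hx
  have h1 := h₁ x hx
  have h2 := h₂ x hx
  rw [add_dotProduct, smul_dotProduct, smul_dotProduct, smul_eq_mul, smul_eq_mul]
  nlinarith

/-- The whole package for the dual polytope in terms of an explicit family `v` of dual points. -/
theorem dual_exists (hc : ConvexPos X) (hs : Spans X) {z : E3} (hz : z ∈ interior (cx X)) :
    ∃ N : Finset E3, ConvexPos N ∧ Spans N ∧ N.card = (facets X).card ∧
      (facets N).card = X.card ∧ (0 : E3) ∈ interior (cx N) ∧
      volProd (cx N) 0 = volProd (cx X) z := by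
  classical
  -- choose normals
  have hch : ∀ R : ↥(facets X), ∃ p : E3 × ℝ, FacetNormal X R.1 p.1 p.2 := by
    intro R
    obtain ⟨-, -, n, d, hn⟩ := mem_facets.mp R.2
    exact ⟨(n, d), hn⟩
  choose nr hnr using hch
  let v : ↥(facets X) → E3 := fun R => dualPt (nr R).1 (nr R).2 z
  have hstrict : ∀ R, (nr R).1 ⬝ᵥ z < (nr R).2 := fun R => (hnr R).lt_of_interior hz
  -- basic properties of `v`
  have hv_le : ∀ R (p : E3), v R ⬝ᵥ (p - z) ≤ 1 ↔ (nr R).1 ⬝ᵥ p ≤ (nr R).2 :=
    fun R p => dualPt_le_iff (hstrict R) p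
  have hv_eq : ∀ R (p : E3), v R ⬝ᵥ (p - z) = 1 ↔ (nr R).1 ⬝ᵥ p = (nr R).2 :=
    fun R p => dualPt_eq_iff (hstrict R) p
  have hvX : ∀ R, ∀ x ∈ X, v R ⬝ᵥ (x - z) ≤ 1 := fun R x hx =>
    (hv_le R x).mpr ((hnr R).2.1 x hx)
  have hvR : ∀ R, ∀ x ∈ X, (v R ⬝ᵥ (x - z) = 1 ↔ x ∈ R.1) := fun R x hx => by
    rw [hv_eq]
    exact (hnr R).2.2 x hx
  -- the H-description in terms of `v`
  have hH : ∀ p : E3, p ∈ cx X ↔ ∀ R, v R ⬝ᵥ (p - z) ≤ 1 := by
    intro p
    constructor
    · intro hp R
      exact (hv_le R p).mpr ((hnr R).le hp)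
    · intro hp
      refine mem_cx_of_facets hs (fun R hR n d hn => ?_)
      have hRm : 3 ≤ R.card := (mem_facets.mp hR).2.1
      have hRX : R ⊆ X := (mem_facets.mp hR).1
      obtain ⟨κ, hκ, h1, h2⟩ := facetNormal_unique hc hs hRm hRX (hnr ⟨R, hR⟩) hn
      have h3 := (hv_le ⟨R, hR⟩ p).mp (hp ⟨R, hR⟩)
      rw [h1, h2, smul_dotProduct, smul_eq_mul]
      exact mul_le_mul_of_nonneg_left h3 hκ.le
  let N : Finset E3 := Finset.univ.image v
  have hNmem : ∀ w, w ∈ N ↔ ∃ R, v R = w := by
    intro w
    simp [N]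
  have hNcoe : (N : Set E3) = range v := by
    ext w
    simp [N]
  -- `v` is injective
  have hvinj : Function.Injective v := by
    intro R R' hRR
    apply Subtype.ext
    ext x
    constructor
    · intro hx
      have hxX : x ∈ X := (mem_facets.mp R.2).1 hx
      rw [← hvR R' x hxX, ← hRR, hvR R x hxX]
      exact hx
    · intro hx
      have hxX : x ∈ X := (mem_facets.mp R'.2).1 hx
      rw [← hvR R x hxX, hRR, hvR R' x hxX]
      exact hx
  have hcardN : N.card = (facets X).card := by
    rw [Finset.card_image_of_injective _ hvinj, Finset.card_univ, Fintype.card_coe]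
  -- the polytope is compact, nonempty
  have hKc : IsCompact (cx X) := isCompact_cx X
  -- `N` is nonempty
  have hNne : N.Nonempty := by
    by_contra hne
    rw [Finset.not_nonempty_iff_eq_empty] at hne
    have hall : ∀ p : E3, p ∈ cx X := by
      intro p
      rw [hH]
      intro R
      have : v R ∈ N := (hNmem _).mpr ⟨R, rfl⟩
      rw [hne] at this
      simp at this
    have huniv : cx X = univ := eq_univ_of_forall hall
    exact hKc.ne_univ huniv
  -- `0` is in the hull of `N`
  have h0N : (0 : E3) ∈ cx N := by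
    by_contra h0
    obtain ⟨f, u, hf1, hf2⟩ := geometric_hahn_banach_closed_point (convex_cx N)
      (isCompact_cx N).isClosed h0
    obtain ⟨p, hp⟩ := exists_dot_eq f
    have hf0 : f 0 = 0 := map_zero f
    rw [hf0] at hf2
    have hneg : ∀ w ∈ N, p ⬝ᵥ w < u := by
      intro w hw
      rw [← hp]
      exact hf1 w (subset_convexHull ℝ _ hw)
    have hpne : p ≠ 0 := by
      intro hp0
      obtain ⟨w, hw⟩ := hNne
      have := hneg w hw
      rw [hp0, zero_dotProduct] at this
      linarith
    have hpp : 0 < p ⬝ᵥ p := by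
      have h0 : p ⬝ᵥ p ≠ 0 := fun h0 => hpne (dotProduct_self_eq_zero.mp h0)
      have h1 : 0 ≤ p ⬝ᵥ p := by
        simp only [dotProduct]
        exact Finset.sum_nonneg (fun i _ => mul_self_nonneg _)
      exact lt_of_le_of_ne h1 (Ne.symm h0)
    -- the ray `z + t p` stays in the hull
    have hray : ∀ t : ℝ, 0 ≤ t → z + t • p ∈ cx X := by
      intro t ht
      rw [hH]
      intro R
      have h1 := hneg (v R) ((hNmem _).mpr ⟨R, rfl⟩)
      have h2 : v R ⬝ᵥ (z + t • p - z) = t * (p ⬝ᵥ v R) := by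
        rw [add_sub_cancel_left, dotProduct_smul, smul_eq_mul, dotProduct_comm]
      rw [h2]
      have h3 : t * (p ⬝ᵥ v R) ≤ 0 :=
        mul_nonpos_of_nonneg_of_nonpos ht (by linarith)
      linarith
    have hcont : Continuous (fun q : E3 => p ⬝ᵥ q) := by fun_prop
    obtain ⟨M, hM⟩ := (hKc.image hcont).bddAbove
    have htop := hM (mem_image_of_mem _ (hray ((M - p ⬝ᵥ z + 1) / (p ⬝ᵥ p)) (by
      have h1 := hM (mem_image_of_mem _ (interior_subset hz))
      apply div_nonneg _ hpp.le
      have h1' : p ⬝ᵥ z ≤ M := h1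
      linarith)))
    have h3 : p ⬝ᵥ (z + ((M - p ⬝ᵥ z + 1) / (p ⬝ᵥ p)) • p) = M + 1 := by
      rw [dotProduct_add, dotProduct_smul, smul_eq_mul]
      field_simp
      ring
    have htop' : p ⬝ᵥ (z + ((M - p ⬝ᵥ z + 1) / (p ⬝ᵥ p)) • p) ≤ M := htop
    rw [h3] at htop'
    linarith
  -- the polar description
  have hpolN : cx N = polarAt (cx X) z := by
    apply Subset.antisymm
    · apply convexHull_min _ (convex_polarAt _ _)
      intro w hw
      rw [Finset.mem_coe, hNmem] at hw
      obtain ⟨R, rfl⟩ := hw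
      have hh : polarAt (cx X) z = polarAt (X : Set E3) z := polarAt_convexHull _ _
      rw [hh]
      intro x hx
      exact hvX R x hx
    · intro y hy
      by_contra hyN
      obtain ⟨f, u, hf1, hf2⟩ := geometric_hahn_banach_closed_point (convex_cx N)
        (isCompact_cx N).isClosed hyN
      obtain ⟨p, hp⟩ := exists_dot_eq f
      have hu0 : 0 < u := by
        have := hf1 0 h0N
        rwa [map_zero] at this
      -- `z + p / u` is in the polytope
      have hmem : z + (1 / u) • p ∈ cx X := by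
        rw [hH]
        intro R
        have h1 := hf1 (v R) (subset_convexHull ℝ _ (Finset.mem_coe.mpr ((hNmem _).mpr ⟨R, rfl⟩)))
        rw [hp] at h1
        rw [add_sub_cancel_left, dotProduct_smul, smul_eq_mul, dotProduct_comm, one_div,
          inv_mul_le_iff₀ hu0, mul_one]
        exact h1.le
      have h2 := hy _ hmem
      rw [add_sub_cancel_left, dotProduct_smul, smul_eq_mul, dotProduct_comm, ← hp, one_div,
        inv_mul_le_iff₀ hu0, mul_one] at h2
      linarith
  -- the bipolar description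
  have hpolP : polarAt (cx N) 0 = (fun y => y + z) ⁻¹' cx X := by
    have hh : polarAt (cx N) 0 = polarAt (N : Set E3) 0 := polarAt_convexHull _ _
    rw [hh]
    ext y
    simp only [polarAt, Set.mem_ofPred_eq, mem_preimage, sub_zero, Finset.mem_coe]
    rw [hH]
    constructor
    · intro h R
      rw [add_sub_cancel_right, dotProduct_comm]
      exact h _ ((hNmem _).mpr ⟨R, rfl⟩)
    · intro h w hw
      obtain ⟨R, rfl⟩ := (hNmem _).mp hw
      have := h R
      rwa [add_sub_cancel_right, dotProduct_comm] at this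
  -- `0` is interior
  have h0int : (0 : E3) ∈ interior (cx N) := by
    rw [hpolN]
    have hh : polarAt (cx X) z = polarAt (X : Set E3) z := polarAt_convexHull _ _
    rw [hh, mem_interior]
    refine ⟨⋂ x ∈ X, {y : E3 | y ⬝ᵥ (x - z) < 1}, ?_, ?_, ?_⟩
    · intro y hy x hx
      have := mem_iInter₂.mp hy x hx
      exact le_of_lt this
    · apply isOpen_biInter_finset
      intro x _
      have hcont : Continuous (fun y : E3 => y ⬝ᵥ (x - z)) := by fun_prop
      exact isOpen_lt hcont continuous_const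
    · refine mem_iInter₂.mpr (fun x _ => ?_)
      simp
  have hspN : Spans N := ⟨0, h0int⟩
  -- convex position of `N`
  have hcN : ConvexPos N := by
    intro w hw hconv
    obtain ⟨R, rfl⟩ := (hNmem _).mp hw
    have hext : v R ∈ (polarAt (cx X) z).extremePoints ℝ := by
      rw [mem_extremePoints]
      refine ⟨?_, ?_⟩
      · rw [← hpolN]
        exact subset_convexHull ℝ _ hw
      · intro y₁ hy₁ y₂ hy₂ hseg
        obtain ⟨a, b, ha, hb, hab, rfl'⟩ := hseg
        have hy₁' : y₁ ∈ polarAt (X : Set E3) z := by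
          have hh : polarAt (cx X) z = polarAt (X : Set E3) z := polarAt_convexHull _ _
          rwa [← hh]
        have hy₂' : y₂ ∈ polarAt (X : Set E3) z := by
          have hh : polarAt (cx X) z = polarAt (X : Set E3) z := polarAt_convexHull _ _
          rwa [← hh]
        have key : ∀ x ∈ R.1, y₁ ⬝ᵥ (x - z) = 1 ∧ y₂ ⬝ᵥ (x - z) = 1 := by
          intro x hx
          have hxX : x ∈ X := (mem_facets.mp R.2).1 hx
          have h1 := hy₁' x hxX
          have h2 := hy₂' x hxX
          have h3 := (hvR R x hxX).mpr hx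
          rw [← rfl', add_dotProduct, smul_dotProduct, smul_dotProduct, smul_eq_mul, smul_eq_mul] at h3
          constructor <;> nlinarith
        constructor
        · have : y₁ - v R = 0 := by
            apply eq_zero_of_orth hc hs R.2 hz
            intro x hx
            rw [sub_dotProduct, (key x hx).1, (hvR R x ((mem_facets.mp R.2).1 hx)).mpr hx, sub_self]
          exact sub_eq_zero.mp this
        · have : y₂ - v R = 0 := by
            apply eq_zero_of_orth hc hs R.2 hz
            intro x hx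
            rw [sub_dotProduct, (key x hx).2, (hvR R x ((mem_facets.mp R.2).1 hx)).mpr hx, sub_self]
          exact sub_eq_zero.mp this
    have hconvdiff := ((convex_polarAt (cx X) z).mem_extremePoints_iff_convex_sdiff).mp hext
    have hsub : convexHull ℝ ((N : Set E3) \ {v R}) ⊆ polarAt (cx X) z \ {v R} := by
      apply convexHull_min _ hconvdiff.2
      intro w' hw'
      refine ⟨?_, hw'.2⟩
      rw [← hpolN]
      exact subset_convexHull ℝ _ hw'.1
    exact (hsub hconv).2 rfl
  -- the tight sets of the vertices of `X`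
  let φ : E3 → Finset E3 := fun x => N.filter (fun w => w ⬝ᵥ (x - z) = 1)
  have hNle : ∀ w ∈ N, ∀ p ∈ cx X, w ⬝ᵥ (p - z) ≤ 1 := by
    intro w hw p hp
    obtain ⟨R, rfl⟩ := (hNmem _).mp hw
    exact (hH p).mp hp R
  have hext : (cx X).extremePoints ℝ = (X : Set E3) := extremePoints_cx hc
  -- each vertex lies on at least three dual points
  have hφ3 : ∀ x ∈ X, 3 ≤ (φ x).card := by
    intro x hx
    by_contra hlt
    have hlt' : (φ x).card < 3 := by omega
    -- a direction orthogonal to the tight dual points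
    let L : E3 →ₗ[ℝ] (↥(φ x) → ℝ) :=
      { toFun := fun q w => w.1 ⬝ᵥ q
        map_add' := by
          intro a b
          funext w
          simp [dotProduct_add]
        map_smul' := by
          intro c a
          funext w
          simp [dotProduct_smul] }
    have hrank : Module.finrank ℝ (↥(φ x) → ℝ) < Module.finrank ℝ E3 := by
      simpa using hlt'
    have hker := LinearMap.ker_ne_bot_of_finrank_lt (f := L) hrank
    obtain ⟨q, hq, hq0⟩ := Submodule.exists_mem_ne_zero_of_ne_bot hker
    have hq' : ∀ w ∈ φ x, w ⬝ᵥ q = 0 := by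
      intro w hw
      have := congrFun (LinearMap.mem_ker.mp hq) ⟨w, hw⟩
      exact this
    -- small moves along `± q` stay in the polytope
    have hev : ∀ᶠ ε : ℝ in nhds 0, ∀ w ∈ N \ φ x,
        w ⬝ᵥ (x - z) + ε * |w ⬝ᵥ q| < 1 := by
      rw [Filter.eventually_all_finset]
      intro w hw
      have hwN := (Finset.mem_sdiff.mp hw).1
      have hwφ := (Finset.mem_sdiff.mp hw).2
      have hle := hNle w hwN x (subset_convexHull ℝ _ hx)
      have hne : w ⬝ᵥ (x - z) ≠ 1 := fun h =>
        hwφ (Finset.mem_filter.mpr ⟨hwN, h⟩)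
      have hlt1 := lt_of_le_of_ne hle hne
      have hcont : Continuous (fun ε : ℝ => w ⬝ᵥ (x - z) + ε * |w ⬝ᵥ q|) := by fun_prop
      have : (fun ε : ℝ => w ⬝ᵥ (x - z) + ε * |w ⬝ᵥ q|) 0 < 1 := by simpa using hlt1
      exact hcont.continuousAt.eventually_lt continuousAt_const this
    obtain ⟨ε, hε, hε0⟩ := ((hev.filter_mono nhdsWithin_le_nhds).and
      (self_mem_nhdsWithin (s := Ioi (0 : ℝ)))).exists
    have hε0' : (0 : ℝ) < ε := hε0
    have hmove : ∀ s : ℝ, |s| ≤ ε → x + s • q ∈ cx X := by
      intro s hs'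
      rw [hH]
      intro R
      have hwN : v R ∈ N := (hNmem _).mpr ⟨R, rfl⟩
      have h1 : v R ⬝ᵥ (x + s • q - z) = v R ⬝ᵥ (x - z) + s * (v R ⬝ᵥ q) := by
        have : x + s • q - z = (x - z) + s • q := by abel
        rw [this, dotProduct_add, dotProduct_smul, smul_eq_mul]
      rw [h1]
      by_cases hφ' : v R ∈ φ x
      · have h2 := hq' _ hφ'
        have h3 := (Finset.mem_filter.mp hφ').2
        rw [h2, h3]
        simp
      · have h2 := hε (v R) (Finset.mem_sdiff.mpr ⟨hwN, hφ'⟩)
        have h3 : s * (v R ⬝ᵥ q) ≤ ε * |v R ⬝ᵥ q| := by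
          calc s * (v R ⬝ᵥ q) ≤ |s * (v R ⬝ᵥ q)| := le_abs_self _
            _ = |s| * |v R ⬝ᵥ q| := abs_mul _ _
            _ ≤ ε * |v R ⬝ᵥ q| := mul_le_mul_of_nonneg_right hs' (abs_nonneg _)
        linarith
    have hxext : x ∈ (cx X).extremePoints ℝ := by
      rw [hext]
      exact hx
    have hp := hmove ε (by rw [abs_of_pos hε0'])
    have hm := hmove (-ε) (by rw [abs_neg, abs_of_pos hε0'])
    have hseg : x ∈ openSegment ℝ (x + ε • q) (x + (-ε) • q) := by
      refine ⟨1 / 2, 1 / 2, by norm_num, by norm_num, by norm_num, ?_⟩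
      ext i
      simp
      ring
    have h5 := (mem_extremePoints.mp hxext).2 _ hp _ hm hseg
    have h6 : ε • q = 0 := by
      have := h5.1
      simpa using this
    rcases smul_eq_zero.mp h6 with h | h
    · exact hε0'.ne' h
    · exact hq0 h
  -- these tight sets are the facets of `N`
  have hφfacet : ∀ x ∈ X, φ x ∈ facets N := by
    intro x hx
    rw [mem_facets]
    have h3 := hφ3 x hx
    refine ⟨Finset.filter_subset _ _, h3, x - z, 1, ?_, ?_, ?_⟩
    · obtain ⟨w, hw⟩ : (φ x).Nonempty := Finset.card_pos.mp (by omega)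
      intro h0
      have := (Finset.mem_filter.mp hw).2
      rw [h0, dotProduct_zero] at this
      exact zero_ne_one this
    · intro w hw
      rw [dotProduct_comm]
      exact hNle w hw x (subset_convexHull ℝ _ hx)
    · intro w hw
      rw [dotProduct_comm]
      constructor
      · intro h
        exact Finset.mem_filter.mpr ⟨hw, h⟩
      · intro h
        exact (Finset.mem_filter.mp h).2
  have hcardF : (facets N).card = X.card := by
    symm
    apply Finset.card_bij (fun x _ => φ x) hφfacet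
    · intro x hx y hy hxy
      have hG := hφfacet x hx
      have : x - y = 0 := by
        apply eq_zero_of_orth hcN hspN hG h0int
        intro w hw
        have h1 := (Finset.mem_filter.mp hw).2
        have h2 : w ∈ φ y := by
          have hxy' : φ x = φ y := hxy
          rwa [← hxy']
        have h3 := (Finset.mem_filter.mp h2).2
        rw [sub_zero, dotProduct_comm]
        have h4 : w ⬝ᵥ (x - y) = w ⬝ᵥ (x - z) - w ⬝ᵥ (y - z) := by
          rw [← dotProduct_sub]
          congr 1
          abel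
        rw [h4, h1, h3, sub_self]
      exact sub_eq_zero.mp this
    · intro G hG
      obtain ⟨hGN, hG3, m, δ, hm⟩ := mem_facets.mp hG
      have hδ : 0 < δ := by
        have := hm.lt_of_interior h0int
        rwa [dotProduct_zero] at this
      let u : E3 := (1 / δ) • m
      have hu_dot : ∀ w : E3, w ⬝ᵥ u = (m ⬝ᵥ w) / δ := by
        intro w
        rw [dotProduct_smul, smul_eq_mul, dotProduct_comm]
        ring
      have hu_le : ∀ w ∈ N, w ⬝ᵥ u ≤ 1 := by
        intro w hw
        rw [hu_dot, div_le_one hδ]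
        exact hm.2.1 w hw
      have hu_eq : ∀ w ∈ N, (w ⬝ᵥ u = 1 ↔ w ∈ G) := by
        intro w hw
        rw [hu_dot, div_eq_one_iff_eq hδ.ne']
        exact hm.2.2 w hw
      have hmem : u + z ∈ cx X := by
        rw [hH]
        intro R
        rw [add_sub_cancel_right]
        exact hu_le _ ((hNmem _).mpr ⟨R, rfl⟩)
      have hextu : u + z ∈ (cx X).extremePoints ℝ := by
        rw [mem_extremePoints]
        refine ⟨hmem, ?_⟩
        intro p₁ hp₁ p₂ hp₂ hseg
        obtain ⟨a, b, ha, hb, hab, hab'⟩ := hseg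
        have key : ∀ w ∈ G, w ⬝ᵥ (p₁ - z) = 1 ∧ w ⬝ᵥ (p₂ - z) = 1 := by
          intro w hw
          have hwN := hGN hw
          have h1 := hNle w hwN p₁ hp₁
          have h2 := hNle w hwN p₂ hp₂
          have h3 := (hu_eq w hwN).mpr hw
          have h4 : u = a • (p₁ - z) + b • (p₂ - z) := by
            have : u + z = a • p₁ + b • p₂ := hab'.symm
            have hz' : z = a • z + b • z := by
              rw [← add_smul, hab, one_smul]
            calc u = (u + z) - z := by abel
              _ = (a • p₁ + b • p₂) - (a • z + b • z) := by rw [this, ← hz']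
              _ = a • (p₁ - z) + b • (p₂ - z) := by
                simp only [smul_sub]
                abel
          rw [h4, dotProduct_add, dotProduct_smul, dotProduct_smul, smul_eq_mul, smul_eq_mul] at h3
          constructor <;> nlinarith
        constructor
        · have : p₁ - (u + z) = 0 := by
            apply eq_zero_of_orth hcN hspN hG h0int
            intro w hw
            have hwN := hGN hw
            rw [sub_zero, dotProduct_comm]
            have h4 : w ⬝ᵥ (p₁ - (u + z)) = w ⬝ᵥ (p₁ - z) - w ⬝ᵥ u := by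
              rw [← dotProduct_sub]
              congr 1
              abel
            rw [h4, (key w hw).1, (hu_eq w hwN).mpr hw, sub_self]
          exact sub_eq_zero.mp this
        · have : p₂ - (u + z) = 0 := by
            apply eq_zero_of_orth hcN hspN hG h0int
            intro w hw
            have hwN := hGN hw
            rw [sub_zero, dotProduct_comm]
            have h4 : w ⬝ᵥ (p₂ - (u + z)) = w ⬝ᵥ (p₂ - z) - w ⬝ᵥ u := by
              rw [← dotProduct_sub]
              congr 1
              abel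
            rw [h4, (key w hw).2, (hu_eq w hwN).mpr hw, sub_self]
          exact sub_eq_zero.mp this
      rw [hext] at hextu
      refine ⟨u + z, hextu, ?_⟩
      ext w
      simp only [φ, Finset.mem_filter, add_sub_cancel_right]
      constructor
      · rintro ⟨hw, h⟩
        exact (hu_eq w hw).mp h
      · intro hw
        exact ⟨hGN hw, (hu_eq w (hGN hw)).mpr hw⟩
  refine ⟨N, hcN, hspN, hcardN, hcardF, h0int, ?_⟩
  unfold volProd
  rw [hpolP, hpolN, measure_preimage_add_right, mul_comm]

end Vale.Agent.Lib.P248G
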