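import Vale.Agent.Lib.P248G.Poly

/-!
# P248, JOB P2: the Euler inequality for the vertex-facet incidences.
-/

open MeasureTheory Set Matrix
open scoped Classical

noncomputable section

namespace Vale.Agent.Lib.P248G

variable {X : Finset E3}

/-- Three vectors orthogonal to a nonzero vector are linearly dependent. -/
lemma dep3 {n : E3} (hn : n ≠ 0) {a b c : E3} (ha : n ⬝ᵥ a = 0) (hb : n ⬝ᵥ b = 0)
    (hc : n ⬝ᵥ c = 0) : ∃ A : Fin 3 → ℝ, A ≠ 0 ∧ A 0 • a + A 1 • b + A 2 • c = 0 := by
  by_contra hno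
  have hli : LinearIndependent ℝ ![a, b, c] := by
    rw [Fintype.linearIndependent_iff]
    intro g hg i
    by_contra hgi
    apply hno
    refine ⟨g, fun h => hgi (by rw [h]; rfl), ?_⟩
    rw [Fin.sum_univ_three] at hg
    simpa using hg
  have hspan := hli.span_eq_top_of_card_eq_finrank (by simp)
  have hmem : n ∈ Submodule.span ℝ (range ![a, b, c]) := by
    rw [hspan]
    trivial
  have hz : ∀ y ∈ Submodule.span ℝ (range ![a, b, c]), n ⬝ᵥ y = 0 := by
    intro y hy
    induction hy using Submodule.span_induction with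
    | mem x hx =>
      obtain ⟨i, rfl⟩ := hx
      fin_cases i <;> simp [ha, hb, hc]
    | zero => simp
    | add x y _ _ hx hy => rw [dotProduct_add, hx, hy, add_zero]
    | smul t x _ hx => rw [dotProduct_smul, hx, smul_zero]
  exact hn (dotProduct_self_eq_zero.mp (hz n hmem))

/-- A functional separating the points of a finite set. -/
lemma exists_sep (X : Finset E3) : ∃ l : E3, ∀ x ∈ X, ∀ y ∈ X, x ≠ y → l ⬝ᵥ x ≠ l ⬝ᵥ y := by
  classical
  let f : E3 → Subspace ℝ E3 := fun v => LinearMap.ker (dotProductBilin ℝ ℝ v)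
  have hf : ∀ v y, y ∈ f v ↔ v ⬝ᵥ y = 0 := by
    intro v y
    simp [f, dotProductBilin]
  let s : Finset (Subspace ℝ E3) :=
    ((X ×ˢ X).filter (fun p => p.1 ≠ p.2)).image (fun p => f (p.1 - p.2))
  have htop : (⊤ : Subspace ℝ E3) ∉ s := by
    intro h
    obtain ⟨p, hp, hp'⟩ := Finset.mem_image.1 h
    have hne := (Finset.mem_filter.1 hp).2
    have h0 : (p.1 - p.2) ∈ f (p.1 - p.2) := by
      rw [hp']
      trivial
    rw [hf] at h0
    exact hne (sub_eq_zero.mp (dotProduct_self_eq_zero.mp h0))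
  obtain ⟨l, hl⟩ := (Set.ne_univ_iff_exists_notMem _).1
    (Subspace.biUnion_ne_univ_of_top_notMem htop)
  refine ⟨l, fun x hx y hy hxy he => hl ?_⟩
  simp only [Set.mem_iUnion, SetLike.mem_coe, exists_prop]
  refine ⟨f (x - y), Finset.mem_image.2 ⟨(x, y), ?_, rfl⟩, ?_⟩
  · simp [hx, hy, hxy]
  · rw [hf, dotProduct_comm, dotProduct_sub, he, sub_self]

/-- `x` has a point of `R` strictly above and a point strictly below. -/
def Side (l : E3) (R : Finset E3) (x : E3) : Prop :=
  ∃ p ∈ R, ∃ q ∈ R, l ⬝ᵥ q < l ⬝ᵥ x ∧ l ⬝ᵥ x < l ⬝ᵥ p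

lemma dot_comb (n p q : E3) (t : ℝ) :
    n ⬝ᵥ (t • p + (1 - t) • q) = t * (n ⬝ᵥ p) + (1 - t) * (n ⬝ᵥ q) := by
  simp [dotProduct_add, dotProduct_smul]

/-- At most two points of `R` are not side points. -/
lemma card_le_side {l : E3} {R : Finset E3}
    (hl : ∀ x ∈ R, ∀ y ∈ R, x ≠ y → l ⬝ᵥ x ≠ l ⬝ᵥ y) :
    R.card ≤ (R.filter (Side l R)).card + 2 := by
  have h2 : (R.filter (fun x => ¬ Side l R x)).card ≤ 2 := by
    by_contra hcon
    have h3 : 2 < (R.filter (fun x => ¬ Side l R x)).card := by omega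
    obtain ⟨a, ha, b, hb, c, hc, hab, hac, hbc⟩ := Finset.two_lt_card.1 h3
    obtain ⟨haR, haS⟩ := Finset.mem_filter.1 ha
    obtain ⟨hbR, hbS⟩ := Finset.mem_filter.1 hb
    obtain ⟨hcR, hcS⟩ := Finset.mem_filter.1 hc
    have hab' := hl a haR b hbR hab
    have hac' := hl a haR c hcR hac
    have hbc' := hl b hbR c hcR hbc
    rcases lt_or_gt_of_ne hab' with h1 | h1 <;> rcases lt_or_gt_of_ne hac' with h2 | h2 <;>
      rcases lt_or_gt_of_ne hbc' with h4 | h4
    · exact hbS ⟨c, hcR, a, haR, h1, h4⟩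
    · exact hcS ⟨b, hbR, a, haR, h2, h4⟩
    · linarith
    · exact haS ⟨b, hbR, c, hcR, h2, h1⟩
    · exact haS ⟨c, hcR, b, hbR, h1, h2⟩
    · linarith
    · exact hcS ⟨a, haR, b, hbR, h4, h2⟩
    · exact hbS ⟨a, haR, c, hcR, h4, h1⟩
  have h3 := Finset.card_filter_add_card_filter_not (s := R) (Side l R)
  omega

/-- A proper convex combination of two points of `X` different from `x` is in the hull of the
others. -/
lemma comb_mem {x p q : E3} (hp : p ∈ X) (hq : q ∈ X) (hpx : p ≠ x) (hqx : q ≠ x) {s t : ℝ}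
    (hs : 0 ≤ s) (ht : 0 ≤ t) (hst : s + t = 1) :
    s • p + t • q ∈ convexHull ℝ ((X : Set E3) \ {x}) := by
  apply (convex_convexHull ℝ _) _ _ hs ht hst
  · exact subset_convexHull ℝ _ ⟨hp, hpx⟩
  · exact subset_convexHull ℝ _ ⟨hq, hqx⟩

/-- Two facets sharing three points `x, p, q` with `x` strictly between `p` and `q` in the order of
`l`: the first is contained in the second. -/
lemma facet_sub (hc : ConvexPos X) {l : E3} {R R' : Finset E3} {n n' : E3} {d d' : ℝ}
    (hRX : R ⊆ X) (h : FacetNormal X R n d) (h' : FacetNormal X R' n' d') {x p q : E3}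
    (hxX : x ∈ X) (hpX : p ∈ X) (hqX : q ∈ X) (hxR : x ∈ R) (hpR : p ∈ R) (hqR : q ∈ R)
    (hxR' : x ∈ R') (hpR' : p ∈ R') (hqR' : q ∈ R') (h1 : l ⬝ᵥ q < l ⬝ᵥ x) (h2 : l ⬝ᵥ x < l ⬝ᵥ p) :
    R ⊆ R' := by
  intro y hy
  have hyX := hRX hy
  have e1 := (h.2.2 x hxX).2 hxR
  have e2 := (h.2.2 p hpX).2 hpR
  have e3 := (h.2.2 q hqX).2 hqR
  have e4 := (h.2.2 y hyX).2 hy
  have e1' := (h'.2.2 x hxX).2 hxR'
  have e2' := (h'.2.2 p hpX).2 hpR'
  have e3' := (h'.2.2 q hqX).2 hqR'
  obtain ⟨A, hA, hsum⟩ := dep3 h.1 (a := y - x) (b := p - x) (c := q - x)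
    (by rw [dotProduct_sub, e4, e1, sub_self]) (by rw [dotProduct_sub, e2, e1, sub_self])
    (by rw [dotProduct_sub, e3, e1, sub_self])
  have hdot : A 0 * (n' ⬝ᵥ (y - x)) = 0 := by
    have := congrArg (fun v => n' ⬝ᵥ v) hsum
    simp only [dotProduct_add, dotProduct_smul, smul_eq_mul, dotProduct_zero] at this
    have e5 : n' ⬝ᵥ (p - x) = 0 := by rw [dotProduct_sub, e2', e1', sub_self]
    have e6 : n' ⬝ᵥ (q - x) = 0 := by rw [dotProduct_sub, e3', e1', sub_self]
    rw [e5, e6] at this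
    linarith
  by_cases hA0 : A 0 = 0
  · exfalso
    rw [hA0, zero_smul, zero_add] at hsum
    have hdot2 := congrArg (fun v => l ⬝ᵥ v) hsum
    simp only [dotProduct_add, dotProduct_smul, smul_eq_mul, dotProduct_zero, dotProduct_sub]
      at hdot2
    set β := l ⬝ᵥ p - l ⬝ᵥ x with hβ
    set γ := l ⬝ᵥ x - l ⬝ᵥ q with hγ
    have hβ0 : 0 < β := by rw [hβ]; linarith
    have hγ0 : 0 < γ := by rw [hγ]; linarith
    have hrel : A 1 * β = A 2 * γ := by
      rw [hβ, hγ]
      linarith
    have hA1 : A 1 ≠ 0 := by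
      intro h10
      rw [h10, zero_mul] at hrel
      have h20 : A 2 = 0 := by
        rcases mul_eq_zero.1 hrel.symm with h | h
        · exact h
        · exact absurd h hγ0.ne'
      apply hA
      funext i
      fin_cases i <;> simp [hA0, h10, h20]
    have hvec : γ • (p - x) + β • (q - x) = 0 := by
      have h3 : A 1 • (γ • (p - x) + β • (q - x)) = 0 := by
        have h4 : A 1 • (p - x) = - (A 2 • (q - x)) := eq_neg_of_add_eq_zero_left hsum
        rw [smul_add, smul_comm, h4, smul_neg, smul_comm (A 1) β, smul_smul, smul_smul,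
          mul_comm γ, mul_comm β, ← hrel, neg_add_eq_zero, mul_comm]
      exact (smul_eq_zero.1 h3).resolve_left hA1
    have hpx : p ≠ x := fun e => by rw [e] at h2; exact lt_irrefl _ h2
    have hqx : q ≠ x := fun e => by rw [e] at h1; exact lt_irrefl _ h1
    have hsumpos : 0 < γ + β := by linarith
    have hx : x = (γ / (γ + β)) • p + (β / (γ + β)) • q := by
      have h3 : (γ + β) • x = γ • p + β • q := by
        have h4 : γ • p + β • q - (γ + β) • x = 0 := by
          rw [← hvec, smul_sub, smul_sub, add_smul]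
          abel
        exact (sub_eq_zero.1 h4).symm
      rw [div_eq_inv_mul, div_eq_inv_mul, mul_smul, mul_smul, ← smul_add, ← h3, smul_smul,
        inv_mul_cancel₀ hsumpos.ne', one_smul]
    have hmem := comb_mem hpX hqX hpx hqx (s := γ / (γ + β)) (t := β / (γ + β))
      (div_nonneg hγ0.le hsumpos.le) (div_nonneg hβ0.le hsumpos.le) (by field_simp)
    rw [← hx] at hmem
    exact hc x hxX hmem
  · have h3 : n' ⬝ᵥ (y - x) = 0 := (mul_eq_zero.1 hdot).resolve_left hA0
    rw [dotProduct_sub, e1', sub_eq_zero] at h3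
    exact (h'.2.2 y hyX).1 h3

/-- The three point lemma: all weights of one sign. -/
lemma conv_case {H : Set E3} (hH : Convex ℝ H) {x : E3} {w : Fin 3 → E3} (hw : ∀ k, w k ∈ H)
    {A : Fin 3 → ℝ} (hA0 : ∀ k, 0 ≤ A k) (hAne : A ≠ 0)
    (hsum : A 0 • (w 0 - x) + A 1 • (w 1 - x) + A 2 • (w 2 - x) = 0) : x ∈ H := by
  have hS : 0 < ∑ k, A k := by
    apply Finset.sum_pos'
    · exact fun k _ => hA0 k
    · by_contra hcon
      push Not at hcon
      apply hAne
      funext k
      exact le_antisymm (hcon k (Finset.mem_univ k)) (hA0 k)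
  set S := ∑ k, A k with hSdef
  have hx : x = ∑ k, (A k / S) • w k := by
    have h1 : S • x = ∑ k, A k • w k := by
      have h2 : A 0 + A 1 + A 2 = S := by
        rw [hSdef, Fin.sum_univ_three]
      rw [Fin.sum_univ_three, ← h2, add_smul, add_smul]
      simp only [smul_sub] at hsum
      have h3 : A 0 • w 0 + A 1 • w 1 + A 2 • w 2 - (A 0 • x + A 1 • x + A 2 • x) = 0 := by
        rw [← hsum]
        abel
      exact (sub_eq_zero.1 h3).symm
    have h2 : ∑ k, (A k / S) • w k = S⁻¹ • ∑ k, A k • w k := by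
      rw [Finset.smul_sum]
      apply Finset.sum_congr rfl
      intro k _
      rw [smul_smul, div_eq_inv_mul]
    rw [h2, ← h1, smul_smul, inv_mul_cancel₀ hS.ne', one_smul]
  rw [hx]
  apply hH.sum_mem
  · exact fun k _ => div_nonneg (hA0 k) hS.le
  · rw [← Finset.sum_div, div_self hS.ne']
  · exact fun k _ => hw k

/-- The three point lemma: one weight of its own sign. -/
lemma mixed_case {v : Fin 3 → E3} {n : E3} {B : Fin 3 → ℝ} {j i : Fin 3}
    (hB : ∀ k, k ≠ j → B k ≤ 0) (hij : i ≠ j) (hBi : B i < 0)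
    (hsum : B 0 • v 0 + B 1 • v 1 + B 2 • v 2 = 0) (hnj : n ⬝ᵥ v j = 0)
    (hn : ∀ k, n ⬝ᵥ v k ≤ 0) : n ⬝ᵥ v i = 0 := by
  have h0 : ∑ k, B k * (n ⬝ᵥ v k) = 0 := by
    rw [Fin.sum_univ_three]
    have := congrArg (fun u => n ⬝ᵥ u) hsum
    simpa only [dotProduct_add, dotProduct_smul, smul_eq_mul, dotProduct_zero] using this
  have hnn : ∀ k ∈ (Finset.univ : Finset (Fin 3)), 0 ≤ B k * (n ⬝ᵥ v k) := by
    intro k _
    by_cases hk : k = j
    · subst hk
      rw [hnj, mul_zero]
    · exact mul_nonneg_of_nonpos_of_nonpos (hB k hk) (hn k)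
  have h1 := (Finset.sum_eq_zero_iff_of_nonneg hnn).1 h0 i (Finset.mem_univ i)
  exact (mul_eq_zero.1 h1).resolve_left hBi.ne

/-- A point of `X` is a side point of at most two facets. -/
lemma no_three (hc : ConvexPos X) {l : E3}
    {x : E3} (hxX : x ∈ X) (R : Fin 3 → Finset E3) (hR : ∀ k, R k ∈ facets X)
    (hinj : ∀ i j, i ≠ j → R i ≠ R j) (hS : ∀ k, x ∈ R k ∧ Side l (R k) x) : False := by
  have hF : ∀ k, R k ⊆ X ∧ ∃ n d, FacetNormal X (R k) n d := by
    intro k
    have := mem_facets.1 (hR k)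
    exact ⟨this.1, this.2.2⟩
  choose hRX n d hN using hF
  have hSS : ∀ k, ∃ p ∈ R k, ∃ q ∈ R k, l ⬝ᵥ q < l ⬝ᵥ x ∧ l ⬝ᵥ x < l ⬝ᵥ p := fun k => (hS k).2
  choose p hp q hq hql hpl using hSS
  have hpX : ∀ k, p k ∈ X := fun k => hRX k (hp k)
  have hqX : ∀ k, q k ∈ X := fun k => hRX k (hq k)
  have hpx : ∀ k, p k ≠ x := fun k e => by
    have := hpl k
    rw [e] at this
    exact lt_irrefl _ this
  have hqx : ∀ k, q k ≠ x := fun k e => by
    have := hql k
    rw [e] at this
    exact lt_irrefl _ this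
  let lam : Fin 3 → ℝ := fun k => (l ⬝ᵥ x - l ⬝ᵥ q k) / (l ⬝ᵥ p k - l ⬝ᵥ q k)
  have hden : ∀ k, 0 < l ⬝ᵥ p k - l ⬝ᵥ q k := fun k => by
    have h1 := hql k
    have h2 := hpl k
    linarith
  have hlam0 : ∀ k, 0 < lam k := fun k => div_pos (by have := hql k; linarith) (hden k)
  have hlam1 : ∀ k, lam k < 1 := fun k => by
    apply (div_lt_one (hden k)).2
    have := hpl k
    linarith
  let w : Fin 3 → E3 := fun k => lam k • p k + (1 - lam k) • q k
  let v : Fin 3 → E3 := fun k => w k - x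
  have hwH : ∀ k, w k ∈ convexHull ℝ ((X : Set E3) \ {x}) := fun k =>
    comb_mem (hpX k) (hqX k) (hpx k) (hqx k) (hlam0 k).le (by linarith [hlam1 k]) (by ring)
  have hlv : ∀ k, l ⬝ᵥ v k = 0 := by
    intro k
    simp only [v, w, dotProduct_sub, dot_comb]
    have h1 : lam k * (l ⬝ᵥ p k - l ⬝ᵥ q k) = l ⬝ᵥ x - l ⬝ᵥ q k :=
      div_mul_cancel₀ _ (hden k).ne'
    linarith
  have hl0 : l ≠ 0 := by
    intro h0
    have := hpl 0
    rw [h0] at this
    simp at this
  have hx_eq : ∀ j, n j ⬝ᵥ x = d j := fun j => ((hN j).2.2 x hxX).2 (hS j).1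
  have hnv : ∀ j k, n j ⬝ᵥ v k ≤ 0 := by
    intro j k
    simp only [v, w, dotProduct_sub, dot_comb, hx_eq]
    have h1 := (hN j).2.1 _ (hpX k)
    have h2 := (hN j).2.1 _ (hqX k)
    have h3 := hlam0 k
    have h4 := hlam1 k
    nlinarith
  have hnvj : ∀ j, n j ⬝ᵥ v j = 0 := by
    intro j
    simp only [v, w, dotProduct_sub, dot_comb, hx_eq]
    rw [((hN j).2.2 _ (hpX j)).2 (hp j), ((hN j).2.2 _ (hqX j)).2 (hq j)]
    ring
  obtain ⟨A, hA, hsum⟩ := dep3 hl0 (hlv 0) (hlv 1) (hlv 2)
  -- the facets `i ≠ j` when `n j ⬝ᵥ v i = 0`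
  have hclose : ∀ i j, i ≠ j → n j ⬝ᵥ v i = 0 → False := by
    intro i j hij hzero
    simp only [v, w, dotProduct_sub, dot_comb, hx_eq] at hzero
    have h1 := (hN j).2.1 _ (hpX i)
    have h2 := (hN j).2.1 _ (hqX i)
    have h3 := hlam0 i
    have h4 := hlam1 i
    have hp1 : n j ⬝ᵥ p i = d j := by
      by_contra hne
      have hlt : n j ⬝ᵥ p i < d j := lt_of_le_of_ne h1 hne
      nlinarith
    have hq1 : n j ⬝ᵥ q i = d j := by
      by_contra hne
      have hlt : n j ⬝ᵥ q i < d j := lt_of_le_of_ne h2 hne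
      nlinarith
    have hpj := ((hN j).2.2 _ (hpX i)).1 hp1
    have hqj := ((hN j).2.2 _ (hqX i)).1 hq1
    apply hinj i j hij
    apply Finset.Subset.antisymm
    · exact facet_sub hc (hRX i) (hN i) (hN j) hxX (hpX i) (hqX i) (hS i).1 (hp i) (hq i) (hS j).1
        hpj hqj (hql i) (hpl i)
    · exact facet_sub hc (hRX j) (hN j) (hN i) hxX (hpX i) (hqX i) (hS j).1 hpj hqj (hS i).1 (hp i)
        (hq i) (hql i) (hpl i)
  have hfin : ∀ i t i' : Fin 3, i ≠ t → t ≠ i' → i ≠ i' → ∀ k, k = i ∨ k = t ∨ k = i' := by decide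
  by_cases h1 : ∀ k, 0 ≤ A k
  · exact hc x hxX (conv_case (convex_convexHull ℝ _) hwH h1 hA hsum)
  by_cases h2 : ∀ k, A k ≤ 0
  · apply hc x hxX
    refine conv_case (convex_convexHull ℝ _) hwH (A := fun k => - A k) (fun k => ?_) ?_ ?_
    · have := h2 k
      show 0 ≤ - A k
      linarith
    · intro h0
      apply hA
      funext k
      have := congrFun h0 k
      simpa using this
    · simp only [neg_smul]
      have h3 : - (A 0 • (w 0 - x)) + - (A 1 • (w 1 - x)) + - (A 2 • (w 2 - x)) =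
          - (A 0 • (w 0 - x) + A 1 • (w 1 - x) + A 2 • (w 2 - x)) := by abel
      rw [h3]
      simp only [v] at hsum
      rw [hsum, neg_zero]
  push Not at h1 h2
  obtain ⟨i, hi⟩ := h1
  obtain ⟨i', hi'⟩ := h2
  have hii' : i ≠ i' := fun e => by
    rw [e] at hi
    linarith
  by_cases h3 : ∀ k, k ≠ i → 0 ≤ A k
  · -- `i` is the only negative index
    have := mixed_case (v := v) (n := n i) (B := fun k => - A k) (j := i) (i := i')
      (fun k hk => by have := h3 k hk; show - A k ≤ 0; linarith) hii'.symm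
      (by show - A i' < 0; linarith)
      (by
        simp only [neg_smul]
        have h3 : - (A 0 • v 0) + - (A 1 • v 1) + - (A 2 • v 2) =
            - (A 0 • v 0 + A 1 • v 1 + A 2 • v 2) := by abel
        rw [h3, hsum, neg_zero]) (hnvj i) (hnv i)
    exact hclose i' i hii'.symm this
  · push Not at h3
    obtain ⟨t, hti, ht⟩ := h3
    have hti' : t ≠ i' := fun e => by
      rw [e] at ht
      linarith
    have hall := hfin i t i' hti.symm hti' hii'
    have := mixed_case (v := v) (n := n i') (B := A) (j := i') (i := i)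
      (fun k hk => by
        rcases hall k with h | h | h
        · rw [h]
          exact hi.le
        · rw [h]
          exact ht.le
        · exact absurd h hk) hii' hi hsum (hnvj i') (hnv i')
    exact hclose i i' hii' this

/-- **Euler inequality.** `∑_R |R| + 4 ≤ 2 V + 2 f` (this is `2 E = 2 V + 2 f - 4`).

Paper proof without topology. Choose a linear functional `ℓ` separating all pairs of distinct points
of `X` (finite union of hyperplanes: `Subspace.biUnion_ne_univ_of_top_notMem` or similar).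
For each facet `R` (at least 3 points) let `top R`, `bot R` be its `ℓ`-maximal, `ℓ`-minimal vertices,
distinct. A side corner is a pair `(x, R)`, `x ∈ R`, `x ≠ top R`, `x ≠ bot R`. The number of side corners
is `∑_R (|R| - 2)`.
CLAIM: each `x ∈ X` has at most two side corners, and none if `x` is the `ℓ`-maximal or `ℓ`-minimal
point of `X`, which are two different points as `X` has at least 4 points. Then
`∑_R |R| - 2 f ≤ 2 (V - 2)`. -/
theorem euler_ineq (hc : ConvexPos X) (hs : Spans X) :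
    (∑ R ∈ facets X, R.card) + 4 ≤ 2 * X.card + 2 * (facets X).card := by
  obtain ⟨l, hl⟩ := exists_sep X
  -- at least two points
  have htwo : 1 < X.card := by
    by_contra hcon
    have hle : X.card ≤ 1 := by omega
    apply spans_iff_no_plane.1 hs
    rcases Finset.card_le_one_iff_subset_singleton.1 hle with ⟨x0, hx0⟩
    refine ⟨fun _ => 1, (fun _ => 1) ⬝ᵥ x0, ?_, ?_⟩
    · intro h0
      have := congrFun h0 0
      simp at this
    · intro x hx
      have := Finset.mem_singleton.1 (hx0 hx)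
      rw [this]
  have hne : X.Nonempty := Finset.card_pos.1 (by omega)
  obtain ⟨gM, hgM, hmax⟩ := Finset.exists_max_image X (fun x => l ⬝ᵥ x) hne
  obtain ⟨gm, hgm, hmin⟩ := Finset.exists_min_image X (fun x => l ⬝ᵥ x) hne
  have hgne : gM ≠ gm := by
    intro e
    obtain ⟨a, ha, b, hb, hab⟩ := Finset.one_lt_card.1 htwo
    have h1 := hmax a ha
    have h2 := hmin a ha
    have h3 := hmax b hb
    have h4 := hmin b hb
    rw [← e] at h2 h4
    have h5 : l ⬝ᵥ a = l ⬝ᵥ b := by
      have : l ⬝ᵥ a = l ⬝ᵥ gM := le_antisymm h1 h2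
      have : l ⬝ᵥ b = l ⬝ᵥ gM := le_antisymm h3 h4
      linarith
    exact hl a ha b hb hab h5
  let F := facets X
  let r : Finset E3 → E3 → Prop := fun R x => x ∈ R ∧ Side l R x
  -- the count over facets
  have h1 : ∑ R ∈ F, R.card ≤ ∑ R ∈ F, ((X.filter (r R)).card + 2) := by
    apply Finset.sum_le_sum
    intro R hR
    have hRX : R ⊆ X := (mem_facets.1 hR).1
    have h2 := card_le_side (l := l) (R := R)
      (fun x hx y hy hxy => hl x (hRX hx) y (hRX hy) hxy)
    have h3 : R.filter (Side l R) ⊆ X.filter (r R) := by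
      intro x hx
      obtain ⟨h4, h5⟩ := Finset.mem_filter.1 hx
      exact Finset.mem_filter.2 ⟨hRX h4, h4, h5⟩
    have h4 := Finset.card_le_card h3
    omega
  have h2 : ∑ R ∈ F, (X.filter (r R)).card = ∑ x ∈ X, (F.filter (fun R => r R x)).card :=
    Finset.sum_card_bipartiteAbove_eq_sum_card_bipartiteBelow r
  -- at most two per point, none for the extreme points
  have h3 : ∀ x ∈ X, (F.filter (fun R => r R x)).card ≤ 2 := by
    intro x hx
    by_contra hcon
    have h4 : 2 < (F.filter (fun R => r R x)).card := by omega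
    obtain ⟨a, ha, b, hb, c, hc', hab, hac, hbc⟩ := Finset.two_lt_card.1 h4
    obtain ⟨ha1, ha2⟩ := Finset.mem_filter.1 ha
    obtain ⟨hb1, hb2⟩ := Finset.mem_filter.1 hb
    obtain ⟨hc1, hc2⟩ := Finset.mem_filter.1 hc'
    refine no_three hc (l := l) hx ![a, b, c] ?_ ?_ ?_
    · intro k
      fin_cases k
      · exact ha1
      · exact hb1
      · exact hc1
    · intro i j hij
      fin_cases i <;> fin_cases j <;> first | exact absurd rfl hij | skip
      · exact hab
      · exact hac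
      · exact hab.symm
      · exact hbc
      · exact hac.symm
      · exact hbc.symm
    · intro k
      fin_cases k
      · exact ha2
      · exact hb2
      · exact hc2
  have h4 : (F.filter (fun R => r R gM)).card = 0 := by
    rw [Finset.card_eq_zero, Finset.filter_eq_empty_iff]
    rintro R hR ⟨_, p, hp, q, _, _, h6⟩
    have hRX : R ⊆ X := (mem_facets.1 hR).1
    have := hmax p (hRX hp)
    exact absurd h6 (not_lt.2 this)
  have h5 : (F.filter (fun R => r R gm)).card = 0 := by
    rw [Finset.card_eq_zero, Finset.filter_eq_empty_iff]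
    rintro R hR ⟨_, p, _, q, hq, h6, _⟩
    have hRX : R ⊆ X := (mem_facets.1 hR).1
    have := hmin q (hRX hq)
    exact absurd h6 (not_lt.2 this)
  have h6 : ∑ x ∈ X, (F.filter (fun R => r R x)).card ≤ 2 * (X.card - 2) := by
    have hX' : ((X.erase gM).erase gm).card = X.card - 2 := by
      rw [Finset.card_erase_of_mem (Finset.mem_erase.2 ⟨hgne.symm, hgm⟩),
        Finset.card_erase_of_mem hgM]
      omega
    have hsub : ∑ x ∈ (X.erase gM).erase gm, (F.filter (fun R => r R x)).card =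
        ∑ x ∈ X, (F.filter (fun R => r R x)).card := by
      apply Finset.sum_subset
      · exact fun x hx => Finset.mem_of_mem_erase (Finset.mem_of_mem_erase hx)
      · intro x _ hx
        by_cases h7 : x = gm
        · rw [h7]
          exact h5
        · by_cases h8 : x = gM
          · rw [h8]
            exact h4
          · exact absurd (Finset.mem_erase.2 ⟨h7, Finset.mem_erase.2 ⟨h8, ‹x ∈ X›⟩⟩) hx
    rw [← hsub, ← hX', mul_comm]
    apply Finset.sum_le_card_nsmul
    intro x hx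
    exact h3 x (Finset.mem_of_mem_erase (Finset.mem_of_mem_erase hx))
  have h7 : ∑ R ∈ F, ((X.filter (r R)).card + 2) = ∑ R ∈ F, (X.filter (r R)).card + 2 * F.card := by
    rw [Finset.sum_add_distrib, Finset.sum_const, smul_eq_mul, mul_comm]
  have h8 : ∑ R ∈ F, R.card = ∑ R ∈ facets X, R.card := rfl
  have h9 : F.card = (facets X).card := rfl
  omega

end Vale.Agent.Lib.P248G
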