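import Vale.Agent.Lib.P248G.Defs

/-!
# P248, JOB A1: half polars.

For a finite family of base vectors `c i` and heights `a i`, the half polar is
`{y | 0 < y 0 ∧ ∀ i, y 0 * a i + base y ⬝ᵥ c i ≤ 1}`. Its volume `hp c a` is computed by slicing at
height `s = y 0`: the slice is `slice c a s = {w | ∀ i, s * a i + w ⬝ᵥ c i ≤ 1}`.
-/

open MeasureTheory Set Matrix
open scoped ENNReal

noncomputable section

namespace Vale.Agent.Lib.P248G

variable {ι : Type} [Fintype ι]

/-- The half polar. -/
def halfPolar (c : ι → E2) (a : ι → ℝ) : Set E3 :=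
  {y | 0 < y 0 ∧ ∀ i, y 0 * a i + base y ⬝ᵥ c i ≤ 1}

/-- The slice of a half polar at height `s`. -/
def slice (c : ι → E2) (a : ι → ℝ) (s : ℝ) : Set E2 := {w | ∀ i, s * a i + w ⬝ᵥ c i ≤ 1}

/-- The volume of the half polar. -/
def hp (c : ι → E2) (a : ι → ℝ) : ℝ≥0∞ := volume (halfPolar c a)

/-- The origin is an interior point of the hull of the base vectors. -/
def OriginIn (c : ι → E2) : Prop := (0 : E2) ∈ interior (convexHull ℝ (range c))

/-- A convex combination of the `c i` vanishes while the same combination of the `a i` is positive.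
This says that a point of the polytope lies strictly above the base point. -/
def TopPos (c : ι → E2) (a : ι → ℝ) : Prop :=
  ∃ l : ι → ℝ, (∀ i, 0 ≤ l i) ∧ ∑ i, l i = 1 ∧ ∑ i, l i • c i = 0 ∧ 0 < ∑ i, l i * a i

lemma continuous_base_dot (v : E2) : Continuous fun y : E3 => base y ⬝ᵥ v := by
  unfold base dotProduct Fin.tail
  fun_prop

lemma continuous_dot_right (v : E2) : Continuous fun w : E2 => w ⬝ᵥ v := by
  unfold dotProduct
  fun_prop

lemma measurableSet_halfPolar (c : ι → E2) (a : ι → ℝ) : MeasurableSet (halfPolar c a) := by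
  have h1 : MeasurableSet {y : E3 | 0 < y 0} :=
    (isOpen_lt continuous_const (continuous_apply (0 : Fin 3))).measurableSet
  have h2 : MeasurableSet {y : E3 | ∀ i, y 0 * a i + base y ⬝ᵥ c i ≤ 1} := by
    rw [setOf_forall]
    refine MeasurableSet.iInter fun i => ?_
    exact (isClosed_le (((continuous_apply (0 : Fin 3)).mul continuous_const).add
      (continuous_base_dot (c i))) continuous_const).measurableSet
  exact h1.inter h2

lemma measurableSet_slice (c : ι → E2) (a : ι → ℝ) (s : ℝ) : MeasurableSet (slice c a s) := by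
  have : slice c a s = ⋂ i, {w : E2 | s * a i + w ⬝ᵥ c i ≤ 1} := by
    ext w
    simp [slice]
  rw [this]
  refine MeasurableSet.iInter fun i => ?_
  exact (isClosed_le (continuous_const.add (continuous_dot_right (c i)))
    continuous_const).measurableSet

/-- Fubini: use `volume_preserving_piFinSuccAbove (fun _ => ℝ) 0` as in
`Vale.Agent.Lib.P227.prekopa_leindler`; `Fin.insertNth 0 s w = mk s w`. -/
lemma hp_eq_lintegral (c : ι → E2) (a : ι → ℝ) :
    hp c a = ∫⁻ s in Ioi (0 : ℝ), volume (slice c a s) := by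
  have mp := volume_preserving_piFinSuccAbove (fun _ : Fin 3 => ℝ) 0
  have mps := mp.symm
  have red : ∀ {p : E3 → ℝ≥0∞}, Measurable p →
      ∫⁻ x, p x = ∫⁻ s : ℝ, ∫⁻ x : Fin 2 → ℝ, p (Fin.insertNth 0 s x) := by
    intro p hp
    have h1 := mps.lintegral_comp hp
    rw [← h1, Measure.volume_eq_prod, lintegral_prod]
    · rfl
    · exact (hp.comp mps.measurable).aemeasurable
  have hm := measurableSet_halfPolar c a
  have h1 : hp c a = ∫⁻ x, (halfPolar c a).indicator 1 x := by
    rw [lintegral_indicator_one hm]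
    rfl
  rw [h1, red (measurable_one.indicator hm), ← lintegral_indicator measurableSet_Ioi]
  refine lintegral_congr fun s => ?_
  by_cases hs : 0 < s
  · rw [indicator_of_mem (show s ∈ Ioi (0 : ℝ) from hs)]
    have h2 : ∀ w : E2, (halfPolar c a).indicator (1 : E3 → ℝ≥0∞) (Fin.insertNth 0 s w)
        = (slice c a s).indicator 1 w := by
      intro w
      have hmem : (Fin.insertNth 0 s w : E3) ∈ halfPolar c a ↔ w ∈ slice c a s := by
        have e : (Fin.insertNth 0 s w : E3) = mk s w := Fin.insertNth_zero' s w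
        rw [e]
        simp [halfPolar, slice, hs]
      by_cases hw : w ∈ slice c a s
      · rw [indicator_of_mem (hmem.2 hw), indicator_of_mem hw]
        rfl
      · rw [indicator_of_notMem (fun h => hw (hmem.1 h)), indicator_of_notMem hw]
    simp_rw [h2]
    rw [lintegral_indicator_one (measurableSet_slice c a s)]
  · rw [indicator_of_notMem (show s ∉ Ioi (0 : ℝ) from hs)]
    have h2 : ∀ w : E2, (halfPolar c a).indicator (1 : E3 → ℝ≥0∞) (Fin.insertNth 0 s w) = 0 := by
      intro w
      refine indicator_of_notMem ?_ _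
      have e : (Fin.insertNth 0 s w : E3) = mk s w := Fin.insertNth_zero' s w
      rw [e]
      simp only [halfPolar, mem_setOf_eq, mk_zero, not_and]
      exact fun h => absurd h hs
    simp_rw [h2]
    simp

/-- Boundedness of slices: a ball `B(0, ρ)` lies in the hull of the `c i`, so for `w ≠ 0` some
`w ⬝ᵥ c i ≥ ρ' ‖w‖` (take the convex combination equal to a small multiple of a vector aligned
with `w`, for instance coordinatewise sign vector); hence `‖w‖` is bounded in terms of
`1 - min_i s * a i`. The bound is uniform for `s` in bounded sets. -/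
lemma slice_bounded {c : ι → E2} (hc : OriginIn c) (a : ι → ℝ) {M : ℝ} :
    ∃ R : ℝ, ∀ s, |s| ≤ M → slice c a s ⊆ Metric.closedBall (0 : E2) R := by
  obtain ⟨ρ, hρ, hball⟩ := Metric.mem_nhds_iff.1 (mem_interior_iff_mem_nhds.1 hc)
  set A : ℝ := ∑ i, |a i| with hA
  have hA0 : 0 ≤ A := Finset.sum_nonneg fun i _ => abs_nonneg _
  set B : ℝ := 1 + |M| * A with hB
  refine ⟨2 * B / ρ, fun s hs w hw => ?_⟩
  have hBi : ∀ i, c i ⬝ᵥ w ≤ B := by
    intro i
    have h1 := hw i
    have h2 : |a i| ≤ A := Finset.single_le_sum (f := fun i => |a i|)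
      (fun i _ => abs_nonneg _) (Finset.mem_univ i)
    have h3 : -(s * a i) ≤ |M| * A := by
      calc -(s * a i) ≤ |s * a i| := neg_le_abs _
        _ = |s| * |a i| := abs_mul _ _
        _ ≤ |M| * A := mul_le_mul (hs.trans (le_abs_self M)) h2 (abs_nonneg _) (abs_nonneg _)
    rw [dotProduct_comm]
    rw [hB]
    linarith
  have hH : convexHull ℝ (range c) ⊆ {x : E2 | x ⬝ᵥ w ≤ B} := by
    refine convexHull_min ?_ ?_
    · rintro _ ⟨i, rfl⟩
      exact hBi i
    · have : {x : E2 | x ⬝ᵥ w ≤ B} = (fun x : E2 => ∑ j, w j * x j) ⁻¹' Iic B := by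
        ext x
        simp [dotProduct, mul_comm]
      rw [this]
      refine (convex_Iic B).is_linear_preimage ?_
      constructor
      · intro x y
        simp [mul_add, Finset.sum_add_distrib]
      · intro r x
        simp only [Pi.smul_apply, smul_eq_mul, Finset.mul_sum]
        exact Finset.sum_congr rfl fun j _ => by ring
  set v : E2 := fun j => (ρ / 2) * SignType.sign (w j) with hv
  have hvnorm : v ∈ Metric.ball (0 : E2) ρ := by
    rw [mem_ball_zero_iff]
    refine lt_of_le_of_lt ((pi_norm_le_iff_of_nonneg (by positivity : 0 ≤ ρ / 2)).2 fun j => ?_)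
      (by linarith : ρ / 2 < ρ)
    simp only [hv, Real.norm_eq_abs, abs_mul]
    have h1 : |((SignType.sign (w j) : SignType) : ℝ)| ≤ 1 := by
      rcases lt_trichotomy (w j) 0 with h | h | h
      · simp [sign_neg h]
      · simp [h]
      · simp [sign_pos h]
    rw [abs_of_pos (by positivity : 0 < ρ / 2)]
    nlinarith
  have hvw : v ⬝ᵥ w ≤ B := hH (hball hvnorm)
  have hsum : v ⬝ᵥ w = (ρ / 2) * ∑ j, |w j| := by
    simp only [dotProduct, hv, Finset.mul_sum]
    refine Finset.sum_congr rfl fun j _ => ?_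
    rw [mul_assoc]
    congr 1
    rcases lt_trichotomy (w j) 0 with h | h | h
    · simp [sign_neg h, abs_of_neg h]
    · simp [h]
    · simp [sign_pos h, abs_of_pos h]
  have hnorm : ‖w‖ ≤ ∑ j, |w j| := by
    refine (pi_norm_le_iff_of_nonneg (Finset.sum_nonneg fun j _ => abs_nonneg _)).2 fun j => ?_
    rw [Real.norm_eq_abs]
    exact Finset.single_le_sum (f := fun j => |w j|) (fun j _ => abs_nonneg _) (Finset.mem_univ j)
  rw [mem_closedBall_zero_iff, le_div_iff₀ hρ]
  nlinarith [hvw, hsum, hnorm]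

/-- The half polar is not null: it contains a small box around a point with small positive `y 0`.
(`ι` finite: for `y` small all constraints hold.) -/
lemma hp_pos (c : ι → E2) (a : ι → ℝ) : 0 < hp c a := by
  set A : ℝ := ∑ i, |a i| with hA
  have hA0 : 0 ≤ A := Finset.sum_nonneg fun i _ => abs_nonneg _
  set ε : ℝ := 1 / (2 * (1 + A)) with hε
  have hε0 : 0 < ε := by positivity
  set U : Set E3 := {y | 0 < y 0 ∧ ∀ i, y 0 * a i + base y ⬝ᵥ c i < 1} with hU
  have hUo : IsOpen U := by
    have h1 : IsOpen {y : E3 | 0 < y 0} := isOpen_lt continuous_const (continuous_apply (0 : Fin 3))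
    have h2 : IsOpen {y : E3 | ∀ i, y 0 * a i + base y ⬝ᵥ c i < 1} := by
      rw [setOf_forall]
      refine isOpen_iInter_of_finite fun i => ?_
      exact isOpen_lt (((continuous_apply (0 : Fin 3)).mul continuous_const).add
        (continuous_base_dot (c i))) continuous_const
    exact h1.inter h2
  have hUne : U.Nonempty := by
    refine ⟨mk ε 0, by simpa using hε0, fun i => ?_⟩
    have h2 : |a i| ≤ A := Finset.single_le_sum (f := fun i => |a i|)
      (fun i _ => abs_nonneg _) (Finset.mem_univ i)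
    simp only [mk_zero, base_mk, zero_dotProduct, add_zero]
    have h3 : ε * a i ≤ ε * A := by
      gcongr
      exact (le_abs_self _).trans h2
    have h4 : ε * A < 1 := by
      rw [hε]
      rw [div_mul_eq_mul_div, one_mul, div_lt_one (by positivity)]
      linarith
    linarith
  have hsub : U ⊆ halfPolar c a := fun y hy => ⟨hy.1, fun i => (hy.2 i).le⟩
  exact lt_of_lt_of_le (hUo.measure_pos volume hUne) (measure_mono hsub)

/-- Finiteness. With `l` from `TopPos`: summing the constraints with weights `l i` gives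
`y 0 * ∑ l i a i ≤ 1`, so `y 0` is bounded; then `slice_bounded` bounds `base y`. -/
lemma hp_lt_top {c : ι → E2} (hc : OriginIn c) {a : ι → ℝ} (ha : TopPos c a) : hp c a < ⊤ := by
  obtain ⟨l, hl0, hl1, hlc, hla⟩ := ha
  set α : ℝ := ∑ i, l i * a i with hα
  obtain ⟨R, hR⟩ := slice_bounded (M := 1 / α) hc a
  have hsub : halfPolar c a ⊆ Metric.closedBall (0 : E3) (max (1 / α) R) := by
    intro y hy
    have hy0 : 0 < y 0 := hy.1
    have hsum : y 0 * α ≤ 1 := by
      have h1 : ∑ i, l i * (y 0 * a i + base y ⬝ᵥ c i) ≤ ∑ i, l i * 1 :=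
        Finset.sum_le_sum fun i _ => mul_le_mul_of_nonneg_left (hy.2 i) (hl0 i)
      have h2 : ∑ i, l i * (base y ⬝ᵥ c i) = 0 := by
        have h3 : base y ⬝ᵥ (∑ i, l i • c i) = ∑ i, l i * (base y ⬝ᵥ c i) := by
          rw [dotProduct_sum]
          refine Finset.sum_congr rfl fun i _ => ?_
          rw [dotProduct_smul, smul_eq_mul]
        rw [← h3, hlc, dotProduct_zero]
      have h4 : ∑ i, l i * (y 0 * a i + base y ⬝ᵥ c i)
          = y 0 * α + ∑ i, l i * (base y ⬝ᵥ c i) := by
        rw [hα, Finset.mul_sum, ← Finset.sum_add_distrib]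
        refine Finset.sum_congr rfl fun i _ => ?_
        ring
      rw [h4, h2] at h1
      simpa [hl1] using h1
    have hy1 : y 0 ≤ 1 / α := by
      rw [le_div_iff₀ hla]
      exact hsum
    have hbase : base y ∈ slice c a (y 0) := fun i => hy.2 i
    have hb2 := hR (y 0) (by rw [abs_of_pos hy0]; exact hy1) hbase
    rw [mem_closedBall_zero_iff] at hb2 ⊢
    refine (pi_norm_le_iff_of_nonneg (le_max_of_le_left (by positivity))).2 fun j => ?_
    refine Fin.cases ?_ (fun j => ?_) j
    · rw [Real.norm_eq_abs, abs_of_pos hy0]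
      exact le_max_of_le_left hy1
    · have := (pi_norm_le_iff_of_nonneg ((norm_nonneg _).trans hb2)).1 hb2 j
      exact le_max_of_le_right (by simpa [base, Fin.tail] using this)
  calc hp c a ≤ volume (Metric.closedBall (0 : E3) (max (1 / α) R)) := measure_mono hsub
    _ < ⊤ := measure_closedBall_lt_top

/-- Monotonicity: larger `a` means a smaller half polar (`y 0 > 0`). -/
lemma hp_anti (c : ι → E2) {a a' : ι → ℝ} (h : ∀ i, a i ≤ a' i) : hp c a' ≤ hp c a := by
  refine measure_mono fun y hy => ⟨hy.1, fun i => ?_⟩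
  have h1 := hy.2 i
  have h2 : y 0 * a i ≤ y 0 * a' i := mul_le_mul_of_nonneg_left (h i) hy.1.le
  linarith

/-- The constant in the blow-up estimate is positive. -/
lemma kappa_pos (c : ι → E2) : 0 < volume {w : E2 | ∀ i, w ⬝ᵥ c i ≤ 1 / 2} := by
  set U : Set E2 := {w | ∀ i, w ⬝ᵥ c i < 1 / 2} with hU
  have hUo : IsOpen U := by
    rw [hU, setOf_forall]
    exact isOpen_iInter_of_finite fun i => isOpen_lt (continuous_dot_right (c i)) continuous_const
  have hUne : U.Nonempty := ⟨0, fun i => by simp⟩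
  have hsub : U ⊆ {w : E2 | ∀ i, w ⬝ᵥ c i ≤ 1 / 2} := fun w hw i => (hw i).le
  exact lt_of_lt_of_le (hUo.measure_pos volume hUne) (measure_mono hsub)

/-- Blow-up estimate. If `a i + w₀ ⬝ᵥ c i ≤ δ` for all `i` (a supporting plane close above), then
for `0 < s ≤ 1 / (2 δ)` the slice at `s` contains the translate by `s • w₀` of
`{w | ∀ i, w ⬝ᵥ c i ≤ 1 / 2}`: indeed `s * a i + (s • w₀ + w) ⬝ᵥ c i ≤ s * δ + 1 / 2 ≤ 1`. -/
lemma hp_blowup (c : ι → E2) (a : ι → ℝ) {δ : ℝ} (hδ : 0 < δ) (w₀ : E2)
    (h : ∀ i, a i + w₀ ⬝ᵥ c i ≤ δ) :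
    ENNReal.ofReal (1 / (2 * δ)) * volume {w : E2 | ∀ i, w ⬝ᵥ c i ≤ 1 / 2} ≤ hp c a := by
  set T : Set E2 := {w | ∀ i, w ⬝ᵥ c i ≤ 1 / 2} with hT
  have hpt : ∀ s ∈ Ioc (0 : ℝ) (1 / (2 * δ)), volume T ≤ volume (slice c a s) := by
    intro s hs
    have hsub : T ⊆ (fun w => w + s • w₀) ⁻¹' slice c a s := by
      intro w hw i
      have h1 := h i
      have h2 := hw i
      have h3 : (w + s • w₀) ⬝ᵥ c i = w ⬝ᵥ c i + s * (w₀ ⬝ᵥ c i) := by
        rw [add_dotProduct, smul_dotProduct, smul_eq_mul]
      have h4 : s * δ ≤ 1 / 2 := by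
        have := hs.2
        rw [le_div_iff₀ (by positivity)] at this
        linarith
      have h5 : s * (a i + w₀ ⬝ᵥ c i) ≤ s * δ := mul_le_mul_of_nonneg_left h1 hs.1.le
      simp only [mem_preimage]
      rw [h3]
      nlinarith
    calc volume T ≤ volume ((fun w => w + s • w₀) ⁻¹' slice c a s) := measure_mono hsub
      _ = volume (slice c a s) := measure_preimage_add_right volume (s • w₀) _
  rw [hp_eq_lintegral]
  calc ENNReal.ofReal (1 / (2 * δ)) * volume T
      = ∫⁻ _ in Ioc (0 : ℝ) (1 / (2 * δ)), volume T := by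
        rw [setLIntegral_const, Real.volume_Ioc, sub_zero, mul_comm]
    _ ≤ ∫⁻ s in Ioc (0 : ℝ) (1 / (2 * δ)), volume (slice c a s) :=
        setLIntegral_mono' measurableSet_Ioc hpt
    _ ≤ ∫⁻ s in Ioi (0 : ℝ), volume (slice c a s) :=
        lintegral_mono_set fun s hs => hs.1

end Vale.Agent.Lib.P248G
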