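import Vale.Agent.Lib.P248G.HP
import Vale.Agent.Lib.P227.Busemann

/-!
# P248, JOB A2: Busemann convexity for half polars.

This is the heart of the Campi-Gronchi / Meyer-Reisner convexity theorem.
Fix `c, a1, a2`. Put `E (s₁, s₂) = (volume {w : E2 | ∀ i, s₁ * a1 i + s₂ * a2 i + w ⬝ᵥ c i ≤ 1}).toReal`.
-/

open MeasureTheory Set Matrix
open scoped ENNReal

noncomputable section

namespace Vale.Agent.Lib.P248G

variable {ι : Type} [Fintype ι]

/-- The two parameter slice. -/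
def sl2 (c : ι → E2) (a1 a2 : ι → ℝ) (x : ℝ × ℝ) : Set E2 :=
  {w | ∀ i, x.1 * a1 i + x.2 * a2 i + w ⬝ᵥ c i ≤ 1}

/-- Its area. -/
def EE (c : ι → E2) (a1 a2 : ι → ℝ) (x : ℝ × ℝ) : ℝ := (volume (sl2 c a1 a2 x)).toReal

lemma continuous_dot2 (v : E2) : Continuous fun w : E2 => w ⬝ᵥ v := by
  unfold dotProduct
  fun_prop

lemma sl2_eq_slice (c : ι → E2) (a1 a2 : ι → ℝ) (w : ℝ × ℝ) (r : ℝ) :
    sl2 c a1 a2 (r • w) = slice c (fun i => w.1 * a1 i + w.2 * a2 i) r := by
  ext y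
  simp only [sl2, slice, Prod.smul_fst, Prod.smul_snd, smul_eq_mul, mem_setOf_eq]
  refine forall_congr' (fun i => ?_)
  have : r * w.1 * a1 i + r * w.2 * a2 i = r * (w.1 * a1 i + w.2 * a2 i) := by ring
  rw [this]

lemma sl2_eq_slice_one (c : ι → E2) (a1 a2 : ι → ℝ) (x : ℝ × ℝ) :
    sl2 c a1 a2 x = slice c (fun i => x.1 * a1 i + x.2 * a2 i) 1 := by
  have := sl2_eq_slice c a1 a2 x 1
  rwa [one_smul] at this

lemma measurable_sl2 (c : ι → E2) (a1 a2 : ι → ℝ) :
    Measurable fun x => volume (sl2 c a1 a2 x) := by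
  have hZ : MeasurableSet {p : (ℝ × ℝ) × E2 | ∀ i, p.1.1 * a1 i + p.1.2 * a2 i + p.2 ⬝ᵥ c i ≤ 1} := by
    have : {p : (ℝ × ℝ) × E2 | ∀ i, p.1.1 * a1 i + p.1.2 * a2 i + p.2 ⬝ᵥ c i ≤ 1} =
        ⋂ i, {p : (ℝ × ℝ) × E2 | p.1.1 * a1 i + p.1.2 * a2 i + p.2 ⬝ᵥ c i ≤ 1} := by
      ext p
      simp
    rw [this]
    refine MeasurableSet.iInter (fun i => ?_)
    refine (isClosed_le ?_ continuous_const).measurableSet
    have h1 : Continuous fun p : (ℝ × ℝ) × E2 => p.2 ⬝ᵥ c i :=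
      (continuous_dot2 (c i)).comp continuous_snd
    fun_prop
  exact measurable_measure_prodMk_left hZ

lemma measurable_EE (c : ι → E2) (a1 a2 : ι → ℝ) : Measurable (EE c a1 a2) :=
  (measurable_sl2 c a1 a2).ennreal_toReal

lemma EE_nonneg (c : ι → E2) (a1 a2 : ι → ℝ) (x : ℝ × ℝ) : 0 ≤ EE c a1 a2 x := ENNReal.toReal_nonneg

lemma sl2_ne_top {c : ι → E2} (hc : OriginIn c) (a1 a2 : ι → ℝ) (x : ℝ × ℝ) :
    volume (sl2 c a1 a2 x) ≠ ⊤ := by
  obtain ⟨R, hR⟩ := slice_bounded hc (fun i => x.1 * a1 i + x.2 * a2 i) (M := 1)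
  have h1 : sl2 c a1 a2 x ⊆ Metric.closedBall (0 : E2) R := by
    rw [sl2_eq_slice_one]
    exact hR 1 (by simp)
  exact ne_top_of_le_ne_top (measure_closedBall_lt_top).ne (measure_mono h1)

lemma measurableSet_sl2 (c : ι → E2) (a1 a2 : ι → ℝ) (x : ℝ × ℝ) :
    MeasurableSet (sl2 c a1 a2 x) := by
  rw [sl2_eq_slice_one]
  exact measurableSet_slice _ _ _

/-- Log-concavity of the area, by Prekopa-Leindler. -/
lemma EE_logc {c : ι → E2} (hc : OriginIn c) (a1 a2 : ι → ℝ) (x y : ℝ × ℝ) (μ : ℝ) (μ0 : 0 < μ)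
    (μ1 : μ < 1) :
    EE c a1 a2 x ^ (1 - μ) * EE c a1 a2 y ^ μ ≤ EE c a1 a2 ((1 - μ) • x + μ • y) := by
  have h1μ : 0 < 1 - μ := by linarith
  have key : volume (sl2 c a1 a2 x) ^ (1 - μ) * volume (sl2 c a1 a2 y) ^ μ ≤
      volume (sl2 c a1 a2 ((1 - μ) • x + μ • y)) := by
    have mx := measurableSet_sl2 c a1 a2 x
    have my := measurableSet_sl2 c a1 a2 y
    have mz := measurableSet_sl2 c a1 a2 ((1 - μ) • x + μ • y)
    rw [← lintegral_indicator_one mx, ← lintegral_indicator_one my, ← lintegral_indicator_one mz]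
    refine Vale.Agent.Lib.P227.prekopa_leindler 2 (measurable_one.indicator mx)
      (measurable_one.indicator my) (measurable_one.indicator mz) μ0 μ1 ?_
    intro w w'
    by_cases hw : w ∈ sl2 c a1 a2 x
    · by_cases hw' : w' ∈ sl2 c a1 a2 y
      · have hcomb : (1 - μ) • w + μ • w' ∈ sl2 c a1 a2 ((1 - μ) • x + μ • y) := by
          intro i
          have e1 := hw i
          have e2 := hw' i
          simp only [Prod.fst_add, Prod.smul_fst, Prod.snd_add, Prod.smul_snd, smul_eq_mul,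
            add_dotProduct, smul_dotProduct]
          have e3 := mul_le_mul_of_nonneg_left e1 h1μ.le
          have e4 := mul_le_mul_of_nonneg_left e2 μ0.le
          nlinarith
        simp [indicator, hw, hw', hcomb]
      · simp [indicator, hw', ENNReal.zero_rpow_of_pos μ0]
    · simp [indicator, hw, ENNReal.zero_rpow_of_pos h1μ]
  have hx := sl2_ne_top hc a1 a2 x
  have hy := sl2_ne_top hc a1 a2 y
  have hz := sl2_ne_top hc a1 a2 ((1 - μ) • x + μ • y)
  have h2 := ENNReal.toReal_mono hz key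
  rw [ENNReal.toReal_mul, ← ENNReal.toReal_rpow, ← ENNReal.toReal_rpow] at h2
  exact h2

/-- The radial integral is a half polar volume. -/
lemma radial_EE {c : ι → E2} (hc : OriginIn c) (a1 a2 : ι → ℝ) (w : ℝ × ℝ) :
    Vale.Agent.Lib.P227.radial (EE c a1 a2) w = hp c (fun i => w.1 * a1 i + w.2 * a2 i) := by
  rw [hp_eq_lintegral]
  unfold Vale.Agent.Lib.P227.radial
  refine lintegral_congr (fun r => ?_)
  rw [EE, ENNReal.ofReal_toReal (sl2_ne_top hc a1 a2 _), sl2_eq_slice]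

/-- The function `phi` of `busemann_radial` is bounded. -/
lemma bdd_phi {c : ι → E2} (hc : OriginIn c) (a1 a2 : ι → ℝ) (w : ℝ × ℝ)
    (h : TopPos c (fun i => w.1 * a1 i + w.2 * a2 i)) :
    BddAbove (range (Vale.Agent.Lib.P227.phi (EE c a1 a2) w)) := by
  obtain ⟨l, l0, l1, lc, lpos⟩ := h
  set κ : ℝ := ∑ i, l i * (w.1 * a1 i + w.2 * a2 i) with hκ
  obtain ⟨R, hR⟩ := slice_bounded hc (fun i => w.1 * a1 i + w.2 * a2 i) (M := 1 / κ)
  set V : ℝ := (volume (Metric.closedBall (0 : E2) R)).toReal with hV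
  have hV0 : 0 ≤ V := ENNReal.toReal_nonneg
  refine ⟨max 0 (V * (1 / κ) ^ 2), ?_⟩
  rintro _ ⟨u, rfl⟩
  unfold Vale.Agent.Lib.P227.phi
  split_ifs with hu
  · set s : ℝ := u⁻¹ with hs
    have hs0 : 0 < s := inv_pos.mpr hu
    have hset : sl2 c a1 a2 (s • w) = slice c (fun i => w.1 * a1 i + w.2 * a2 i) s :=
      sl2_eq_slice c a1 a2 w s
    by_cases hsκ : s ≤ 1 / κ
    · apply le_max_of_le_right
      have h1 : EE c a1 a2 (s • w) ≤ V := by
        unfold EE
        rw [hset]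
        apply ENNReal.toReal_mono (measure_closedBall_lt_top).ne
        apply measure_mono
        apply hR
        rw [abs_of_pos hs0]
        exact hsκ
      have h2 : s ^ 2 ≤ (1 / κ) ^ 2 := pow_le_pow_left₀ hs0.le hsκ 2
      exact mul_le_mul h1 h2 (by positivity) hV0
    · push Not at hsκ
      have hemp : slice c (fun i => w.1 * a1 i + w.2 * a2 i) s = ∅ := by
        ext y
        simp only [mem_empty_iff_false, iff_false]
        intro hy
        have h1 : ∑ i, l i * (s * (w.1 * a1 i + w.2 * a2 i) + y ⬝ᵥ c i) ≤ ∑ i, l i * 1 :=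
          Finset.sum_le_sum (fun i _ => mul_le_mul_of_nonneg_left (hy i) (l0 i))
        have h2 : ∑ i, l i * (y ⬝ᵥ c i) = y ⬝ᵥ (∑ i, l i • c i) := by
          rw [dotProduct_sum]
          refine Finset.sum_congr rfl (fun i _ => ?_)
          rw [dotProduct_smul, smul_eq_mul]
        rw [lc, dotProduct_zero] at h2
        have h3 : ∑ i, l i * (s * (w.1 * a1 i + w.2 * a2 i) + y ⬝ᵥ c i) =
            s * κ + ∑ i, l i * (y ⬝ᵥ c i) := by
          rw [hκ, Finset.mul_sum, ← Finset.sum_add_distrib]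
          refine Finset.sum_congr rfl (fun i _ => ?_)
          ring
        rw [h3, h2, add_zero] at h1
        simp only [mul_one, l1] at h1
        have := (div_lt_iff₀ lpos).mp hsκ
        linarith
      apply le_max_of_le_left
      unfold EE
      rw [hset, hemp]
      simp
  · exact le_max_left _ _

/-- Busemann in additive form. -/
theorem busemann_core {c : ι → E2} (hc : OriginIn c) {a1 a2 : ι → ℝ} (h1 : TopPos c a1)
    (h2 : TopPos c a2) :
    hp c a1 * hp c a2 ≤ hp c (fun i => a1 i + a2 i) * (hp c a1 + hp c a2) := by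
  have e1 : (fun i => ((1 : ℝ), (0 : ℝ)).1 * a1 i + ((1 : ℝ), (0 : ℝ)).2 * a2 i) = a1 := by
    funext i
    simp
  have e2 : (fun i => ((0 : ℝ), (1 : ℝ)).1 * a1 i + ((0 : ℝ), (1 : ℝ)).2 * a2 i) = a2 := by
    funext i
    simp
  have e3 : (fun i => (((1 : ℝ), (0 : ℝ)) + ((0 : ℝ), (1 : ℝ))).1 * a1 i +
      (((1 : ℝ), (0 : ℝ)) + ((0 : ℝ), (1 : ℝ))).2 * a2 i) = fun i => a1 i + a2 i := by
    funext i
    simp
  have hb := Vale.Agent.Lib.P227.busemann_radial (E := EE c a1 a2) (measurable_EE c a1 a2)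
    (EE_nonneg c a1 a2) (EE_logc hc a1 a2) (w1 := ((1 : ℝ), (0 : ℝ))) (w2 := ((0 : ℝ), (1 : ℝ)))
    (bdd_phi hc a1 a2 _ (by rw [e1]; exact h1)) (bdd_phi hc a1 a2 _ (by rw [e2]; exact h2))
    (by rw [radial_EE hc, e1]; exact (hp_lt_top hc h1).ne)
    (by rw [radial_EE hc, e2]; exact (hp_lt_top hc h2).ne)
  rw [radial_EE hc, radial_EE hc, radial_EE hc, e1, e2, e3] at hb
  exact hb

/-- Scaling of the half polar volume. -/
lemma hp_smul (c : ι → E2) (a : ι → ℝ) {κ : ℝ} (hκ : 0 < κ) :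
    hp c (fun i => κ * a i) = ENNReal.ofReal κ⁻¹ * hp c a := by
  have hslice : ∀ r, slice c (fun i => κ * a i) r = slice c a (κ * r) := by
    intro r
    ext y
    simp only [slice, mem_setOf_eq]
    refine forall_congr' (fun i => ?_)
    have : r * (κ * a i) = κ * r * a i := by ring
    rw [this]
  rw [hp_eq_lintegral, hp_eq_lintegral]
  simp only [hslice]
  have hmeas : Measurable fun s : ℝ => volume (slice c a s) := by
    have hZ : MeasurableSet {p : ℝ × E2 | ∀ i, p.1 * a i + p.2 ⬝ᵥ c i ≤ 1} := by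
      have : {p : ℝ × E2 | ∀ i, p.1 * a i + p.2 ⬝ᵥ c i ≤ 1} =
          ⋂ i, {p : ℝ × E2 | p.1 * a i + p.2 ⬝ᵥ c i ≤ 1} := by
        ext p
        simp
      rw [this]
      refine MeasurableSet.iInter (fun i => ?_)
      refine (isClosed_le ?_ continuous_const).measurableSet
      have h1 : Continuous fun p : ℝ × E2 => p.2 ⬝ᵥ c i :=
        (continuous_dot2 (c i)).comp continuous_snd
      fun_prop
    exact measurable_measure_prodMk_left hZ
  set F : ℝ → ℝ≥0∞ := (Ioi (0 : ℝ)).indicator (fun s => volume (slice c a s)) with hF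
  have hFm : Measurable F := hmeas.indicator measurableSet_Ioi
  have h1 : ∫⁻ r in Ioi (0 : ℝ), volume (slice c a (κ * r)) = ∫⁻ r, F (κ * r) := by
    rw [← lintegral_indicator measurableSet_Ioi]
    refine lintegral_congr (fun r => ?_)
    by_cases hr : 0 < r
    · have : 0 < κ * r := mul_pos hκ hr
      simp [hF, indicator, hr, this]
    · have : ¬ 0 < κ * r := by
        intro h
        exact hr ((mul_pos_iff_of_pos_left hκ).mp h)
      simp [hF, indicator, hr, this]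
  have h2 : ∫⁻ r, F (κ * r) = ENNReal.ofReal κ⁻¹ * ∫⁻ s, F s := by
    have hmap := Real.map_volume_mul_left hκ.ne'
    have h3 : ∫⁻ s, F s ∂(Measure.map (fun x => κ * x) volume) = ∫⁻ r, F (κ * r) :=
      lintegral_map hFm (measurable_const_mul κ)
    rw [← h3, hmap, lintegral_smul_measure, abs_of_pos (inv_pos.mpr hκ)]
    rfl
  rw [h1, h2, hF, lintegral_indicator measurableSet_Ioi]

lemma TopPos.smul {c : ι → E2} {a : ι → ℝ} (h : TopPos c a) {κ : ℝ} (hκ : 0 < κ) :
    TopPos c (fun i => κ * a i) := by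
  obtain ⟨l, l0, l1, lc, lp⟩ := h
  refine ⟨l, l0, l1, lc, ?_⟩
  have : ∑ i, l i * (κ * a i) = κ * ∑ i, l i * a i := by
    rw [Finset.mul_sum]
    refine Finset.sum_congr rfl (fun i _ => ?_)
    ring
  rw [this]
  exact mul_pos hκ lp

/-- Busemann inequality for half polars, in the form `1 / V_t ≤ (1 - t) / V_1 + t / V_2`. -/
theorem hp_busemann {c : ι → E2} (hc : OriginIn c) {a1 a2 : ι → ℝ} (h1 : TopPos c a1)
    (h2 : TopPos c a2) {t : ℝ} (t0 : 0 < t) (t1 : t < 1) :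
    hp c a1 * hp c a2 ≤ hp c (fun i => (1 - t) * a1 i + t * a2 i) *
      (ENNReal.ofReal t * hp c a1 + ENNReal.ofReal (1 - t) * hp c a2) := by
  have h1t : 0 < 1 - t := by linarith
  have hb := busemann_core hc (h1.smul h1t) (h2.smul t0)
  rw [hp_smul c a1 h1t, hp_smul c a2 t0] at hb
  set M := hp c (fun i => (1 - t) * a1 i + t * a2 i) with hM
  set H1 := hp c a1 with hH1
  set H2 := hp c a2 with hH2
  set A : ℝ≥0∞ := ENNReal.ofReal (1 - t) with hA
  set B : ℝ≥0∞ := ENNReal.ofReal t with hB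
  have hAi : ENNReal.ofReal (1 - t)⁻¹ * A = 1 := by
    rw [hA, ← ENNReal.ofReal_mul (inv_nonneg.mpr h1t.le), inv_mul_cancel₀ h1t.ne', ENNReal.ofReal_one]
  have hBi : ENNReal.ofReal t⁻¹ * B = 1 := by
    rw [hB, ← ENNReal.ofReal_mul (inv_nonneg.mpr t0.le), inv_mul_cancel₀ t0.ne', ENNReal.ofReal_one]
  set X := ENNReal.ofReal (1 - t)⁻¹ with hX
  set Y := ENNReal.ofReal t⁻¹ with hY
  have h3 := mul_le_mul' (le_refl (A * B)) hb
  have e1 : A * B * (X * H1 * (Y * H2)) = (X * A) * (Y * B) * (H1 * H2) := by ring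
  have e2 : A * B * (M * (X * H1 + Y * H2)) = M * ((X * A) * (B * H1) + (Y * B) * (A * H2)) := by ring
  rw [e1, e2, hAi, hBi] at h3
  simpa using h3

end Vale.Agent.Lib.P248G
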