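import Vale.Agent.Lib.P248G.Poly

/-!
# P248, JOB P7: the base case, the tetrahedron.
-/

open MeasureTheory Set Matrix
open scoped Classical

noncomputable section

namespace Vale.Agent.Lib.P248G

variable {X : Finset E3}

/-- The standard simplex in `E3`. -/
def stdS : Set E3 := {t | (∀ i, 0 ≤ t i) ∧ t 0 + t 1 + t 2 ≤ 1}

lemma isClosed_stdS : IsClosed stdS := by
  have : stdS = (⋂ i, {x : E3 | 0 ≤ x i}) ∩ {x : E3 | x 0 + x 1 + x 2 ≤ 1} := by
    ext x
    simp [stdS]
  rw [this]
  refine (isClosed_iInter (fun i => isClosed_le continuous_const (continuous_apply i))).inter ?_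
  exact isClosed_le (by fun_prop) continuous_const

/-- Coordinate reflections are measure preserving. -/
lemma refl_preserving (s : Fin 3 → Bool) :
    MeasurePreserving (fun (x : E3) (i : Fin 3) => (if s i then (fun a : ℝ => a) else (fun a : ℝ => -a)) (x i))
      volume volume := by
  refine volume_preserving_pi (fun i => ?_)
  by_cases h : s i
  · simp only [h, if_true]
    exact MeasurePreserving.id _
  · simp only [h]
    exact Measure.measurePreserving_neg _

/-- The volume of the cross polytope. -/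
lemma volume_cross :
    volume {x : E3 | (∑ i, |x i| ^ (1 : ℝ)) ^ (1 / (1 : ℝ)) ≤ 1} = ENNReal.ofReal (4 / 3) := by
  rw [volume_sum_rpow_le (ι := Fin 3) (le_refl (1 : ℝ)) 1]
  have h2 : Real.Gamma (1 / 1 + 1) = 1 := by
    norm_num
  have h4 : Real.Gamma ((Fintype.card (Fin 3) : ℝ) / 1 + 1) = 6 := by
    have : ((Fintype.card (Fin 3) : ℝ) / 1 + 1) = ((3 : ℕ) : ℝ) + 1 := by
      simp
    rw [this, Real.Gamma_nat_eq_factorial]
    norm_num [Nat.factorial]
  rw [h2, h4]
  simp only [ENNReal.ofReal_one, one_pow, one_mul, Fintype.card_fin]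
  norm_num

/-- The volume of the standard simplex is at least `1 / 6`. The cross polytope is covered by the
eight reflections of the simplex. -/
lemma vol_stdS : ENNReal.ofReal (1 / 6) ≤ volume stdS := by
  have hcover : {x : E3 | (∑ i, |x i| ^ (1 : ℝ)) ^ (1 / (1 : ℝ)) ≤ 1} ⊆
      ⋃ s ∈ (Finset.univ : Finset (Fin 3 → Bool)),
        (fun (x : E3) (i : Fin 3) => (if s i then (fun a : ℝ => a) else (fun a : ℝ => -a)) (x i)) ⁻¹' stdS := by
    intro x hx
    simp only [mem_ofPred_eq, Real.rpow_one, one_div, inv_one, Fin.sum_univ_three] at hx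
    simp only [Finset.mem_univ, iUnion_true, mem_iUnion]
    refine ⟨fun i => decide (0 ≤ x i), ?_⟩
    have key : ∀ i, (if decide (0 ≤ x i) = true then (fun a : ℝ => a) else (fun a : ℝ => -a)) (x i) = |x i| := by
      intro i
      by_cases h : 0 ≤ x i
      · simp [h, abs_of_nonneg h]
      · simp [h, abs_of_neg (not_le.mp h)]
    simp only [mem_preimage, stdS, mem_ofPred_eq, key]
    exact ⟨fun i => abs_nonneg _, hx⟩
  have hmeas : MeasurableSet stdS := isClosed_stdS.measurableSet
  have hle : volume {x : E3 | (∑ i, |x i| ^ (1 : ℝ)) ^ (1 / (1 : ℝ)) ≤ 1} ≤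
      ∑ s ∈ (Finset.univ : Finset (Fin 3 → Bool)), volume stdS := by
    refine (measure_mono hcover).trans ((measure_biUnion_finset_le _ _).trans ?_)
    refine Finset.sum_le_sum (fun s _ => ?_)
    exact ((refl_preserving s).measure_preimage hmeas.nullMeasurableSet).le
  rw [volume_cross, Finset.sum_const, Finset.card_univ] at hle
  have hcard : Fintype.card (Fin 3 → Bool) = 8 := by
    simp
  rw [hcard] at hle
  have h8 : ENNReal.ofReal (4 / 3) = 8 • ENNReal.ofReal (1 / 6) := by
    rw [nsmul_eq_mul, ← ENNReal.ofReal_natCast, ← ENNReal.ofReal_mul (by norm_num)]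
    norm_num
  rw [h8] at hle
  simp only [nsmul_eq_mul] at hle
  exact (ENNReal.mul_le_mul_iff_right (by norm_num) (by simp)).mp hle

/-- Four positive reals with sum one have product at most `1 / 256`. -/
lemma amgm_four {a b c d : ℝ} (ha : 0 < a) (hb : 0 < b) (hc : 0 < c) (hd : 0 < d)
    (h : a + b + c + d = 1) : a * b * c * d ≤ 1 / 256 := by
  have h1 : a * b ≤ (a + b) ^ 2 / 4 := by nlinarith [sq_nonneg (a - b)]
  have h2 : c * d ≤ (c + d) ^ 2 / 4 := by nlinarith [sq_nonneg (c - d)]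
  have hp : 0 < a + b := by linarith
  have hq : 0 < c + d := by linarith
  have h3 : (a + b) * (c + d) ≤ 1 / 4 := by nlinarith [sq_nonneg ((a + b) - (c + d))]
  have h4 : ((a + b) * (c + d)) ^ 2 ≤ (1 / 4) ^ 2 := by
    apply pow_le_pow_left₀ (by positivity) h3
  calc a * b * c * d = (a * b) * (c * d) := by ring
    _ ≤ ((a + b) ^ 2 / 4) * ((c + d) ^ 2 / 4) := by
        apply mul_le_mul h1 h2 (by positivity) (by positivity)
    _ = ((a + b) * (c + d)) ^ 2 / 16 := by ring
    _ ≤ (1 / 4) ^ 2 / 16 := by linarith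
    _ = 1 / 256 := by norm_num

/-- The determinant of the matrix `1 + (1 / w₀) b 𝟙ᵀ`. -/
lemma det_E {w0 w1 w2 w3 : ℝ} (h0 : w0 ≠ 0) (hs : w0 + w1 + w2 + w3 = 1) :
    Matrix.det (!![1 + w1 / w0, w1 / w0, w1 / w0;
                   w2 / w0, 1 + w2 / w0, w2 / w0;
                   w3 / w0, w3 / w0, 1 + w3 / w0]) = 1 / w0 := by
  rw [Matrix.det_fin_three]
  simp only [Matrix.of_apply, Matrix.cons_val', Matrix.cons_val_zero, Matrix.cons_val_one,
    Matrix.cons_val_two, Matrix.tail_cons, Matrix.head_cons, Matrix.cons_val_fin_one,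
    Matrix.empty_val']
  simp
  field_simp
  linear_combination (w0 ^ 2) * hs

/-- The core computation for a simplex given by vertices and barycentric coordinates. -/
theorem simplex_bound (v : Fin 4 → E3) (z : E3) (w : Fin 4 → ℝ) (hw : ∀ i, 0 < w i)
    (hs : ∑ i, w i = 1) (hz : ∑ i, w i • v i = z)
    (hdet : ∀ y : E3, (∀ i, y ⬝ᵥ (v i - z) = 0) → y = 0) :
    64 / 9 ≤ volProd (convexHull ℝ (range v)) z := by
  have hu : ∑ i, w i • (v i - z) = 0 := by
    simp only [smul_sub, Finset.sum_sub_distrib, hz, ← Finset.sum_smul, hs, one_smul, sub_self]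
  have hu' : ∀ i, w 0 * (v 0 - z) i + w 1 * (v 1 - z) i + w 2 * (v 2 - z) i
      + w 3 * (v 3 - z) i = 0 := by
    intro i
    have := congrFun hu i
    simpa [Fin.sum_univ_four] using this
  have hs' : w 0 + w 1 + w 2 + w 3 = 1 := by simpa [Fin.sum_univ_four] using hs
  have hw0 := hw 0
  have hw1 := hw 1
  have hw2 := hw 2
  have hw3 := hw 3
  -- the matrix with rows `v (i + 1) - z`
  let M : Matrix (Fin 3) (Fin 3) ℝ := Matrix.of fun i j => (v i.succ - z) j
  have hMv : ∀ (y : E3) (i : Fin 3), (M *ᵥ y) i = y ⬝ᵥ (v i.succ - z) := by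
    intro y i
    simp [M, Matrix.mulVec, dotProduct, mul_comm]
  have h0rel : ∀ y : E3, w 0 * (y ⬝ᵥ (v 0 - z)) =
      - (w 1 * (M *ᵥ y) 0 + w 2 * (M *ᵥ y) 1 + w 3 * (M *ᵥ y) 2) := by
    intro y
    have s0 : (Fin.succ 0 : Fin 4) = 1 := rfl
    have s1 : (Fin.succ 1 : Fin 4) = 2 := rfl
    have s2 : (Fin.succ 2 : Fin 4) = 3 := rfl
    rw [hMv, hMv, hMv, s0, s1, s2]
    have key : ∑ i, w i * (y ⬝ᵥ (v i - z)) = 0 := by
      have : y ⬝ᵥ (∑ i, w i • (v i - z)) = 0 := by rw [hu]; simp
      rw [dotProduct_sum] at this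
      simpa [dotProduct_smul] using this
    rw [Fin.sum_univ_four] at key
    linarith
  have hdetM : M.det ≠ 0 := by
    intro h0
    obtain ⟨y, hy, hMy⟩ := Matrix.exists_mulVec_eq_zero_iff.2 h0
    apply hy
    apply hdet
    have hsucc : ∀ j : Fin 3, y ⬝ᵥ (v j.succ - z) = 0 := by
      intro j
      rw [← hMv, hMy]
      rfl
    intro i
    refine Fin.cases ?_ (fun j => hsucc j) i
    have := h0rel y
    rw [hMy] at this
    simp only [Pi.zero_apply, mul_zero, add_zero, neg_zero] at this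
    exact (mul_eq_zero.mp this).resolve_left hw0.ne'
  -- the polar
  have hpolar : polarAt (convexHull ℝ (range v)) z = {y : E3 | ∀ i, y ⬝ᵥ (v i - z) ≤ 1} := by
    rw [polarAt_convexHull]
    ext y
    simp [polarAt]
  set P : Set E3 := {y : E3 | ∀ i, y ⬝ᵥ (v i - z) ≤ 1} with hP
  -- the polar has finite volume
  have hPfin : volume P ≠ ⊤ := by
    have hsub : (Matrix.toLin' M) '' P ⊆
        Set.Icc (fun i : Fin 3 => 1 - 1 / w i.succ) (fun _ => 1) := by
      rintro _ ⟨y, hy, rfl⟩
      have hi : ∀ i : Fin 3, (M *ᵥ y) i ≤ 1 := by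
        intro i
        rw [hMv]
        exact hy i.succ
      have h00 := hy 0
      have hr := h0rel y
      have hsum : w 1 * (1 - (M *ᵥ y) 0) + w 2 * (1 - (M *ᵥ y) 1) + w 3 * (1 - (M *ᵥ y) 2) ≤ 1 := by
        have : w 0 * (y ⬝ᵥ (v 0 - z)) ≤ w 0 * 1 := mul_le_mul_of_nonneg_left h00 hw0.le
        nlinarith
      have p0 : 0 ≤ w 1 * (1 - (M *ᵥ y) 0) := mul_nonneg hw1.le (by linarith [hi 0])
      have p1 : 0 ≤ w 2 * (1 - (M *ᵥ y) 1) := mul_nonneg hw2.le (by linarith [hi 1])
      have p2 : 0 ≤ w 3 * (1 - (M *ᵥ y) 2) := mul_nonneg hw3.le (by linarith [hi 2])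
      have low : ∀ (a t : ℝ), 0 < a → a * (1 - t) ≤ 1 → 1 - 1 / a ≤ t := by
        intro a t ha h
        have : 1 - t ≤ 1 / a := by
          rw [le_div_iff₀ ha]
          linarith
        linarith
      constructor
      · intro i
        simp only [Matrix.toLin'_apply]
        fin_cases i
        · exact low _ _ (hw _) (by simpa using (by linarith : w 1 * (1 - (M *ᵥ y) 0) ≤ 1))
        · exact low _ _ (hw _) (by simpa using (by linarith : w 2 * (1 - (M *ᵥ y) 1) ≤ 1))
        · exact low _ _ (hw _) (by simpa using (by linarith : w 3 * (1 - (M *ᵥ y) 2) ≤ 1))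
      · intro i
        simpa using hi i
    have hlt : volume ((Matrix.toLin' M) '' P) < ⊤ :=
      lt_of_le_of_lt (measure_mono hsub) isCompact_Icc.measure_lt_top
    rw [Measure.addHaar_image_linearMap, LinearMap.det_toLin'] at hlt
    intro htop
    rw [htop, ENNReal.mul_top] at hlt
    · exact lt_irrefl _ hlt
    · simpa using hdetM
  -- lower bound for the polar
  let Ldiag : Matrix (Fin 3) (Fin 3) ℝ := Matrix.diagonal (fun i => - (1 / w i.succ))
  let L : Matrix (Fin 3) (Fin 3) ℝ := M⁻¹ * Ldiag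
  have hMi : M * M⁻¹ = 1 := Matrix.mul_nonsing_inv M (isUnit_iff_ne_zero.mpr hdetM)
  have hMy : ∀ (τ : E3) (i : Fin 3),
      (M *ᵥ ((M⁻¹ *ᵥ (fun _ => (1 : ℝ))) + (Matrix.toLin' L) τ)) i = 1 - τ i / w i.succ := by
    intro τ i
    rw [Matrix.toLin'_apply, Matrix.mulVec_add, Matrix.mulVec_mulVec, hMi, Matrix.one_mulVec,
      Matrix.mulVec_mulVec]
    have : M * L = Ldiag := by
      simp only [L]
      rw [← Matrix.mul_assoc, hMi, Matrix.one_mul]
    rw [this]
    simp only [Pi.add_apply, Ldiag, Matrix.mulVec_diagonal]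
    ring
  have hPsi : ∀ τ ∈ stdS, (M⁻¹ *ᵥ (fun _ => (1 : ℝ))) + (Matrix.toLin' L) τ ∈ P := by
    intro τ hτ i
    set y := (M⁻¹ *ᵥ (fun _ => (1 : ℝ))) + (Matrix.toLin' L) τ with hy
    refine Fin.cases ?_ (fun j => ?_) i
    · have hr := h0rel y
      rw [hMy, hMy, hMy] at hr
      have e1 : w 1 * (1 - τ 0 / w (Fin.succ 0)) = w 1 - τ 0 := by
        change w 1 * (1 - τ 0 / w 1) = _
        field_simp
      have e2 : w 2 * (1 - τ 1 / w (Fin.succ 1)) = w 2 - τ 1 := by
        change w 2 * (1 - τ 1 / w 2) = _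
        field_simp
      have e3 : w 3 * (1 - τ 2 / w (Fin.succ 2)) = w 3 - τ 2 := by
        change w 3 * (1 - τ 2 / w 3) = _
        field_simp
      rw [e1, e2, e3] at hr
      have h3 := hτ.2
      have : w 0 * (y ⬝ᵥ (v 0 - z)) ≤ w 0 * 1 := by
        rw [hr]
        linarith
      exact le_of_mul_le_mul_left this hw0
    · rw [← hMv, hMy]
      have : 0 ≤ τ j / w j.succ := div_nonneg (hτ.1 j) (hw _).le
      linarith
  have hPge : ENNReal.ofReal (|M.det|⁻¹ * (1 / (w 1 * w 2 * w 3)) * (1 / 6)) ≤ volume P := by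
    have hsub : (fun x => (M⁻¹ *ᵥ (fun _ => (1 : ℝ))) + x) '' ((Matrix.toLin' L) '' stdS) ⊆ P := by
      rintro _ ⟨_, ⟨τ, hτ, rfl⟩, rfl⟩
      exact hPsi τ hτ
    refine le_trans ?_ (measure_mono hsub)
    rw [Set.image_add_left, measure_preimage_add, Measure.addHaar_image_linearMap,
      LinearMap.det_toLin']
    have hdetL : |L.det| = |M.det|⁻¹ * (1 / (w 1 * w 2 * w 3)) := by
      simp only [L, Ldiag]
      rw [Matrix.det_mul, Matrix.det_nonsing_inv, Matrix.det_diagonal, Fin.prod_univ_three,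
        abs_mul, Ring.inverse_eq_inv', abs_inv]
      congr 1
      have e1 : w (Fin.succ 0) = w 1 := rfl
      have e2 : w (Fin.succ 1) = w 2 := rfl
      have e3 : w (Fin.succ 2) = w 3 := rfl
      rw [e1, e2, e3]
      have : -(1 / w 1) * -(1 / w 2) * -(1 / w 3) = - (1 / (w 1 * w 2 * w 3)) := by
        field_simp
      rw [this, abs_neg, abs_of_pos (by positivity)]
    rw [hdetL, ENNReal.ofReal_mul (by positivity)]
    gcongr
    exact vol_stdS
  -- the body
  let E : Matrix (Fin 3) (Fin 3) ℝ :=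
    !![1 + w 1 / w 0, w 1 / w 0, w 1 / w 0;
       w 2 / w 0, 1 + w 2 / w 0, w 2 / w 0;
       w 3 / w 0, w 3 / w 0, 1 + w 3 / w 0]
  have hE : E.det = 1 / w 0 := det_E hw0.ne' hs'
  let C : Matrix (Fin 3) (Fin 3) ℝ := Mᵀ * E
  have hC : ∀ i k, C i k = (v k.succ - v 0) i := by
    intro i k
    have h := hu' i
    have e0 : w 0 ≠ 0 := hw0.ne'
    simp only [C, Matrix.mul_apply, Fin.sum_univ_three, Matrix.transpose_apply, M, Matrix.of_apply]
    have s0 : (Fin.succ 0 : Fin 4) = 1 := rfl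
    have s1 : (Fin.succ 1 : Fin 4) = 2 := rfl
    have s2 : (Fin.succ 2 : Fin 4) = 3 := rfl
    rw [s0, s1, s2]
    simp only [Pi.sub_apply] at h ⊢
    fin_cases k
    · simp only [E, Fin.zero_eta, Fin.mk_one, Fin.reduceFinMk, Matrix.of_apply, Matrix.cons_val',
        Matrix.cons_val_zero, Matrix.cons_val_one, Matrix.cons_val_two, Matrix.tail_cons,
        Matrix.head_cons, Matrix.cons_val_fin_one, Matrix.empty_val', s0]
      simp
      field_simp
      linear_combination h
    · simp only [E, Fin.zero_eta, Fin.mk_one, Fin.reduceFinMk, Matrix.of_apply, Matrix.cons_val',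
        Matrix.cons_val_zero, Matrix.cons_val_one, Matrix.cons_val_two, Matrix.tail_cons,
        Matrix.head_cons, Matrix.cons_val_fin_one, Matrix.empty_val', s1]
      simp
      field_simp
      linear_combination h
    · simp only [E, Fin.zero_eta, Fin.mk_one, Fin.reduceFinMk, Matrix.of_apply, Matrix.cons_val',
        Matrix.cons_val_zero, Matrix.cons_val_one, Matrix.cons_val_two, Matrix.tail_cons,
        Matrix.head_cons, Matrix.cons_val_fin_one, Matrix.empty_val', s2]
      simp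
      field_simp
      linear_combination h
  have hPhi : ∀ τ ∈ stdS, v 0 + (Matrix.toLin' C) τ ∈ convexHull ℝ (range v) := by
    intro τ hτ
    let g : Fin 4 → ℝ := Fin.cons (1 - (τ 0 + τ 1 + τ 2)) τ
    have hg : ∑ i, g i = 1 := by
      simp only [Fin.sum_univ_four, g]
      change (1 - (τ 0 + τ 1 + τ 2)) + τ 0 + τ 1 + τ 2 = 1
      ring
    have hg0 : ∀ i ∈ (Finset.univ : Finset (Fin 4)), 0 ≤ g i := by
      intro i _
      refine Fin.cases ?_ (fun j => ?_) i
      · change 0 ≤ 1 - (τ 0 + τ 1 + τ 2)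
        linarith [hτ.2]
      · exact hτ.1 j
    have hmem := (convex_convexHull ℝ (range v)).sum_mem hg0 hg
      (fun i _ => subset_convexHull ℝ _ (mem_range_self i))
    have : v 0 + (Matrix.toLin' C) τ = ∑ i, g i • v i := by
      ext i
      simp only [Pi.add_apply, Matrix.toLin'_apply, Matrix.mulVec, dotProduct, Fin.sum_univ_three,
        hC, Finset.sum_apply, Pi.smul_apply, smul_eq_mul, Fin.sum_univ_four]
      have s0 : (Fin.succ 0 : Fin 4) = 1 := rfl
      have s1 : (Fin.succ 1 : Fin 4) = 2 := rfl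
      have s2 : (Fin.succ 2 : Fin 4) = 3 := rfl
      rw [s0, s1, s2]
      change _ = (1 - (τ 0 + τ 1 + τ 2)) * v 0 i + τ 0 * v 1 i + τ 1 * v 2 i + τ 2 * v 3 i
      simp only [Pi.sub_apply]
      ring
    rw [this]
    exact hmem
  have hKge : ENNReal.ofReal (|M.det| * (1 / w 0) * (1 / 6)) ≤ volume (convexHull ℝ (range v)) := by
    have hsub : (fun x => v 0 + x) '' ((Matrix.toLin' C) '' stdS) ⊆ convexHull ℝ (range v) := by
      rintro _ ⟨_, ⟨τ, hτ, rfl⟩, rfl⟩
      exact hPhi τ hτ
    refine le_trans ?_ (measure_mono hsub)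
    rw [Set.image_add_left, measure_preimage_add, Measure.addHaar_image_linearMap,
      LinearMap.det_toLin']
    have hdetC : |C.det| = |M.det| * (1 / w 0) := by
      simp only [C]
      rw [Matrix.det_mul, Matrix.det_transpose, hE, abs_mul, abs_of_pos (by positivity : 0 < 1 / w 0)]
    rw [hdetC, ENNReal.ofReal_mul (by positivity)]
    gcongr
    exact vol_stdS
  have hKfin : volume (convexHull ℝ (range v)) ≠ ⊤ :=
    ((Set.finite_range v).isCompact_convexHull (𝕜 := ℝ)).measure_lt_top.ne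
  -- conclusion
  have hD : 0 < |M.det| := abs_pos.mpr hdetM
  have h1 := (ENNReal.ofReal_le_iff_le_toReal hKfin).1 hKge
  have h2 := (ENNReal.ofReal_le_iff_le_toReal hPfin).1 hPge
  unfold volProd
  rw [hpolar]
  have hp : 0 < w 0 * w 1 * w 2 * w 3 := by positivity
  have hamgm := amgm_four hw0 hw1 hw2 hw3 hs'
  have hprod : (|M.det| * (1 / w 0) * (1 / 6)) * (|M.det|⁻¹ * (1 / (w 1 * w 2 * w 3)) * (1 / 6))
      = 1 / (36 * (w 0 * w 1 * w 2 * w 3)) := by
    field_simp
    ring
  have hge : 64 / 9 ≤ 1 / (36 * (w 0 * w 1 * w 2 * w 3)) := by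
    rw [le_div_iff₀ (by positivity)]
    nlinarith
  calc 64 / 9 ≤ 1 / (36 * (w 0 * w 1 * w 2 * w 3)) := hge
    _ = (|M.det| * (1 / w 0) * (1 / 6)) * (|M.det|⁻¹ * (1 / (w 1 * w 2 * w 3)) * (1 / 6)) := hprod.symm
    _ ≤ _ := mul_le_mul h1 h2 (by positivity) ENNReal.toReal_nonneg

/-- **Tetrahedron.** `|K| |(K - z)°| = 1 / (36 b₀ b₁ b₂ b₃)` where `b` are the barycentric coordinates of
`z`, and `b₀ b₁ b₂ b₃ ≤ 1 / 256`.

Paper proof. `X` spans, so it has exactly 4 points `v₀, …, v₃`, affinely independent. Translate: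
`z = 0` (volume translation invariance), `∑ b i • v i = 0`, `∑ b i = 1`, `b i > 0`, since `z` is interior.
Let `D` be the invertible matrix with columns `v₁, v₂, v₃`.
Polar: `y` is in the polar iff `u = Dᵀ y` has `u i ≤ 1` for `i = 1, 2, 3` and `- ∑ b i u i / b₀ ≤ 1`; with
`w i = 1 - u i`, iff `w i ≥ 0`, `∑ b i w i ≤ 1`. So the polar is a linear image with determinant
`1 / |det D|` of the translate by `(1, 1, 1)` of minus the simplex
`{w ≥ 0, ∑ b i w i ≤ 1}`, of volume `1 / (6 b₁ b₂ b₃)`.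
Body: `cx X = D '' S` where `S` is the hull of `e₁, e₂, e₃` and `- (b₁, b₂, b₃) / b₀`, that is the affine image of
the standard simplex with determinant `1 + ∑_{i ≥ 1} b i / b₀ = 1 / b₀`; volume `1 / (6 b₀)`.
So the product is `1 / (36 b₀ b₁ b₂ b₃) ≥ 256 / 36 = 64 / 9` by AM-GM. The volume `1 / 6` of
the standard simplex `{w ≥ 0, w₀ + w₁ + w₂ ≤ 1}`: Fubini twice, or the six permutation pieces of the cube.
Only lower bounds for the two volumes are needed. -/
theorem tetra_bound (hc : ConvexPos X) (hs : Spans X) (h4 : X.card ≤ 4) {z : E3}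
    (hz : z ∈ interior (cx X)) : 64 / 9 ≤ volProd (cx X) z := by
  have hspan : affineSpan ℝ (X : Set E3) = ⊤ :=
    (interior_convexHull_nonempty_iff_affineSpan_eq_top).1 hs
  have hne : X.Nonempty := by
    by_contra h
    rw [Finset.not_nonempty_iff_eq_empty] at h
    subst h
    simp [Spans, cx] at hs
  have hvec : vectorSpan ℝ (X : Set E3) = ⊤ :=
    (AffineSubspace.affineSpan_eq_top_iff_vectorSpan_eq_top_of_nonempty ℝ E3 E3 hne).1 hspan
  have hfr : Module.finrank ℝ (vectorSpan ℝ (X : Set E3)) = 3 := by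
    rw [hvec]
    simp
  -- cardinality
  obtain ⟨k, hk⟩ : ∃ k, X.card = k + 1 := ⟨X.card - 1, by have := hne.card_pos; omega⟩
  have hk3 : 3 ≤ k := by
    have hr : Set.range (fun x : X => (x : E3)) = (X : Set E3) := by
      ext p
      simp
    have := finrank_vectorSpan_range_le ℝ (fun x : X => (x : E3))
      (n := k) (by simpa using hk)
    rwa [hr, hfr] at this
  have hcard : X.card = 4 := by omega
  -- enumeration
  let e := Finset.equivFinOfCardEq hcard
  let v : Fin 4 → E3 := fun i => ((e.symm i : X) : E3)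
  have hrange : range v = (X : Set E3) := by
    ext p
    constructor
    · rintro ⟨i, rfl⟩
      exact (e.symm i).2
    · intro hp
      refine ⟨e ⟨p, hp⟩, ?_⟩
      simp [v]
  have hind : AffineIndependent ℝ v := by
    rw [affineIndependent_iff_le_finrank_vectorSpan ℝ v (n := 3) (by simp), hrange, hfr]
  have htop : affineSpan ℝ (range v) = ⊤ := by rw [hrange]; exact hspan
  let B : AffineBasis (Fin 4) ℝ E3 := ⟨v, hind, htop⟩
  have hBr : range B = (X : Set E3) := hrange
  have hcxB : cx X = convexHull ℝ (range B) := by rw [hBr]; rfl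
  have hint : z ∈ interior (convexHull ℝ (range B)) := by rw [← hcxB]; exact hz
  rw [B.interior_convexHull] at hint
  rw [hcxB]
  refine simplex_bound B z (fun i => B.coord i z) hint (B.sum_coord_apply_eq_one z)
    (B.linear_combination_coord_eq_self z) ?_
  intro y hy
  by_contra hy0
  have : ¬ ∃ (n : E3) (d : ℝ), n ≠ 0 ∧ ∀ x ∈ X, n ⬝ᵥ x = d := spans_iff_no_plane.1 hs
  apply this
  refine ⟨y, y ⬝ᵥ z, hy0, fun x hx => ?_⟩
  have hx' : x ∈ range B := by rw [hBr]; exact hx
  obtain ⟨i, rfl⟩ := hx'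
  have := hy i
  rw [dotProduct_sub] at this
  linarith

end Vale.Agent.Lib.P248G
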