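import Vale.Agent.Lib.P248G.Moves

/-!
# P248, JOB P6: invariance under invertible linear maps.
-/

open MeasureTheory Set Matrix
open scoped Classical

noncomputable section

namespace Vale.Agent.Lib.P248G

variable {X : Finset E3}

lemma cx_image (T : E3 ≃ₗ[ℝ] E3) (X : Finset E3) : cx (X.image T) = T '' cx X := by
  unfold cx
  rw [Finset.coe_image]
  exact ((T : E3 →ₗ[ℝ] E3).image_convexHull (X : Set E3)).symm

lemma convexPos_image (T : E3 ≃ₗ[ℝ] E3) (hc : ConvexPos X) : ConvexPos (X.image T) := by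
  intro x' hx' hmem
  obtain ⟨x, hx, rfl⟩ := Finset.mem_image.1 hx'
  have h1 : ((X.image T : Finset E3) : Set E3) \ {T x} = T '' ((X : Set E3) \ {x}) := by
    ext y
    constructor
    · rintro ⟨hy, hne⟩
      have hy' : y ∈ X.image T := by exact_mod_cast hy
      obtain ⟨a, ha, rfl⟩ := Finset.mem_image.1 hy'
      exact ⟨a, ⟨ha, fun h => hne (by rw [show a = x from h]; exact Set.mem_singleton _)⟩, rfl⟩
    · rintro ⟨a, ⟨ha, hne⟩, rfl⟩
      refine ⟨by exact_mod_cast Finset.mem_image_of_mem _ ha, fun h => hne ?_⟩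
      exact T.injective h
  rw [h1] at hmem
  have h2 : T '' convexHull ℝ ((X : Set E3) \ {x}) = convexHull ℝ (T '' ((X : Set E3) \ {x})) :=
    (T : E3 →ₗ[ℝ] E3).image_convexHull _
  rw [← h2] at hmem
  obtain ⟨a, ha, hax⟩ := hmem
  rw [T.injective hax] at ha
  exact hc x hx ha

/-- Images under a linear equivalence commute with interior. -/
lemma image_interior (T : E3 ≃ₗ[ℝ] E3) (K : Set E3) : interior (T '' K) = T '' interior K :=
  (T.toContinuousLinearEquiv.toHomeomorph.image_interior K).symm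

lemma spans_image (T : E3 ≃ₗ[ℝ] E3) (hs : Spans X) : Spans (X.image T) := by
  unfold Spans at *
  rw [cx_image, image_interior]
  exact hs.image _

lemma interior_image (T : E3 ≃ₗ[ℝ] E3) {z : E3} (hz : z ∈ interior (cx X)) :
    T z ∈ interior (cx (X.image T)) := by
  rw [cx_image, image_interior]
  exact mem_image_of_mem _ hz

/-- The transposed map: `y ⬝ᵥ T x = f y ⬝ᵥ x`. -/
lemma exists_transpose (T : E3 ≃ₗ[ℝ] E3) :
    ∃ f : E3 →ₗ[ℝ] E3, LinearMap.det f = LinearMap.det (T : E3 →ₗ[ℝ] E3) ∧
      ∀ y x, y ⬝ᵥ T x = f y ⬝ᵥ x := by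
  set A := LinearMap.toMatrix' (T : E3 →ₗ[ℝ] E3) with hA
  refine ⟨Matrix.toLin' Aᵀ, ?_, fun y x => ?_⟩
  · rw [LinearMap.det_toLin', Matrix.det_transpose, hA, LinearMap.det_toMatrix']
  · have h1 : T x = A *ᵥ x := by
      rw [hA, LinearMap.toMatrix'_mulVec]
      rfl
    rw [h1, Matrix.dotProduct_mulVec, Matrix.toLin'_apply, Matrix.mulVec_transpose]

/-- Normals transport. -/
lemma facetNormal_image (T : E3 ≃ₗ[ℝ] E3) {R : Finset E3} {n : E3} {d : ℝ}
    (h : FacetNormal X R n d) :
    ∃ n' : E3, FacetNormal (X.image T) (R.image T) n' d ∧ ∀ x, n' ⬝ᵥ T x = n ⬝ᵥ x := by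
  obtain ⟨f, _, hf⟩ := exists_transpose T.symm
  obtain ⟨hn0, hle, hiff⟩ := h
  have hn' : ∀ x, f n ⬝ᵥ T x = n ⬝ᵥ x := by
    intro x
    have := hf n (T x)
    rw [T.symm_apply_apply] at this
    exact this.symm
  refine ⟨f n, ⟨?_, ?_, ?_⟩, hn'⟩
  · intro h0
    apply hn0
    have h3 : ∀ x, n ⬝ᵥ x = 0 := fun x => by
      have := hn' x
      rw [h0, zero_dotProduct] at this
      exact this.symm
    exact dotProduct_self_eq_zero.1 (h3 n)
  · intro x' hx'
    obtain ⟨x, hx, rfl⟩ := Finset.mem_image.1 hx'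
    rw [hn']
    exact hle x hx
  · intro x' hx'
    obtain ⟨x, hx, rfl⟩ := Finset.mem_image.1 hx'
    rw [hn', hiff x hx]
    constructor
    · exact fun h => Finset.mem_image_of_mem _ h
    · intro h
      obtain ⟨a, ha, hax⟩ := Finset.mem_image.1 h
      rwa [← T.injective hax]

lemma isFacet_image (T : E3 ≃ₗ[ℝ] E3) {R : Finset E3} (h : IsFacet X R) :
    IsFacet (X.image T) (R.image T) := by
  obtain ⟨hsub, hcard, n, d, hn⟩ := h
  obtain ⟨n', hn', _⟩ := facetNormal_image T hn
  refine ⟨Finset.image_subset_image hsub, ?_, n', d, hn'⟩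
  rwa [Finset.card_image_of_injective _ T.injective]

lemma image_symm_image (T : E3 ≃ₗ[ℝ] E3) (S : Finset E3) : (S.image T).image T.symm = S := by
  rw [Finset.image_image]
  have : (T.symm ∘ T : E3 → E3) = id := by
    funext x
    simp
  rw [this, Finset.image_id]

lemma image_image_symm (T : E3 ≃ₗ[ℝ] E3) (S : Finset E3) : (S.image T.symm).image T = S := by
  rw [Finset.image_image]
  have : (T ∘ T.symm : E3 → E3) = id := by
    funext x
    simp
  rw [this, Finset.image_id]

/-- Facets correspond, with normal `n ∘ T⁻¹` (the transposed inverse applied to `n`). -/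
lemma facets_image (T : E3 ≃ₗ[ℝ] E3) (X : Finset E3) :
    facets (X.image T) = (facets X).image (fun R => R.image T) := by
  ext R'
  rw [mem_facets, Finset.mem_image]
  constructor
  · intro h
    refine ⟨R'.image T.symm, mem_facets.2 ?_, image_image_symm T R'⟩
    have := isFacet_image T.symm h
    rwa [image_symm_image] at this
  · rintro ⟨R, hR, rfl⟩
    exact isFacet_image T (mem_facets.1 hR)

lemma cplx_image (T : E3 ≃ₗ[ℝ] E3) (X : Finset E3) : cplx (X.image T) = cplx X := by
  unfold cplx
  rw [Finset.card_image_of_injective _ T.injective, facets_image,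
    Finset.card_image_of_injective _ (Finset.image_injective T.injective)]

/-- The volume product is invariant: `volume (T '' K) = |det T| volume K`
(`Measure.addHaar_image_linearMap`) and `polarAt (T '' K) (T z)` is the image of `polarAt K z` under the
transposed inverse, with determinant `|det T|⁻¹`. -/
lemma volProd_image (T : E3 ≃ₗ[ℝ] E3) (K : Set E3) (z : E3) :
    volProd (T '' K) (T z) = volProd K z := by
  obtain ⟨f, hdet, hf⟩ := exists_transpose T
  set D := LinearMap.det (T : E3 →ₗ[ℝ] E3) with hD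
  have hD0 : D ≠ 0 := (LinearEquiv.isUnit_det' T).ne_zero
  have hfdet : LinearMap.det f ≠ 0 := by rw [hdet]; exact hD0
  have hpol : polarAt (T '' K) (T z) = f ⁻¹' polarAt K z := by
    ext y
    constructor
    · intro hy x hx
      have := hy (T x) (mem_image_of_mem _ hx)
      rw [dotProduct_sub, hf, hf, ← dotProduct_sub] at this
      exact this
    · rintro hy _ ⟨x, hx, rfl⟩
      have := hy x hx
      rw [dotProduct_sub, hf, hf, ← dotProduct_sub]
      exact this
  unfold volProd
  have h1 : volume (T '' K) = ENNReal.ofReal |D| * volume K :=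
    Measure.addHaar_image_linearMap volume (T : E3 →ₗ[ℝ] E3) K
  rw [hpol, Measure.addHaar_preimage_linearMap volume hfdet, h1, hdet, ENNReal.toReal_mul,
    ENNReal.toReal_mul, ENNReal.toReal_ofReal (abs_nonneg _), ENNReal.toReal_ofReal (abs_nonneg _),
    abs_inv]
  have : |D| ≠ 0 := abs_ne_zero.2 hD0
  field_simp

/-- A facet with at least 4 points can be made vertical: take `v ≠ 0` with `n ⬝ᵥ v = 0` and `T` with
`T v = e₀`. Then `T R` has normal `n ∘ T⁻¹`, whose coordinate `0` is `n ⬝ᵥ v = 0`. Any other normal is a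
multiple by `facetNormal_unique`. -/
theorem exists_vertical (hc : ConvexPos X) (hs : Spans X) {R : Finset E3} (hR : R ∈ facets X)
    (h4 : 4 ≤ R.card) :
    ∃ T : E3 ≃ₗ[ℝ] E3, ∃ R' ∈ facets (X.image T), 4 ≤ R'.card ∧ ¬ Nonvert (X.image T) R' := by
  obtain ⟨hsub, hcard, n, d, hn⟩ := mem_facets.1 hR
  -- a vector orthogonal to `n`
  obtain ⟨v, hv0, hnv⟩ : ∃ v : E3, v ≠ 0 ∧ n ⬝ᵥ v = 0 := by
    by_cases h0 : n 0 = 0
    · refine ⟨Pi.single 0 1, ?_, ?_⟩
      · intro h
        have := congrFun h 0
        simp at this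
      · rw [dot_single, h0, zero_mul]
    · refine ⟨![-(n 1), n 0, 0], ?_, ?_⟩
      · intro h
        have := congrFun h 1
        simp at this
        exact h0 this
      · simp [dotProduct, Fin.sum_univ_three]
        ring
  have he0 : (Pi.single 0 1 : E3) ≠ 0 := by
    intro h
    have := congrFun h 0
    simp at this
  obtain ⟨A, hA⟩ := SeparatingDual.exists_continuousLinearEquiv_apply_eq (R := ℝ) hv0 he0
  let T : E3 ≃ₗ[ℝ] E3 := A.toLinearEquiv
  have hTv : T v = Pi.single 0 1 := hA
  obtain ⟨n', hn', hdot⟩ := facetNormal_image T hn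
  refine ⟨T, R.image T, mem_facets.2 (isFacet_image T (mem_facets.1 hR)), ?_, ?_⟩
  · rwa [Finset.card_image_of_injective _ T.injective]
  · rintro ⟨m, e, hm, hm0⟩
    have hcard' : 3 ≤ (R.image T).card := by
      rw [Finset.card_image_of_injective _ T.injective]
      exact hcard
    obtain ⟨κ, _, hκ, _⟩ := facetNormal_unique (convexPos_image T hc) (spans_image T hs) hcard'
      (Finset.image_subset_image hsub) hn' hm
    apply hm0
    have h1 : n' 0 = 0 := by
      have := hdot v
      rw [hTv, dot_single, mul_one, hnv] at this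
      exact this
    rw [hκ]
    simp [h1]

end Vale.Agent.Lib.P248G
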