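import Vale.Agent.Lib.P248G.Shadow
import Vale.Agent.Lib.P248G.Dual
import Vale.Agent.Lib.P248G.Cplx
import Vale.Agent.Lib.P248G.Transport
import Vale.Agent.Lib.P248G.Tetra
import Vale.Agent.Lib.P248G.Approx

/-!
# P248: assembly. General Mahler inequality in dimension 3.
-/

open MeasureTheory Set Matrix
open scoped Classical

noncomputable section

namespace Vale.Agent.Lib.P248G

variable {X : Finset E3}

lemma shK_lift (X : Finset E3) (r : X → ℝ) :
    shK (fun x : X => base (x : E3)) r = liftK X r := rfl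

lemma cx_vert_lift (X : Finset E3) (r : X → ℝ) : cx (vert (liftS X r)) = liftK X r := by
  unfold cx
  rw [convexHull_vert, coe_liftS]
  rfl

/-- The descent step when a nontrivial move exists in the coordinates of `X`. -/
theorem descent_core (hc : ConvexPos X) (hs : Spans X) (h5 : 5 ≤ X.card)
    (hf : X.card ≤ (facets X).card)
    (hv : (∀ R ∈ facets X, R.card = 3) ∨ ∃ R ∈ facets X, 4 ≤ R.card ∧ ¬ Nonvert X R)
    {z : E3} (hz : z ∈ interior (cx X)) :
    ∃ X₁ : Finset E3, ConvexPos X₁ ∧ Spans X₁ ∧ cplx X₁ < cplx X ∧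
      ∃ z₁ ∈ interior (cx X₁), volProd (cx X₁) z₁ ≤ volProd (cx X) z := by
  obtain ⟨α, hα, hα'⟩ := exists_alpha hc hs h5 hf hv
  obtain ⟨r1, r2, havg, hC1, hC2, hn1, hn2, ht1, ht2⟩ := exists_ends hc hs hα hα'
  have hne : Nonempty X := by
    have : 0 < X.card := by omega
    obtain ⟨x, hx⟩ := Finset.card_pos.mp this
    exact ⟨⟨x, hx⟩⟩
  have hmid : mid r1 r2 = fun x : X => (x : E3) 0 := by
    funext x
    exact havg x
  have hKmid : shK (fun x : X => base (x : E3)) (mid r1 r2) = cx X := by
    rw [hmid, shK_lift, liftK_height]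
  have hi1 := spans_of_not_baseAff hs hn1
  have hi2 := spans_of_not_baseAff hs hn2
  have hfib : ∀ y p₁ p₂, mk p₁ y ∈ shK (fun x : X => base (x : E3)) r1 →
      mk p₂ y ∈ shK (fun x : X => base (x : E3)) r2 →
      mk ((p₁ + p₂) / 2) y ∈ shK (fun x : X => base (x : E3)) (mid r1 r2) := by
    intro y p₁ p₂ h₁ h₂
    rw [hKmid]
    exact fiber_mid hc hs havg hC1 hC2 h₁ h₂
  obtain ⟨z₁, hz₁, z₂, hz₂, hmin⟩ := shadow_ineq (fun x : X => base (x : E3)) r1 r2 hi1 hi2 hfib
    (z := z) (by rw [hKmid]; exact hz)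
  rw [hKmid, shK_lift, shK_lift] at hmin
  rcases min_le_iff.mp hmin with h | h
  · refine ⟨vert (liftS X r1), convexPos_vert _, ?_, cplx_decrease hc hs hC1 hn1 ht1, z₁, ?_, ?_⟩
    · unfold Spans
      rw [cx_vert_lift]
      exact hi1
    · rw [cx_vert_lift]
      exact hz₁
    · rw [cx_vert_lift]
      exact h
  · refine ⟨vert (liftS X r2), convexPos_vert _, ?_, cplx_decrease hc hs hC2 hn2 ht2, z₂, ?_, ?_⟩
    · unfold Spans
      rw [cx_vert_lift]
      exact hi2
    · rw [cx_vert_lift]
      exact hz₂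
    · rw [cx_vert_lift]
      exact h

/-- The descent step. -/
theorem descent_step (hc : ConvexPos X) (hs : Spans X) (h5 : 5 ≤ X.card)
    (hf : X.card ≤ (facets X).card) {z : E3} (hz : z ∈ interior (cx X)) :
    ∃ X₁ : Finset E3, ConvexPos X₁ ∧ Spans X₁ ∧ cplx X₁ < cplx X ∧
      ∃ z₁ ∈ interior (cx X₁), volProd (cx X₁) z₁ ≤ volProd (cx X) z := by
  by_cases htri : ∀ R ∈ facets X, R.card = 3
  · exact descent_core hc hs h5 hf (Or.inl htri) hz
  · push Not at htri
    obtain ⟨R, hR, hne⟩ := htri
    have h3 : 3 ≤ R.card := (mem_facets.mp hR).2.1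
    have h4 : 4 ≤ R.card := by omega
    obtain ⟨T, R', hR', h4', hNV⟩ := exists_vertical hc hs hR h4
    have hTinj : Function.Injective T := T.injective
    have hcardX : (X.image T).card = X.card := Finset.card_image_of_injective _ hTinj
    have hcardF : (facets (X.image T)).card = (facets X).card := by
      have := cplx_image T X
      unfold cplx at this
      omega
    obtain ⟨X₁, h1, h2, h3', z₁, hz₁, hle⟩ := descent_core (convexPos_image T hc) (spans_image T hs)
      (by omega) (by omega) (Or.inr ⟨R', hR', h4', hNV⟩) (interior_image T hz)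
    refine ⟨X₁, h1, h2, by rwa [cplx_image] at h3', z₁, hz₁, ?_⟩
    rw [cx_image, volProd_image] at hle
    exact hle

/-- The bound for polytopes in convex position, by strong induction on the complexity. -/
theorem polytope_bound : ∀ (m : ℕ) (X : Finset E3), cplx X ≤ m → ConvexPos X → Spans X →
    ∀ z ∈ interior (cx X), 64 / 9 ≤ volProd (cx X) z := by
  intro m
  induction m with
  | zero =>
    intro X hm hc hs z hz
    by_cases h4 : X.card ≤ 4
    · exact tetra_bound hc hs h4 hz
    · unfold cplx at hm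
      omega
  | succ m ih =>
    intro X hm hc hs z hz
    by_cases h4 : X.card ≤ 4
    · exact tetra_bound hc hs h4 hz
    by_cases hf : X.card ≤ (facets X).card
    · obtain ⟨X₁, h1, h2, h3, z₁, hz₁, hle⟩ := descent_step hc hs (by omega) hf hz
      exact le_trans (ih X₁ (by omega) h1 h2 z₁ hz₁) hle
    · obtain ⟨N, hNc, hNs, hNcard, hNf, hN0, hNv⟩ := dual_exists hc hs hz
      rw [← hNv]
      by_cases h4' : N.card ≤ 4
      · exact tetra_bound hNc hNs h4' hN0
      · obtain ⟨X₁, h1, h2, h3, z₁, hz₁, hle⟩ :=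
          descent_step hNc hNs (by omega) (by omega) hN0
        have hcp : cplx N = cplx X := by
          unfold cplx
          omega
        exact le_trans (ih X₁ (by omega) h1 h2 z₁ hz₁) hle

/-- **The general Mahler inequality in dimension 3.** -/
theorem mahler_three {K : Set E3} (hK : IsCompact K) (hconv : Convex ℝ K) {z : E3}
    (hz : z ∈ interior K) : 64 / 9 ≤ volProd K z :=
  volProd_body (by norm_num) (fun X hc hs z hz => polytope_bound _ X le_rfl hc hs z hz) hK hconv hz

end Vale.Agent.Lib.P248G
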