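import Vale.Agent.Lib.P248G.Euler

/-!
# P248, JOB P3: the space of height moves keeping the combinatorial type, dimension count.
-/

open MeasureTheory Set Matrix
open scoped Classical

noncomputable section

namespace Vale.Agent.Lib.P248G

variable {X : Finset E3}

/-- A facet which is not parallel to the height axis. -/
def Nonvert (X R : Finset E3) : Prop := ∃ n d, FacetNormal X R n d ∧ n 0 ≠ 0

/-- Height functions that are affine in the base coordinates on each nonvertical facet. -/
def W (X : Finset E3) : Submodule ℝ (X → ℝ) where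
  carrier := {β | ∀ R ∈ facets X, Nonvert X R →
    ∃ (w : E2) (e : ℝ), ∀ x : X, (x : E3) ∈ R → β x = w ⬝ᵥ base (x : E3) + e}
  add_mem' := by
    intro a b ha hb R hR hN
    obtain ⟨w, e, h⟩ := ha R hR hN
    obtain ⟨w', e', h'⟩ := hb R hR hN
    refine ⟨w + w', e + e', fun x hx => ?_⟩
    simp only [Pi.add_apply, h x hx, h' x hx, add_dotProduct]
    ring
  zero_mem' := by
    intro R _ _
    exact ⟨0, 0, fun x _ => by simp⟩
  smul_mem' := by
    intro c a ha R hR hN
    obtain ⟨w, e, h⟩ := ha R hR hN
    refine ⟨c • w, c * e, fun x hx => ?_⟩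
    simp only [Pi.smul_apply, h x hx, smul_dotProduct, smul_eq_mul]
    ring

/-- Restrictions to `X` of affine functions of `E3`. -/
def Aff3 (X : Finset E3) (α : X → ℝ) : Prop := ∃ (a : E3) (e : ℝ), ∀ x : X, α x = a ⬝ᵥ (x : E3) + e

/-- A nonvertical facet has three points whose bases are not collinear; in other words no nonzero
affine function on the base vanishes on all points of `R`.
(Three distinct points of `R` are not collinear by `not_collinear_of_convexPos`; they lie on a plane
`n ⬝ᵥ x = d` with `n 0 ≠ 0` on which the height is an affine function of the base.) -/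
lemma base_independent (hc : ConvexPos X) {R : Finset E3} (hR : R ∈ facets X) (hN : Nonvert X R)
    {w : E2} {e : ℝ} (h : ∀ x ∈ R, w ⬝ᵥ base x + e = 0) : w = 0 ∧ e = 0 := by
  obtain ⟨hRX, h3, -⟩ := mem_facets.1 hR
  obtain ⟨n, d, hF, hn0⟩ := hN
  obtain ⟨p, q, r, hp, hq, hr, hpq, hpr, hqr⟩ := Finset.two_lt_card_iff.1 (by omega : 2 < R.card)
  have hcol := not_collinear_of_convexPos hc (hRX hp) (hRX hq) (hRX hr) hpq hpr hqr
  by_cases hw : w = 0
  · subst hw
    have := h p hp
    simp only [zero_dotProduct, zero_add] at this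
    exact ⟨rfl, this⟩
  exfalso
  apply hcol
  have hFt : ∀ x ∈ R, n ⬝ᵥ x = d := fun x hx => (hF.2.2 x (hRX hx)).2 hx
  have e1 := h p hp
  have e2 := h q hq
  have e3 := h r hr
  have f1 := hFt p hp
  have f2 := hFt q hq
  have f3 := hFt r hr
  simp only [dotProduct, Fin.sum_univ_succ, Fin.sum_univ_zero, base, Fin.tail, Fin.succ_zero_eq_one,
    Fin.succ_one_eq_two, add_zero] at e1 e2 e3 f1 f2 f3
  have hw' : w 0 ≠ 0 ∨ w 1 ≠ 0 := by
    by_contra hcon
    push Not at hcon
    apply hw
    ext i
    fin_cases i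
    · exact hcon.1
    · exact hcon.2
  -- the difference vectors
  set u0 := q 0 - p 0 with hu0
  set u1 := q 1 - p 1 with hu1
  set u2 := q 2 - p 2 with hu2
  set t0 := r 0 - p 0 with ht0
  set t1 := r 1 - p 1 with ht1
  set t2 := r 2 - p 2 with ht2
  have E1 : w 0 * u1 + w 1 * u2 = 0 := by
    simp only [hu1, hu2]
    linarith
  have E2 : w 0 * t1 + w 1 * t2 = 0 := by
    simp only [ht1, ht2]
    linarith
  have E3' : n 0 * u0 + n 1 * u1 + n 2 * u2 = 0 := by
    simp only [hu0, hu1, hu2]
    linarith
  have E4 : n 0 * t0 + n 1 * t1 + n 2 * t2 = 0 := by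
    simp only [ht0, ht1, ht2]
    linarith
  have hdet : u1 * t2 - u2 * t1 = 0 := by
    rcases hw' with h0 | h1
    · apply mul_left_cancel₀ h0
      have : w 0 * (u1 * t2 - u2 * t1) = t2 * (w 0 * u1 + w 1 * u2) - u2 * (w 0 * t1 + w 1 * t2) := by ring
      rw [this, E1, E2]; ring
    · apply mul_left_cancel₀ h1
      have : w 1 * (u1 * t2 - u2 * t1) = -(t1 * (w 0 * u1 + w 1 * u2)) + u1 * (w 0 * t1 + w 1 * t2) := by ring
      rw [this, E1, E2]; ring
  have hu : u1 ≠ 0 ∨ u2 ≠ 0 := by
    by_contra hcon
    push Not at hcon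
    apply hpq
    have hu00 : u0 = 0 := by
      have : n 0 * u0 = 0 := by
        rw [hcon.1, hcon.2] at E3'
        linarith
      exact (mul_eq_zero.1 this).resolve_left hn0
    ext i
    fin_cases i
    · simp only [hu0] at hu00; simp; linarith
    · have := hcon.1; simp only [hu1] at this; simp; linarith
    · have := hcon.2; simp only [hu2] at this; simp; linarith
  have key : ∃ c : ℝ, t0 = c * u0 ∧ t1 = c * u1 ∧ t2 = c * u2 := by
    have fin : ∀ c : ℝ, t1 = c * u1 → t2 = c * u2 → ∃ c : ℝ, t0 = c * u0 ∧ t1 = c * u1 ∧ t2 = c * u2 := by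
      intro c h1 h2
      refine ⟨c, ?_, h1, h2⟩
      apply mul_left_cancel₀ hn0
      have : n 0 * t0 = - (n 1 * t1 + n 2 * t2) := by linarith
      rw [this, h1, h2]
      have : n 0 * u0 = - (n 1 * u1 + n 2 * u2) := by linarith
      calc -(n 1 * (c * u1) + n 2 * (c * u2)) = c * (-(n 1 * u1 + n 2 * u2)) := by ring
        _ = c * (n 0 * u0) := by rw [this]
        _ = n 0 * (c * u0) := by ring
    rcases hu with h1 | h2
    · refine fin (t1 / u1) (by field_simp) ?_
      field_simp
      linarith
    · refine fin (t2 / u2) ?_ (by field_simp)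
      field_simp
      linarith
  obtain ⟨c, hc0, hc1, hc2⟩ := key
  rw [collinear_iff_of_mem (p₀ := p) (by simp)]
  refine ⟨q - p, ?_⟩
  intro y hy
  simp only [Set.mem_insert_iff, Set.mem_singleton_iff] at hy
  rcases hy with rfl | rfl | rfl
  · exact ⟨0, by simp⟩
  · exact ⟨1, by simp⟩
  · refine ⟨c, ?_⟩
    ext i
    fin_cases i
    · simp only [hu0, ht0] at hc0
      simp [vadd_eq_add]
      linarith
    · simp only [hu1, ht1] at hc1
      simp [vadd_eq_add]
      linarith
    · simp only [hu2, ht2] at hc2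
      simp [vadd_eq_add]
      linarith

/-- Affine functions of the base, restricted to `R`. -/
def affR (R : Finset E3) : (E2 × ℝ) →ₗ[ℝ] (R → ℝ) where
  toFun p x := p.1 ⬝ᵥ base (x : E3) + p.2
  map_add' a b := by
    ext x
    simp only [Prod.fst_add, Prod.snd_add, add_dotProduct, Pi.add_apply]
    ring
  map_smul' c a := by
    ext x
    simp only [Prod.smul_fst, Prod.smul_snd, smul_dotProduct, Pi.smul_apply, smul_eq_mul,
      RingHom.id_apply]
    ring

/-- Restriction of a function on `X` to the points of `R`. -/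
def resR (X R : Finset E3) : (X → ℝ) →ₗ[ℝ] (R → ℝ) where
  toFun β x := if h : (x : E3) ∈ X then β ⟨x, h⟩ else 0
  map_add' a b := by
    ext x
    by_cases h : (x : E3) ∈ X <;> simp [h]
  map_smul' c a := by
    ext x
    by_cases h : (x : E3) ∈ X <;> simp [h]

lemma finrank_affR (hc : ConvexPos X) {R : Finset E3} (hR : R ∈ facets X) (hN : Nonvert X R) :
    Module.finrank ℝ (LinearMap.range (affR R)) = 3 := by
  have hinj : Function.Injective (affR R) := by
    rw [← LinearMap.ker_eq_bot, LinearMap.ker_eq_bot']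
    intro p hp
    have : ∀ x ∈ R, p.1 ⬝ᵥ base x + p.2 = 0 := by
      intro x hx
      exact congrFun hp ⟨x, hx⟩
    obtain ⟨h1, h2⟩ := base_independent hc hR hN this
    exact Prod.ext h1 h2
  rw [LinearMap.finrank_range_of_inj hinj]
  simp

/-- Dimension count: `W X` is the kernel of the linear map
`(X → ℝ) → ∏_R (R → ℝ) ⧸ A_R` where `A_R` is the 3 dimensional space of restrictions to `R` of
affine functions of the base (dimension 3 by `base_independent`). Each factor has dimension `|R| - 3`.
Rank-nullity. -/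
lemma finrank_W (hc : ConvexPos X) :
    X.card ≤ Module.finrank ℝ (W X) + ∑ R ∈ (facets X).filter (Nonvert X), (R.card - 3) := by
  classical
  set S := (facets X).filter (Nonvert X) with hS
  let T : (R : S) → Submodule ℝ (↥R.1 → ℝ) := fun R => LinearMap.range (affR R.1)
  let Φ : (X → ℝ) →ₗ[ℝ] ((R : S) → ((↥R.1 → ℝ) ⧸ T R)) :=
    LinearMap.pi (fun R => (T R).mkQ ∘ₗ resR X R.1)
  have hker : LinearMap.ker Φ ≤ W X := by
    intro β hβ R hR hN
    have hmem : (⟨R, Finset.mem_filter.2 ⟨hR, hN⟩⟩ : S) ∈ (Finset.univ : Finset S) := Finset.mem_univ _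
    have h0 : Φ β (⟨R, Finset.mem_filter.2 ⟨hR, hN⟩⟩ : S) = 0 := by
      rw [LinearMap.mem_ker.1 hβ]; rfl
    have h1 : resR X R β ∈ T ⟨R, Finset.mem_filter.2 ⟨hR, hN⟩⟩ := by
      have := h0
      simp only [Φ, LinearMap.pi_apply, LinearMap.comp_apply, Submodule.mkQ_apply,
        Submodule.Quotient.mk_eq_zero] at this
      exact this
    obtain ⟨p, hp⟩ := h1
    refine ⟨p.1, p.2, fun x hx => ?_⟩
    have := congrFun hp ⟨x, hx⟩
    simp only [affR, resR, LinearMap.coe_mk, AddHom.coe_mk, x.2, dif_pos] at this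
    exact this.symm
  have hrn := LinearMap.finrank_range_add_finrank_ker Φ
  have hdom : Module.finrank ℝ (X → ℝ) = X.card := by simp
  have htarget : Module.finrank ℝ ((R : S) → ((↥R.1 → ℝ) ⧸ T R)) = ∑ R ∈ S, (R.card - 3) := by
    rw [Module.finrank_pi_fintype, ← Finset.sum_coe_sort S]
    refine Finset.sum_congr rfl (fun R _ => ?_)
    have h1 := Submodule.finrank_quotient_add_finrank (T R)
    have h2 : Module.finrank ℝ (T R) = 3 := by
      have hR := Finset.mem_filter.1 R.2
      exact finrank_affR hc hR.1 hR.2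
    have h3 : Module.finrank ℝ (↥R.1 → ℝ) = R.1.card := by simp
    omega
  have hr := Submodule.finrank_le (LinearMap.range Φ)
  have hk := Submodule.finrank_mono hker
  rw [hdom] at hrn
  rw [htarget] at hr
  omega

/-- Affine restrictions as a linear map. -/
def affX (X : Finset E3) : (E3 × ℝ) →ₗ[ℝ] (X → ℝ) where
  toFun p x := p.1 ⬝ᵥ (x : E3) + p.2
  map_add' a b := by
    ext x
    simp only [Prod.fst_add, Prod.snd_add, add_dotProduct, Pi.add_apply]
    ring
  map_smul' c a := by
    ext x
    simp only [Prod.smul_fst, Prod.smul_snd, smul_dotProduct, Pi.smul_apply, smul_eq_mul,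
      RingHom.id_apply]
    ring

/-- **Existence of a nontrivial move.** The restrictions of affine functions form a space of
dimension at most 4, so it suffices that `5 ≤ finrank (W X)`.
Case all facets are triangles: the sum in `finrank_W` is `0`, and `5 ≤ X.card`.
Case `R₀` is vertical, `4 ≤ R₀.card`: the sum in `finrank_W` is at most
`∑_{R ≠ R₀} (|R| - 3) ≤ ∑_R (|R| - 3) - 1 = ∑_R |R| - 3 f - 1 ≤ 2 V - f - 5` by `euler_ineq`. So
`finrank (W X) ≥ V - (2 V - f - 5) = f - V + 5 ≥ 5`. -/
theorem exists_alpha (hc : ConvexPos X) (hs : Spans X) (h5 : 5 ≤ X.card)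
    (hf : X.card ≤ (facets X).card)
    (hv : (∀ R ∈ facets X, R.card = 3) ∨ ∃ R ∈ facets X, 4 ≤ R.card ∧ ¬ Nonvert X R) :
    ∃ α ∈ W X, ¬ Aff3 X α := by
  classical
  by_contra hcon
  push Not at hcon
  have hle : W X ≤ LinearMap.range (affX X) := by
    intro α hα
    obtain ⟨a, e, h⟩ := hcon α hα
    refine ⟨(a, e), ?_⟩
    ext x
    exact (h x).symm
  have h4 : Module.finrank ℝ (W X) ≤ 4 := by
    calc Module.finrank ℝ (W X) ≤ Module.finrank ℝ (LinearMap.range (affX X)) :=
          Submodule.finrank_mono hle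
      _ ≤ Module.finrank ℝ (E3 × ℝ) := LinearMap.finrank_range_le _
      _ = 4 := by simp
  have hW := finrank_W hc (X := X)
  rcases hv with hall | ⟨R₀, hR₀, h4R, hvert⟩
  · have : ∑ R ∈ (facets X).filter (Nonvert X), (R.card - 3) = 0 := by
      apply Finset.sum_eq_zero
      intro R hR
      have := hall R (Finset.mem_filter.1 hR).1
      omega
    omega
  · have he := euler_ineq hc hs
    -- sum over nonvertical facets is at most sum over facets minus the vertical one
    have h1 : ∑ R ∈ (facets X).filter (Nonvert X), (R.card - 3) + (R₀.card - 3)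
        ≤ ∑ R ∈ facets X, (R.card - 3) := by
      have hsub : insert R₀ ((facets X).filter (Nonvert X)) ⊆ facets X := by
        intro R hR
        rcases Finset.mem_insert.1 hR with rfl | hR
        · exact hR₀
        · exact (Finset.mem_filter.1 hR).1
      have hnot : R₀ ∉ (facets X).filter (Nonvert X) := fun h => hvert (Finset.mem_filter.1 h).2
      calc ∑ R ∈ (facets X).filter (Nonvert X), (R.card - 3) + (R₀.card - 3)
          = ∑ R ∈ insert R₀ ((facets X).filter (Nonvert X)), (R.card - 3) := by
            rw [Finset.sum_insert hnot, add_comm]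
        _ ≤ ∑ R ∈ facets X, (R.card - 3) :=
            Finset.sum_le_sum_of_subset hsub
    have h2 : ∑ R ∈ facets X, (R.card - 3) + 3 * (facets X).card = ∑ R ∈ facets X, R.card := by
      have : 3 * (facets X).card = ∑ _R ∈ facets X, 3 := by
        simp [mul_comm]
      rw [this, ← Finset.sum_add_distrib]
      refine Finset.sum_congr rfl (fun R hR => ?_)
      have := (mem_facets.1 hR).2.1
      omega
    omega

end Vale.Agent.Lib.P248G
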