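import Vale.Agent.Lib.P248G.Defs

/-!
# P248, JOB P1: basic polytope facts. Extreme points, vertex sets, facet normals, H-description.

All statements are for finite `X ⊆ E3`, and the hull `cx X`.
-/

open MeasureTheory Set Matrix
open scoped Classical

noncomputable section

namespace Vale.Agent.Lib.P248G

variable {X : Finset E3}

/-- Half spaces defined by the dot product are convex. -/
lemma convex_dot_le (n : E3) (c : ℝ) : Convex ℝ {x : E3 | n ⬝ᵥ x ≤ c} := by
  intro a ha b hb s t hs ht hst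
  simp only [mem_ofPred_eq] at *
  rw [dotProduct_add, dotProduct_smul, dotProduct_smul, smul_eq_mul, smul_eq_mul]
  have h1 : s * (n ⬝ᵥ a) ≤ s * c := mul_le_mul_of_nonneg_left ha hs
  have h2 : t * (n ⬝ᵥ b) ≤ t * c := mul_le_mul_of_nonneg_left hb ht
  calc s * (n ⬝ᵥ a) + t * (n ⬝ᵥ b) ≤ s * c + t * c := add_le_add h1 h2
    _ = (s + t) * c := by ring
    _ = c := by rw [hst, one_mul]

/-- `polarAt` of a hull only depends on the generating points. -/
lemma polarAt_convexHull (S : Set E3) (z : E3) : polarAt (convexHull ℝ S) z = polarAt S z := by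
  ext y
  constructor
  · intro hy x hx
    exact hy x (subset_convexHull ℝ S hx)
  · intro hy x hx
    have hsub : convexHull ℝ S ⊆ {x : E3 | y ⬝ᵥ x ≤ 1 + y ⬝ᵥ z} := by
      refine convexHull_min ?_ (convex_dot_le y _)
      intro a ha
      have := hy a ha
      rw [dotProduct_sub] at this
      simp only [mem_ofPred_eq]
      linarith
    have := hsub hx
    simp only [mem_ofPred_eq] at this
    rw [dotProduct_sub]
    linarith

/-- `cx X` is compact and convex. -/
lemma isCompact_cx (X : Finset E3) : IsCompact (cx X) :=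
  X.finite_toSet.isCompact_convexHull (𝕜 := ℝ)

lemma convex_cx (X : Finset E3) : Convex ℝ (cx X) := convex_convexHull ℝ _

/-- Extreme points of the hull of `S` lie in `vert S`. -/
lemma extremePoints_subset_vert (S : Finset E3) :
    (convexHull ℝ (S : Set E3)).extremePoints ℝ ⊆ (vert S : Set E3) := by
  intro x hx
  have hxS : x ∈ (S : Set E3) := extremePoints_convexHull_subset hx
  have h2 := ((convex_convexHull ℝ (S : Set E3)).mem_extremePoints_iff_mem_sdiff_convexHull_sdiff).1 hx
  simp only [vert, Finset.coe_filter, mem_ofPred_eq]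
  refine ⟨hxS, fun hmem => h2.2 ?_⟩
  refine convexHull_mono ?_ hmem
  intro a ha
  exact ⟨subset_convexHull ℝ _ ha.1, ha.2⟩

/-- Vertex set: the extreme points of a hull of a finite set `S` are exactly the points not in the
hull of the others, and the hull is the hull of these (Krein-Milman
`closure_convexHull_extremePoints` and `extremePoints_convexHull_subset`). -/
lemma convexHull_vert (S : Finset E3) :
    convexHull ℝ (vert S : Set E3) = convexHull ℝ (S : Set E3) := by
  apply le_antisymm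
  · exact convexHull_mono (by exact_mod_cast Finset.filter_subset _ _)
  · have hK : IsCompact (convexHull ℝ (S : Set E3)) := isCompact_cx S
    have hkm := closure_convexHull_extremePoints hK (convex_convexHull ℝ _)
    rw [← hkm]
    have hcl : IsClosed (convexHull ℝ (vert S : Set E3)) :=
      (isCompact_cx (vert S)).isClosed
    exact closure_minimal (convexHull_mono (extremePoints_subset_vert S)) hcl

lemma convexPos_vert (S : Finset E3) : ConvexPos (vert S) := by
  intro x hx hmem
  have hx' := (Finset.mem_filter.1 hx).2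
  refine hx' (convexHull_mono ?_ hmem)
  intro a ha
  refine ⟨?_, ha.2⟩
  exact_mod_cast (Finset.filter_subset _ _) ha.1

lemma vert_subset (S : Finset E3) : vert S ⊆ S := Finset.filter_subset _ _

/-- In convex position `vert` does nothing. -/
lemma vert_eq_of_convexPos (hc : ConvexPos X) : vert X = X :=
  Finset.filter_true_of_mem fun x hx => hc x hx

/-- For `X` in convex position the extreme points of `cx X` are the points of `X`. -/
lemma extremePoints_cx (hc : ConvexPos X) : (cx X).extremePoints ℝ = (X : Set E3) := by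
  apply Subset.antisymm extremePoints_convexHull_subset
  intro x hx
  by_contra hne
  have hsub : (cx X).extremePoints ℝ ⊆ (X : Set E3) \ {x} := by
    intro a ha
    refine ⟨extremePoints_convexHull_subset ha, ?_⟩
    rintro rfl
    exact hne ha
  have hK : IsCompact (cx X) := isCompact_cx X
  have hkm := closure_convexHull_extremePoints hK (convex_cx X)
  have hcl : IsClosed (convexHull ℝ ((X : Set E3) \ {x})) :=
    ((X.finite_toSet.subset sdiff_subset).isCompact_convexHull (𝕜 := ℝ)).isClosed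
  have h3 : cx X ⊆ convexHull ℝ ((X : Set E3) \ {x}) := by
    rw [← hkm]
    exact closure_minimal (convexHull_mono hsub) hcl
  exact hc x hx (h3 (subset_convexHull ℝ _ hx))

/-- Three distinct points of a set in convex position are not collinear. -/
lemma not_collinear_of_convexPos (hc : ConvexPos X) {p q r : E3} (hp : p ∈ X) (hq : q ∈ X)
    (hr : r ∈ X) (hpq : p ≠ q) (hpr : p ≠ r) (hqr : q ≠ r) :
    ¬ Collinear ℝ ({p, q, r} : Set E3) := by
  intro hcol
  have key : ∀ {a b c : E3}, a ∈ X → b ∈ X → c ∈ X → a ≠ b → b ≠ c → Wbtw ℝ a b c → False := by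
    intro a b c ha hb hc' hab hbc hw
    refine hc b hb ?_
    have hseg : b ∈ segment ℝ a c := mem_segment_iff_wbtw.2 hw
    have hsub : segment ℝ a c ⊆ convexHull ℝ ((X : Set E3) \ {b}) :=
      segment_subset_convexHull ⟨ha, hab⟩ ⟨hc', hbc.symm⟩
    exact hsub hseg
  rcases hcol.wbtw_or_wbtw_or_wbtw with h | h | h
  · exact key hp hq hr hpq hqr h
  · exact key hq hr hp hqr hpr.symm h
  · exact key hr hp hq hpr.symm hpq h

/-- A linear functional on `E3` is a dot product. -/
lemma exists_dot_of_linear (f : E3 →ₗ[ℝ] ℝ) : ∃ n : E3, ∀ x, f x = n ⬝ᵥ x := by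
  refine ⟨fun i => f (Pi.single i 1), fun x => ?_⟩
  have h := LinearMap.pi_apply_eq_sum_univ f x
  rw [h]
  simp only [dotProduct, smul_eq_mul]
  refine Finset.sum_congr rfl fun i _ => ?_
  have : (fun j => if i = j then (1:ℝ) else 0) = Pi.single i 1 := by
    ext j
    simp [Pi.single_apply, eq_comm]
  rw [this]
  ring

/-- A proper subspace of `E3` is annihilated by a nonzero dot product. -/
lemma exists_normal_of_ne_top {W : Submodule ℝ E3} (hW : W ≠ ⊤) :
    ∃ n : E3, n ≠ 0 ∧ ∀ x ∈ W, n ⬝ᵥ x = 0 := by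
  obtain ⟨f, hf, hle⟩ := W.exists_le_ker_of_lt_top (lt_top_iff_ne_top.2 hW)
  obtain ⟨n, hn⟩ := exists_dot_of_linear f
  refine ⟨n, ?_, fun x hx => ?_⟩
  · rintro rfl
    apply hf
    refine LinearMap.ext fun x => ?_
    simpa using hn x
  · rw [← hn]
    exact hle hx

/-- If `K` has nonempty interior no nonzero functional is constant on the generating points. Both
directions of this are useful; `interior_convexHull_nonempty_iff_affineSpan_eq_top`. -/
lemma spans_iff_no_plane :
    Spans X ↔ ¬ ∃ (n : E3) (d : ℝ), n ≠ 0 ∧ ∀ x ∈ X, n ⬝ᵥ x = d := by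
  constructor
  · rintro ⟨p, hp⟩ ⟨n, d, hn, hX⟩
    -- the hull is in the plane
    have h1 : cx X ⊆ {x : E3 | n ⬝ᵥ x ≤ d} :=
      convexHull_min (fun a ha => (hX a ha).le) (convex_dot_le n d)
    have h2 : cx X ⊆ {x : E3 | (-n) ⬝ᵥ x ≤ -d} :=
      convexHull_min (fun a ha => by
        simp only [mem_ofPred_eq, neg_dotProduct, hX a ha]; exact le_refl _) (convex_dot_le (-n) (-d))
    have h3 : ∀ x ∈ cx X, n ⬝ᵥ x = d := fun x hx => by
      have a1 := h1 hx
      have a2 := h2 hx
      simp only [mem_ofPred_eq, neg_dotProduct] at a1 a2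
      linarith
    have hpd : n ⬝ᵥ p = d := h3 p (interior_subset hp)
    -- move along `n`
    have hnhd : interior (cx X) ∈ nhds p := isOpen_interior.mem_nhds hp
    have hcont : Filter.Tendsto (fun t : ℝ => p + t • n) (nhds 0) (nhds p) := by
      have : Continuous fun t : ℝ => p + t • n := by fun_prop
      simpa using this.tendsto 0
    have hev := hcont hnhd
    have hpos : ∀ᶠ t : ℝ in nhdsWithin 0 (Set.Ioi 0), t ∈ (fun t : ℝ => p + t • n) ⁻¹' interior (cx X) :=
      nhdsWithin_le_nhds hev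
    obtain ⟨t, ht, ht0⟩ := (hpos.and self_mem_nhdsWithin).exists
    have h4 := h3 _ (interior_subset ht)
    rw [dotProduct_add, dotProduct_smul, hpd, smul_eq_mul] at h4
    have h5 : n ⬝ᵥ n = 0 := by
      have ht0' : t ≠ 0 := (Set.mem_Ioi.1 ht0).ne'
      have : t * (n ⬝ᵥ n) = 0 := by linarith
      exact (mul_eq_zero.1 this).resolve_left ht0'
    exact hn (dotProduct_self_eq_zero.1 h5)
  · intro h
    by_contra hns
    apply h
    by_cases hne : (X : Set E3).Nonempty
    · have hnt : affineSpan ℝ (X : Set E3) ≠ ⊤ := by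
        intro htop
        exact hns (interior_convexHull_nonempty_iff_affineSpan_eq_top.2 htop)
      have hv : vectorSpan ℝ (X : Set E3) ≠ ⊤ := by
        intro htop
        exact hnt ((AffineSubspace.affineSpan_eq_top_iff_vectorSpan_eq_top_of_nonempty ℝ E3 E3 hne).2 htop)
      obtain ⟨n, hn, hvan⟩ := exists_normal_of_ne_top hv
      obtain ⟨x0, hx0⟩ := hne
      refine ⟨n, n ⬝ᵥ x0, hn, fun x hx => ?_⟩
      have := hvan (x - x0) (vsub_mem_vectorSpan ℝ hx hx0)
      rw [dotProduct_sub] at this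
      linarith
    · refine ⟨Pi.single 0 1, 0, ?_, fun x hx => (hne ⟨x, hx⟩).elim⟩
      intro h0
      have := congrFun h0 0
      simp at this

/-- Three vectors: if two are independent and annihilated by `n` while `n ⬝ᵥ b ≠ 0`, they span. -/
lemma eq_zero_of_dot_eq_zero {u v b n m : E3} (huv : LinearIndependent ℝ ![u, v])
    (hnu : n ⬝ᵥ u = 0) (hnv : n ⬝ᵥ v = 0) (hnb : n ⬝ᵥ b ≠ 0)
    (hmu : m ⬝ᵥ u = 0) (hmv : m ⬝ᵥ v = 0) (hmb : m ⬝ᵥ b = 0) : m = 0 := by
  have hpair := LinearIndependent.pair_iff.1 huv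
  have hli : LinearIndependent ℝ ![u, v, b] := by
    rw [Fintype.linearIndependent_iff]
    intro g hg
    rw [Fin.sum_univ_three] at hg
    simp only [Matrix.cons_val_zero, Matrix.cons_val_one, Matrix.cons_val] at hg
    have h1 : g 2 * (n ⬝ᵥ b) = 0 := by
      have := congrArg (fun y => n ⬝ᵥ y) hg
      simp only [dotProduct_add, dotProduct_smul, hnu, hnv, smul_eq_mul, dotProduct_zero] at this
      linarith
    have h2 : g 2 = 0 := (mul_eq_zero.1 h1).resolve_right hnb
    rw [h2, zero_smul, add_zero] at hg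
    obtain ⟨h3, h4⟩ := hpair _ _ hg
    intro i
    fin_cases i
    · exact h3
    · exact h4
    · exact h2
  have hspan := hli.span_eq_top_of_card_eq_finrank' (by simp)
  have hall : ∀ x ∈ Submodule.span ℝ (Set.range ![u, v, b]), m ⬝ᵥ x = 0 := by
    intro x hx
    induction hx using Submodule.span_induction with
    | mem x hx =>
      obtain ⟨i, rfl⟩ := hx
      fin_cases i
      · exact hmu
      · exact hmv
      · exact hmb
    | zero => simp
    | add x y _ _ hx hy => rw [dotProduct_add, hx, hy, add_zero]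
    | smul a x _ hx => rw [dotProduct_smul, hx, smul_zero]
  have hm : m ⬝ᵥ m = 0 := hall m (by rw [hspan]; trivial)
  exact dotProduct_self_eq_zero.1 hm

/-- Normals of a facet are unique up to positive scaling: the two affine functionals `n ⬝ᵥ x - d`,
`n' ⬝ᵥ x - d'` vanish on three non collinear points, so they are proportional; `Spans` and the
supporting property make the factor positive. -/
lemma facetNormal_unique (hc : ConvexPos X) (hs : Spans X) {R : Finset E3} (hR : 3 ≤ R.card)
    (hRX : R ⊆ X) {n n' : E3} {d d' : ℝ} (h : FacetNormal X R n d) (h' : FacetNormal X R n' d') :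
    ∃ κ : ℝ, 0 < κ ∧ n' = κ • n ∧ d' = κ * d := by
  obtain ⟨p, q, r, hp, hq, hr, hpq, hpr, hqr⟩ : ∃ p q r, p ∈ R ∧ q ∈ R ∧ r ∈ R ∧ p ≠ q ∧ p ≠ r ∧ q ≠ r := by
    obtain ⟨a, ha, b, hb, c, hc, hab, hac, hbc⟩ := Finset.two_lt_card.1 (by omega : 2 < R.card)
    exact ⟨a, b, c, ha, hb, hc, hab, hac, hbc⟩
  obtain ⟨hn0, hle, hiff⟩ := h
  obtain ⟨hn0', hle', hiff'⟩ := h'
  have hncol := not_collinear_of_convexPos hc (hRX hp) (hRX hq) (hRX hr) hpq hpr hqr
  have hai := affineIndependent_iff_not_collinear_set.2 hncol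
  have huv : LinearIndependent ℝ ![q - p, r - p] := by
    rw [affineIndependent_iff_linearIndependent_vsub ℝ _ (0 : Fin 3)] at hai
    let e : Fin 2 ≃ {x : Fin 3 // x ≠ 0} :=
      { toFun := fun i => ⟨i.succ, Fin.succ_ne_zero i⟩
        invFun := fun x => x.1.pred x.2
        left_inv := fun i => by simp
        right_inv := fun x => by simp }
    have hcomp := hai.comp e e.injective
    have e2 : ![q - p, r - p] = ((fun i : {x : Fin 3 // x ≠ 0} => ![p, q, r] i -ᵥ ![p, q, r] 0) ∘ e) := by
      funext i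
      fin_cases i <;> simp [e]
    rw [e2]
    exact hcomp
  -- a point off the plane
  have hex : ∃ x0 ∈ X, n ⬝ᵥ x0 ≠ d := by
    by_contra hall
    push Not at hall
    exact spans_iff_no_plane.1 hs ⟨n, d, hn0, hall⟩
  obtain ⟨x0, hx0, hx0d⟩ := hex
  have hx0R : x0 ∉ R := fun hm => hx0d ((hiff x0 hx0).2 hm)
  have hx0d' : n' ⬝ᵥ x0 ≠ d' := fun he => hx0R ((hiff' x0 hx0).1 he)
  have hlt : n ⬝ᵥ x0 < d := lt_of_le_of_ne (hle x0 hx0) hx0d
  have hlt' : n' ⬝ᵥ x0 < d' := lt_of_le_of_ne (hle' x0 hx0) hx0d'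
  have hpd := (hiff p (hRX hp)).2 hp
  have hqd := (hiff q (hRX hq)).2 hq
  have hrd := (hiff r (hRX hr)).2 hr
  have hpd' := (hiff' p (hRX hp)).2 hp
  have hqd' := (hiff' q (hRX hq)).2 hq
  have hrd' := (hiff' r (hRX hr)).2 hr
  set κ : ℝ := (d' - n' ⬝ᵥ x0) / (d - n ⬝ᵥ x0) with hκ
  have hden : 0 < d - n ⬝ᵥ x0 := by linarith
  have hκpos : 0 < κ := div_pos (by linarith) hden
  have hκeq : κ * (d - n ⬝ᵥ x0) = d' - n' ⬝ᵥ x0 := by
    rw [hκ]; field_simp
  have hm : n' - κ • n = 0 := by
    apply eq_zero_of_dot_eq_zero (u := q - p) (v := r - p) (b := x0 - p) (n := n) huv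
    · rw [dotProduct_sub, hqd, hpd, sub_self]
    · rw [dotProduct_sub, hrd, hpd, sub_self]
    · rw [dotProduct_sub, hpd]; linarith
    · simp only [sub_dotProduct, dotProduct_sub, smul_dotProduct, hqd, hpd, hqd', hpd', smul_eq_mul]
      ring
    · simp only [sub_dotProduct, dotProduct_sub, smul_dotProduct, hrd, hpd, hrd', hpd', smul_eq_mul]
      ring
    · simp only [sub_dotProduct, dotProduct_sub, smul_dotProduct, hpd, hpd', smul_eq_mul]
      linarith
  have hn'eq : n' = κ • n := sub_eq_zero.1 hm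
  refine ⟨κ, hκpos, hn'eq, ?_⟩
  rw [← hpd', hn'eq, smul_dotProduct, hpd, smul_eq_mul]

/-- Points of a hull satisfy a supporting inequality. -/
lemma FacetNormal.le {R : Finset E3} {n : E3} {d : ℝ} (h : FacetNormal X R n d) {p : E3}
    (hp : p ∈ cx X) : n ⬝ᵥ p ≤ d :=
  (convexHull_min (fun a ha => h.2.1 a ha) (convex_dot_le n d) :
    cx X ⊆ {x : E3 | n ⬝ᵥ x ≤ d}) hp

/-- A point of the hull on a supporting plane lies in the hull of the tight vertices. -/
lemma FacetNormal.mem_convexHull {R : Finset E3} {n : E3} {d : ℝ} (h : FacetNormal X R n d) {p : E3}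
    (hp : p ∈ cx X) (hp' : n ⬝ᵥ p = d) : p ∈ convexHull ℝ (R : Set E3) := by
  obtain ⟨hn0, hle, hiff⟩ := h
  obtain ⟨w, hw0, hw1, hwp⟩ := Finset.mem_convexHull'.1 hp
  have hdot : ∑ x ∈ X, w x * (d - n ⬝ᵥ x) = 0 := by
    have h1 : n ⬝ᵥ p = ∑ x ∈ X, w x * (n ⬝ᵥ x) := by
      rw [← hwp, dotProduct_sum]
      exact Finset.sum_congr rfl fun x _ => by rw [dotProduct_smul, smul_eq_mul]
    have h2 : ∑ x ∈ X, w x * (d - n ⬝ᵥ x) = (∑ x ∈ X, w x) * d - ∑ x ∈ X, w x * (n ⬝ᵥ x) := by
      rw [Finset.sum_mul, ← Finset.sum_sub_distrib]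
      exact Finset.sum_congr rfl fun x _ => by ring
    rw [h2, hw1, ← h1, hp']
    ring
  have hzero : ∀ x ∈ X, w x * (d - n ⬝ᵥ x) = 0 :=
    (Finset.sum_eq_zero_iff_of_nonneg fun x hx =>
      mul_nonneg (hw0 x hx) (sub_nonneg.2 (hle x hx))).1 hdot
  have hw_off : ∀ x ∈ X, x ∉ R → w x = 0 := by
    intro x hx hxR
    have hne : d - n ⬝ᵥ x ≠ 0 := fun he => hxR ((hiff x hx).1 (by linarith))
    exact (mul_eq_zero.1 (hzero x hx)).resolve_right hne
  have hsub : ((X.filter (· ∈ R) : Finset E3) : Set E3) ⊆ (R : Set E3) := by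
    intro a ha
    exact (Finset.mem_filter.1 ha).2
  refine convexHull_mono hsub (Finset.mem_convexHull'.2 ⟨w, ?_, ?_, ?_⟩)
  · intro y hy
    exact hw0 y (Finset.mem_filter.1 hy).1
  · rw [Finset.sum_filter_of_ne, hw1]
    intro x hx hne
    by_contra hxR
    exact hne (hw_off x hx hxR)
  · rw [Finset.sum_filter_of_ne, hwp]
    intro x hx hne
    by_contra hxR
    exact hne (by rw [hw_off x hx hxR, zero_smul])

/-- The polar set of a point set at `z`, as points `y`, is closed. -/
lemma isClosed_polarAt (S : Set E3) (z : E3) : IsClosed (polarAt S z) := by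
  have : polarAt S z = ⋂ x ∈ S, {y : E3 | y ⬝ᵥ (x - z) ≤ 1} := by
    ext y
    simp [polarAt]
  rw [this]
  refine isClosed_biInter fun x _ => ?_
  have hc : Continuous fun y : E3 => y ⬝ᵥ (x - z) := by
    unfold dotProduct
    fun_prop
  exact isClosed_le hc continuous_const

/-- A standard basis test vector in the sup norm. -/
lemma dot_single (y : E3) (i : Fin 3) (c : ℝ) : y ⬝ᵥ (Pi.single i c : E3) = y i * c := by
  simp [dotProduct, Pi.single_apply]

/-- If `z` is interior to the hull the polar set is bounded. -/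
lemma isCompact_polarAt {z : E3} (hz : z ∈ interior (cx X)) :
    IsCompact (polarAt (X : Set E3) z) := by
  obtain ⟨δ, hδ, hball⟩ := Metric.mem_nhds_iff.1 (isOpen_interior.mem_nhds hz)
  refine Metric.isCompact_of_isClosed_isBounded (isClosed_polarAt _ _) ?_
  refine (Metric.isBounded_iff_subset_closedBall (0 : E3)).2 ⟨2 / δ, ?_⟩
  intro y hy
  rw [mem_closedBall_zero_iff, pi_norm_le_iff_of_nonneg (by positivity)]
  intro i
  have hy' : y ∈ polarAt (cx X) z := by
    unfold cx
    rw [polarAt_convexHull]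
    exact hy
  have key : ∀ c : ℝ, |c| < δ → y i * c ≤ 1 := by
    intro c hc
    have hmem : z + (Pi.single i c : E3) ∈ cx X := by
      apply interior_subset
      apply hball
      rw [Metric.mem_ball, dist_eq_norm, add_sub_cancel_left]
      refine lt_of_le_of_lt (pi_norm_le_iff_of_nonneg (abs_nonneg c)|>.2 fun j => ?_) hc
      by_cases hj : j = i
      · subst hj; simp
      · simp [hj]
    have := hy' _ hmem
    rwa [add_sub_cancel_left, dot_single] at this
  have h1 := key (δ / 2) (by rw [abs_of_pos (by positivity)]; linarith)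
  have h2 := key (-(δ / 2)) (by rw [abs_neg, abs_of_pos (by positivity)]; linarith)
  rw [Real.norm_eq_abs, abs_le]
  constructor
  · rw [neg_le_iff_add_nonneg, ← sub_nonneg]
    have : 0 ≤ (2 - y i * δ * (-1)) / δ := by
      apply div_nonneg _ hδ.le
      nlinarith
    have e : (2 - y i * δ * (-1)) / δ = y i + 2 / δ - 0 := by
      field_simp
      ring
    rw [← e]
    exact this
  · rw [le_div_iff₀ hδ]
    nlinarith

/-- **H-description.** If `p` satisfies all facet inequalities it is in the hull.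

Paper proof. Let `z` be an interior point of `cx X`, translate so that `z = 0` is interior; let
`Π = {y | ∀ x ∈ X, y ⬝ᵥ (x - z) ≤ 1}`, compact convex. Assume `p ∉ cx X`. Hahn-Banach (`0` interior)
gives `m ∈ Π` with `m ⬝ᵥ (p - z) > 1`. The maximum of `y ↦ y ⬝ᵥ (p - z)` over `Π` is attained on a
compact exposed face, which has an extreme point `n`, extreme in `Π`
(`IsCompact.extremePoints_nonempty`, `IsExtreme.trans`); `n ⬝ᵥ (p - z) > 1`. The tight set
`R = {x ∈ X | n ⬝ᵥ (x - z) = 1}` satisfies: the vectors `x - z`, `x ∈ R`, span `E3`, otherwise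
there is `v ≠ 0` orthogonal to them and `n ± ε v ∈ Π` for small `ε`, contradicting extremality. So
`R` has at least three elements, and `(n, 1 + n ⬝ᵥ z)` is a facet normal of `R`, `n ≠ 0`.
The hypothesis gives `n ⬝ᵥ p ≤ 1 + n ⬝ᵥ z`, contradiction. -/
theorem mem_cx_of_facets (hs : Spans X) {p : E3}
    (H : ∀ R ∈ facets X, ∀ n d, FacetNormal X R n d → n ⬝ᵥ p ≤ d) : p ∈ cx X := by
  by_contra hp
  obtain ⟨z, hz⟩ := hs
  have hzK : z ∈ cx X := interior_subset hz
  -- separation
  obtain ⟨f, u, hfa, hfp⟩ := geometric_hahn_banach_closed_point (convex_cx X)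
    (isCompact_cx X).isClosed hp
  obtain ⟨g, hg⟩ := exists_dot_of_linear (f : E3 →ₗ[ℝ] ℝ)
  have hgu : ∀ a ∈ cx X, g ⬝ᵥ a < u := fun a ha => by
    rw [← hg]; exact hfa a ha
  have hgp : u < g ⬝ᵥ p := by rw [← hg]; exact hfp
  have hgz : 0 < u - g ⬝ᵥ z := by linarith [hgu z hzK]
  set m : E3 := (u - g ⬝ᵥ z)⁻¹ • g with hm
  have hmX : m ∈ polarAt (X : Set E3) z := by
    intro a ha
    have ha' := hgu a (subset_convexHull ℝ _ ha)
    rw [hm, smul_dotProduct, dotProduct_sub, smul_eq_mul, inv_mul_le_iff₀ hgz]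
    linarith
  have hmp : 1 < m ⬝ᵥ (p - z) := by
    rw [hm, smul_dotProduct, dotProduct_sub, smul_eq_mul, lt_inv_mul_iff₀ hgz]
    linarith
  -- maximum over the polar
  have hPi := isCompact_polarAt hz
  have hcont : Continuous fun y : E3 => y ⬝ᵥ (p - z) := by
    unfold dotProduct
    fun_prop
  obtain ⟨y₀, hy₀, hmax⟩ := hPi.exists_isMaxOn ⟨m, hmX⟩ hcont.continuousOn
  set M := y₀ ⬝ᵥ (p - z) with hM
  have hmaxle : ∀ y ∈ polarAt (X : Set E3) z, y ⬝ᵥ (p - z) ≤ M := fun y hy => hmax hy
  have hM1 : 1 < M := lt_of_lt_of_le hmp (hmaxle m hmX)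
  -- the face
  set F : Set E3 := polarAt (X : Set E3) z ∩ {y | y ⬝ᵥ (p - z) = M} with hF
  have hFcomp : IsCompact F := hPi.inter_right (isClosed_eq hcont continuous_const)
  obtain ⟨n, hn⟩ := hFcomp.extremePoints_nonempty ⟨y₀, hy₀, rfl⟩
  have hnF : n ∈ F := hn.1
  have hnPi : n ∈ polarAt (X : Set E3) z := hnF.1
  have hnM : n ⬝ᵥ (p - z) = M := hnF.2
  have hn0 : n ≠ 0 := by
    rintro rfl
    simp only [zero_dotProduct] at hnM
    linarith
  -- the tight set
  set R : Finset E3 := X.filter fun x => n ⬝ᵥ (x - z) = 1 with hR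
  have hspan : Submodule.span ℝ (((R.image fun x => x - z) : Finset E3) : Set E3) = ⊤ := by
    by_contra hne
    obtain ⟨v, hv0, hv⟩ := exists_normal_of_ne_top hne
    have hvR : ∀ x ∈ R, v ⬝ᵥ (x - z) = 0 := fun x hx =>
      hv _ (Submodule.subset_span (by
        exact_mod_cast Finset.mem_image_of_mem (fun x => x - z) hx))
    -- small perturbation
    have hev : ∀ᶠ ε : ℝ in nhdsWithin 0 (Set.Ioi 0), ∀ x ∈ X,
        (n + ε • v) ⬝ᵥ (x - z) ≤ 1 ∧ (n - ε • v) ⬝ᵥ (x - z) ≤ 1 := by
      rw [Filter.eventually_all_finset]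
      intro x hx
      by_cases hxR : x ∈ R
      · refine Filter.Eventually.of_forall fun ε => ?_
        have h1 := (Finset.mem_filter.1 hxR).2
        have h2 := hvR x hxR
        simp only [add_dotProduct, sub_dotProduct, smul_dotProduct, h1, h2, smul_zero, add_zero,
          sub_zero, le_refl, and_self]
      · have hlt : n ⬝ᵥ (x - z) < 1 := by
          refine lt_of_le_of_ne (hnPi x hx) fun he => hxR ?_
          exact Finset.mem_filter.2 ⟨hx, he⟩
        have c1 : Continuous fun ε : ℝ => (n + ε • v) ⬝ᵥ (x - z) := by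
          simp only [add_dotProduct, smul_dotProduct, smul_eq_mul]
          fun_prop
        have c2 : Continuous fun ε : ℝ => (n - ε • v) ⬝ᵥ (x - z) := by
          simp only [sub_dotProduct, smul_dotProduct, smul_eq_mul]
          fun_prop
        have t1 : ∀ᶠ ε : ℝ in nhds 0, (n + ε • v) ⬝ᵥ (x - z) < 1 :=
          c1.continuousAt.eventually_lt continuousAt_const (by simpa using hlt)
        have t2 : ∀ᶠ ε : ℝ in nhds 0, (n - ε • v) ⬝ᵥ (x - z) < 1 :=
          c2.continuousAt.eventually_lt continuousAt_const (by simpa using hlt)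
        exact nhdsWithin_le_nhds ((t1.and t2).mono fun ε h => ⟨h.1.le, h.2.le⟩)
    obtain ⟨ε, hε, hε0⟩ := (hev.and self_mem_nhdsWithin).exists
    have hε0' : 0 < ε := hε0
    have ha : n + ε • v ∈ polarAt (X : Set E3) z := fun x hx => (hε x hx).1
    have hb : n - ε • v ∈ polarAt (X : Set E3) z := fun x hx => (hε x hx).2
    have hale := hmaxle _ ha
    have hble := hmaxle _ hb
    rw [add_dotProduct, smul_dotProduct, hnM] at hale
    rw [sub_dotProduct, smul_dotProduct, hnM] at hble
    have hv0' : v ⬝ᵥ (p - z) = 0 := by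
      simp only [smul_eq_mul] at hale hble
      have a1 : ε * (v ⬝ᵥ (p - z)) ≤ 0 := by linarith
      have a2 : 0 ≤ ε * (v ⬝ᵥ (p - z)) := by linarith
      have a3 : ε * (v ⬝ᵥ (p - z)) = 0 := le_antisymm a1 a2
      exact (mul_eq_zero.1 a3).resolve_left hε0'.ne'
    have haF : n + ε • v ∈ F := ⟨ha, by
      show (n + ε • v) ⬝ᵥ (p - z) = M
      rw [add_dotProduct, smul_dotProduct, hnM, hv0', smul_zero, add_zero]⟩
    have hbF : n - ε • v ∈ F := ⟨hb, by
      show (n - ε • v) ⬝ᵥ (p - z) = M
      rw [sub_dotProduct, smul_dotProduct, hnM, hv0', smul_zero, sub_zero]⟩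
    have hseg : n ∈ openSegment ℝ (n + ε • v) (n - ε • v) := by
      refine ⟨1 / 2, 1 / 2, by norm_num, by norm_num, by norm_num, ?_⟩
      ext i
      simp only [Pi.add_apply, Pi.smul_apply, Pi.sub_apply, smul_eq_mul]
      ring
    have hext := (mem_extremePoints.1 hn).2 _ haF _ hbF hseg
    have : ε • v = 0 := by
      have := hext.1
      simpa using this
    rcases smul_eq_zero.1 this with h | h
    · exact hε0'.ne' h
    · exact hv0 h
  -- card of `R`
  have hcard : 3 ≤ R.card := by
    have h1 := finrank_span_finset_le_card (R := ℝ) (R.image fun x => x - z)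
    simp only [Set.finrank] at h1
    rw [hspan, finrank_top] at h1
    have h2 : Module.finrank ℝ E3 = 3 := by simp
    have h3 : (R.image fun x => x - z).card ≤ R.card := Finset.card_image_le
    omega
  -- the facet
  have hfn : FacetNormal X R n (1 + n ⬝ᵥ z) := by
    refine ⟨hn0, fun x hx => ?_, fun x hx => ?_⟩
    · have := hnPi x hx
      rw [dotProduct_sub] at this
      linarith
    · constructor
      · intro he
        refine Finset.mem_filter.2 ⟨hx, ?_⟩
        rw [dotProduct_sub]
        linarith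
      · intro hxR
        have := (Finset.mem_filter.1 hxR).2
        rw [dotProduct_sub] at this
        linarith
  have hRfacet : R ∈ facets X :=
    mem_facets.2 ⟨Finset.filter_subset _ _, hcard, n, _, hfn⟩
  have hfinal := H R hRfacet n _ hfn
  rw [dotProduct_sub] at hnM
  linarith

/-- **Ratio test.** For `q ∈ cx X` and a direction `ε ≠ 0` of the height axis the ray from `q`
leaves the hull through a facet whose normal has `ε * n 0 > 0`.

Paper proof. Choose a normal for each facet (all normals of a facet are positive multiples of each other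
by `facetNormal_unique`). Among the facets with `ε * n 0 > 0` (nonempty, else the
whole ray is in the hull by `mem_cx_of_facets`, contradicting boundedness) take one minimizing
`s = (d - n ⬝ᵥ q) / (ε * n 0) ≥ 0`. Then all facet inequalities hold at `q + s ε e₀`: for `ε * n 0 ≤ 0`
since the value does not increase, otherwise by minimality. Again `mem_cx_of_facets`. -/
theorem exit_facet (hc : ConvexPos X) (hs : Spans X) {q : E3} (hq : q ∈ cx X) {ε : ℝ} (hε : ε ≠ 0) :
    ∃ s : ℝ, 0 ≤ s ∧ ∃ R ∈ facets X, ∃ n d, FacetNormal X R n d ∧ 0 < ε * n 0 ∧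
      mk (q 0 + s * ε) (base q) ∈ cx X ∧ n ⬝ᵥ mk (q 0 + s * ε) (base q) = d := by
  -- the ray
  have hray : ∀ n : E3, ∀ s : ℝ, n ⬝ᵥ mk (q 0 + s * ε) (base q) = n ⬝ᵥ q + s * (ε * n 0) := by
    intro n s
    have h1 := dot_mk n (q 0 + s * ε) (base q)
    have h2 := dot_mk n (q 0) (base q)
    rw [mk_eta] at h2
    rw [h1, h2]
    ring
  -- choose a normal for every facet
  have hch : ∀ R : Finset E3, ∃ nd : E3 × ℝ, R ∈ facets X → FacetNormal X R nd.1 nd.2 := by
    intro R
    by_cases hR : R ∈ facets X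
    · obtain ⟨_, _, n, d, h⟩ := mem_facets.1 hR
      exact ⟨(n, d), fun _ => h⟩
    · exact ⟨(0, 0), fun h => (hR h).elim⟩
  choose nd hnd using hch
  -- to check membership it suffices to test the chosen normals
  have hmemtest : ∀ p : E3, (∀ R ∈ facets X, (nd R).1 ⬝ᵥ p ≤ (nd R).2) → p ∈ cx X := by
    intro p hp
    refine mem_cx_of_facets hs fun R hR n d hfn => ?_
    have hR' := mem_facets.1 hR
    obtain ⟨κ, hκ, hn, hd⟩ := facetNormal_unique hc hs hR'.2.1 hR'.1 (hnd R hR) hfn
    rw [hn, hd, smul_dotProduct, smul_eq_mul]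
    exact mul_le_mul_of_nonneg_left (hp R hR) hκ.le
  set G : Finset (Finset E3) := (facets X).filter fun R => 0 < ε * (nd R).1 0 with hG
  -- nonempty
  have hGne : G.Nonempty := by
    by_contra hemp
    rw [Finset.not_nonempty_iff_eq_empty] at hemp
    have hnp : ∀ R ∈ facets X, ε * (nd R).1 0 ≤ 0 := by
      intro R hR
      by_contra hpos
      push Not at hpos
      have : R ∈ G := Finset.mem_filter.2 ⟨hR, hpos⟩
      rw [hemp] at this
      simp at this
    have hall : ∀ s : ℝ, 0 ≤ s → mk (q 0 + s * ε) (base q) ∈ cx X := by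
      intro s hs0
      refine hmemtest _ fun R hR => ?_
      rw [hray]
      have h1 := (hnd R hR).le hq
      have h2 : s * (ε * (nd R).1 0) ≤ 0 := mul_nonpos_of_nonneg_of_nonpos hs0 (hnp R hR)
      linarith
    obtain ⟨B, hB⟩ := (isCompact_cx X).isBounded.exists_norm_le
    have hle : ∀ s : ℝ, 0 ≤ s → |q 0 + s * ε| ≤ B := by
      intro s hs0
      have h1 := hB _ (hall s hs0)
      have h2 := norm_le_pi_norm (mk (q 0 + s * ε) (base q)) 0
      simp only [mk_zero, Real.norm_eq_abs] at h2
      linarith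
    have h1 := hle (( |B| + |q 0| + 1) / |ε|) (by positivity)
    have h2 : ((|B| + |q 0| + 1) / |ε|) * |ε| = |B| + |q 0| + 1 := by
      have : |ε| ≠ 0 := abs_ne_zero.2 hε
      field_simp
    have h3 : |(|B| + |q 0| + 1) / |ε| * ε| = |B| + |q 0| + 1 := by
      rw [abs_mul, abs_of_nonneg (by positivity : 0 ≤ (|B| + |q 0| + 1) / |ε|), h2]
    have h4 : |(|B| + |q 0| + 1) / |ε| * ε| ≤ |q 0 + (|B| + |q 0| + 1) / |ε| * ε| + |q 0| := by
      have := abs_sub_abs_le_abs_sub ((|B| + |q 0| + 1) / |ε| * ε) (-(q 0))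
      rw [abs_neg, sub_neg_eq_add, add_comm _ (q 0)] at this
      linarith
    have h5 := le_abs_self B
    linarith
  -- the minimizer
  obtain ⟨R, hRG, hmin⟩ := G.exists_min_image
    (fun R => ((nd R).2 - (nd R).1 ⬝ᵥ q) / (ε * (nd R).1 0)) hGne
  have hRF : R ∈ facets X := (Finset.mem_filter.1 hRG).1
  have hRpos : 0 < ε * (nd R).1 0 := (Finset.mem_filter.1 hRG).2
  set s := ((nd R).2 - (nd R).1 ⬝ᵥ q) / (ε * (nd R).1 0) with hs'
  have hs0 : 0 ≤ s := div_nonneg (sub_nonneg.2 ((hnd R hRF).le hq)) hRpos.le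
  refine ⟨s, hs0, R, hRF, (nd R).1, (nd R).2, hnd R hRF, hRpos, ?_, ?_⟩
  · refine hmemtest _ fun R' hR' => ?_
    rw [hray]
    have h1 := (hnd R' hR').le hq
    by_cases hp : 0 < ε * (nd R').1 0
    · have h2 := hmin R' (Finset.mem_filter.2 ⟨hR', hp⟩)
      have h3 : s * (ε * (nd R').1 0) ≤ (nd R').2 - (nd R').1 ⬝ᵥ q := (le_div_iff₀ hp).1 h2
      linarith
    · push Not at hp
      have h2 : s * (ε * (nd R').1 0) ≤ 0 := mul_nonpos_of_nonneg_of_nonpos hs0 hp
      linarith
  · rw [hray]
    have h1 : s * (ε * (nd R).1 0) = (nd R).2 - (nd R).1 ⬝ᵥ q := div_mul_cancel₀ _ hRpos.ne'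
    linarith

end Vale.Agent.Lib.P248G
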