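import Vale.Agent.Lib.P248G.Balance
import Vale.Agent.Lib.P227.BM1

/-!
# P248, JOB A5: volume of the midpoint, and the shadow inequality.
-/

open MeasureTheory Set Matrix
open scoped ENNReal

noncomputable section

namespace Vale.Agent.Lib.P248G

variable {ι : Type} [Fintype ι]

/-- The inverse of the slicing map is `mk`. -/
lemma piFinSuccAbove_symm_eq (q : ℝ × E2) :
    (MeasurableEquiv.piFinSuccAbove (fun _ : Fin 3 => ℝ) 0).symm q = mk q.1 q.2 := by
  ext i
  refine Fin.cases ?_ (fun j => ?_) i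
  · simp [MeasurableEquiv.piFinSuccAbove, mk]
  · simp [MeasurableEquiv.piFinSuccAbove, mk]

/-- Slicing along the height coordinate. -/
lemma volume_eq_lintegral_fiber {S : Set E3} (hS : MeasurableSet S) :
    volume S = ∫⁻ y : E2, volume {s : ℝ | mk s y ∈ S} := by
  have hmp := (volume_preserving_piFinSuccAbove (fun _ : Fin 3 => ℝ) 0).symm
  have h1 := hmp.measure_preimage hS.nullMeasurableSet
  have hpre : (MeasurableEquiv.piFinSuccAbove (fun _ : Fin 3 => ℝ) 0).symm ⁻¹' S
      = {q : ℝ × E2 | mk q.1 q.2 ∈ S} := by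
    ext q
    rw [Set.mem_preimage, piFinSuccAbove_symm_eq]
    rfl
  rw [← h1, hpre, Measure.volume_eq_prod, Measure.prod_apply_symm]
  · rfl
  · rw [← hpre]
    exact hS.preimage (MeasurableEquiv.piFinSuccAbove (fun _ : Fin 3 => ℝ) 0).symm.measurable

lemma continuous_mk_left (y : E2) : Continuous (fun s : ℝ => mk s y) := by
  apply continuous_pi
  intro i
  refine Fin.cases ?_ (fun j => ?_) i
  · show Continuous (fun s : ℝ => mk s y 0)
    simp only [mk_zero]
    exact continuous_id
  · show Continuous (fun s : ℝ => mk s y (Fin.succ j))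
    simp only [mk, Fin.cons_succ]
    exact continuous_const

omit [Fintype ι] in
lemma isCompact_shK [Finite ι] (b : ι → E2) (h : ι → ℝ) : IsCompact (shK b h) := by
  unfold shK
  exact (Set.finite_range _).isCompact_convexHull ℝ

omit [Fintype ι] in
lemma isCompact_fiber [Finite ι] (b : ι → E2) (h : ι → ℝ) (y : E2) :
    IsCompact {s : ℝ | mk s y ∈ shK b h} := by
  have hcl : IsClosed {s : ℝ | mk s y ∈ shK b h} :=
    (isCompact_shK b h).isClosed.preimage (continuous_mk_left y)
  have hbd : Bornology.IsBounded {s : ℝ | mk s y ∈ shK b h} := by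
    obtain ⟨R, hR⟩ := (isCompact_shK b h).isBounded.subset_closedBall (0 : E3)
    refine (Metric.isBounded_closedBall (x := (0 : ℝ)) (r := R)).subset ?_
    intro s hs
    have h1 := hR hs
    rw [Metric.mem_closedBall, dist_zero_right] at h1 ⊢
    have h2 := norm_le_pi_norm (mk s y) 0
    simpa [mk] using h2.trans h1
  exact Metric.isCompact_of_isClosed_isBounded hcl hbd

/-- Volume of the midpoint when fibers add. Slicing along the height coordinate
(`volume_preserving_piFinSuccAbove`, compare `prekopa_leindler` in `P227/PL.lean`):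
`volume S = ∫⁻ y, volume {s | mk s y ∈ S}`. For fixed `y`, the fibers `A₁`, `A₂`, `C` of `shK b r1`,
`shK b r2`, `shK b (mid r1 r2)` are compact; `A₁` is empty iff `y` is not in the hull of the `b i`
iff `A₂` is empty iff `C` is empty (`mem_shK_iff`). The hypothesis says `(A₁ + A₂) / 2 ⊆ C` so
`volume A₁ + volume A₂ ≤ 2 volume C` (`Vale.Agent.Lib.P227.bm_compact`). Integrate. -/
theorem volume_mid_ge [Nonempty ι] (b : ι → E2) (r1 r2 : ι → ℝ)
    (fiber : ∀ y p₁ p₂, mk p₁ y ∈ shK b r1 → mk p₂ y ∈ shK b r2 →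
      mk ((p₁ + p₂) / 2) y ∈ shK b (mid r1 r2)) :
    (volume (shK b r1)).toReal + (volume (shK b r2)).toReal ≤
      2 * (volume (shK b (mid r1 r2))).toReal := by
  have hm1 := (isCompact_shK b r1).isClosed.measurableSet
  have hm2 := (isCompact_shK b r2).isClosed.measurableSet
  have hm3 := (isCompact_shK b (mid r1 r2)).isClosed.measurableSet
  -- the fibers
  have hpt : ∀ y : E2, volume {s : ℝ | mk s y ∈ shK b r1} + volume {s : ℝ | mk s y ∈ shK b r2}
      ≤ 2 * volume {s : ℝ | mk s y ∈ shK b (mid r1 r2)} := by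
    intro y
    by_cases hne : ∃ l : ι → ℝ, (∀ i, 0 ≤ l i) ∧ ∑ i, l i = 1 ∧ ∑ i, l i • b i = y
    · obtain ⟨l, hl0, hl1, hl2⟩ := hne
      have ne1 : {s : ℝ | mk s y ∈ shK b r1}.Nonempty := by
        refine ⟨∑ i, l i * r1 i, ?_⟩
        simp only [Set.mem_ofPred_eq]
        rw [mem_shK_iff]
        exact ⟨l, hl0, hl1, by simpa using hl2, by simp⟩
      have ne2 : {s : ℝ | mk s y ∈ shK b r2}.Nonempty := by
        refine ⟨∑ i, l i * r2 i, ?_⟩
        simp only [Set.mem_ofPred_eq]
        rw [mem_shK_iff]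
        exact ⟨l, hl0, hl1, by simpa using hl2, by simp⟩
      have hbm := Vale.Agent.Lib.P227.bm_compact (isCompact_fiber b r1 y) (isCompact_fiber b r2 y)
        ne1 ne2 (α := 1 / 2) (β := 1 / 2) (by norm_num) (by norm_num)
        (C := {s : ℝ | mk s y ∈ shK b (mid r1 r2)}) (by
          intro u hu v hv
          have := fiber y u v hu hv
          have e : (1 / 2 : ℝ) * u + 1 / 2 * v = (u + v) / 2 := by ring
          show mk ((1 / 2 : ℝ) * u + 1 / 2 * v) y ∈ shK b (mid r1 r2)
          rw [e]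
          exact this)
      have hh : (2 : ℝ≥0∞) * ENNReal.ofReal (1 / 2) = 1 := by
        rw [show (2 : ℝ≥0∞) = ENNReal.ofReal 2 by simp, ← ENNReal.ofReal_mul (by norm_num)]
        norm_num
      calc volume {s : ℝ | mk s y ∈ shK b r1} + volume {s : ℝ | mk s y ∈ shK b r2}
          = 2 * (ENNReal.ofReal (1 / 2) * volume {s : ℝ | mk s y ∈ shK b r1}
              + ENNReal.ofReal (1 / 2) * volume {s : ℝ | mk s y ∈ shK b r2}) := by
            rw [mul_add, ← mul_assoc, ← mul_assoc, hh, one_mul, one_mul]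
        _ ≤ _ := by gcongr
    · have e1 : {s : ℝ | mk s y ∈ shK b r1} = ∅ := by
        ext s
        simp only [Set.mem_ofPred_eq, Set.mem_empty_iff_false, iff_false]
        intro hs
        obtain ⟨l, a, c, d, _⟩ := mem_shK_iff.mp hs
        exact hne ⟨l, a, c, by simpa using d⟩
      have e2 : {s : ℝ | mk s y ∈ shK b r2} = ∅ := by
        ext s
        simp only [Set.mem_ofPred_eq, Set.mem_empty_iff_false, iff_false]
        intro hs
        obtain ⟨l, a, c, d, _⟩ := mem_shK_iff.mp hs
        exact hne ⟨l, a, c, by simpa using d⟩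
      rw [e1, e2]
      simp
  have hmeas : Measurable (fun y : E2 => volume {s : ℝ | mk s y ∈ shK b r1}) := by
    have hset : MeasurableSet {q : ℝ × E2 | mk q.1 q.2 ∈ shK b r1} := by
      have : {q : ℝ × E2 | mk q.1 q.2 ∈ shK b r1}
          = (MeasurableEquiv.piFinSuccAbove (fun _ : Fin 3 => ℝ) 0).symm ⁻¹' (shK b r1) := by
        ext q
        rw [Set.mem_preimage, piFinSuccAbove_symm_eq]
        rfl
      rw [this]
      exact hm1.preimage (MeasurableEquiv.piFinSuccAbove (fun _ : Fin 3 => ℝ) 0).symm.measurable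
    exact measurable_measure_prodMk_right hset
  have h := lintegral_mono (μ := (volume : Measure E2)) hpt
  rw [lintegral_add_left hmeas, lintegral_const_mul' _ _ (by norm_num),
    ← volume_eq_lintegral_fiber hm1, ← volume_eq_lintegral_fiber hm2,
    ← volume_eq_lintegral_fiber hm3] at h
  have f1 := (isCompact_shK b r1).measure_lt_top (μ := volume)
  have f2 := (isCompact_shK b r2).measure_lt_top (μ := volume)
  have f3 := (isCompact_shK b (mid r1 r2)).measure_lt_top (μ := volume)
  have h2 := ENNReal.toReal_mono (ENNReal.mul_ne_top (by norm_num) f3.ne) h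
  rw [ENNReal.toReal_add f1.ne f2.ne, ENNReal.toReal_mul] at h2
  simpa using h2

/-- **Shadow inequality.** From `polar_harmonic`, `volume_mid_ge`. With `v k` the volumes of the polytopes and
`a k` the polar volumes at `z k`, `m = min (v₁ a₁) (v₂ a₂)`: `v k ≥ m / a k`, so
`v = volume mid ≥ (v₁ + v₂) / 2 ≥ m (a₁ + a₂) / (2 a₁ a₂)` while `w = polar volume of mid ≥
2 a₁ a₂ / (a₁ + a₂)`; hence `v w ≥ m`. -/
theorem shadow_ineq [Nonempty ι] (b : ι → E2) (r1 r2 : ι → ℝ)
    (h1 : (interior (shK b r1)).Nonempty) (h2 : (interior (shK b r2)).Nonempty)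
    (fiber : ∀ y p₁ p₂, mk p₁ y ∈ shK b r1 → mk p₂ y ∈ shK b r2 →
      mk ((p₁ + p₂) / 2) y ∈ shK b (mid r1 r2))
    {z : E3} (hz : z ∈ interior (shK b (mid r1 r2))) :
    ∃ z₁ ∈ interior (shK b r1), ∃ z₂ ∈ interior (shK b r2),
      min (volProd (shK b r1) z₁) (volProd (shK b r2) z₂) ≤ volProd (shK b (mid r1 r2)) z := by
  have hz' : mk (z 0) (base z) ∈ interior (shK b (mid r1 r2)) := by
    rw [mk_eta]
    exact hz
  obtain ⟨x, y, hxy, hx, hy, ha1, ha2, hharm⟩ := polar_harmonic h1 h2 hz'
  rw [mk_eta] at hharm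
  refine ⟨mk x (base z), hx, mk y (base z), hy, ?_⟩
  have hv := volume_mid_ge b r1 r2 fiber
  simp only [volProd]
  generalize (volume (polarAt (shK b r1) (mk x (base z)))).toReal = a₁ at *
  generalize (volume (polarAt (shK b r2) (mk y (base z)))).toReal = a₂ at *
  generalize (volume (polarAt (shK b (mid r1 r2)) z)).toReal = w at *
  have hv0 : 0 ≤ (volume (shK b (mid r1 r2))).toReal := ENNReal.toReal_nonneg
  generalize (volume (shK b r1)).toReal = v₁ at *
  generalize (volume (shK b r2)).toReal = v₂ at *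
  generalize (volume (shK b (mid r1 r2))).toReal = v at *
  set m := min (v₁ * a₁) (v₂ * a₂) with hm
  have m1 : m ≤ v₁ * a₁ := min_le_left _ _
  have m2 : m ≤ v₂ * a₂ := min_le_right _ _
  have hsum : 0 < a₁ + a₂ := by positivity
  have key : m * (a₁ + a₂) ≤ (v * w) * (a₁ + a₂) := by
    have s1 : m * a₂ ≤ v₁ * a₁ * a₂ := mul_le_mul_of_nonneg_right m1 ha2.le
    have s2 : m * a₁ ≤ v₂ * a₂ * a₁ := mul_le_mul_of_nonneg_right m2 ha1.le
    have s3 : (v₁ + v₂) * (a₁ * a₂) ≤ (2 * v) * (a₁ * a₂) :=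
      mul_le_mul_of_nonneg_right hv (by positivity)
    have s4 : v * (2 * (a₁ * a₂)) ≤ v * (w * (a₁ + a₂)) :=
      mul_le_mul_of_nonneg_left hharm hv0
    nlinarith
  exact le_of_mul_le_mul_right key hsum

end Vale.Agent.Lib.P248G
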